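import Crest.Agent.R171.Defs

/-! Task BRING.
`exists_k`: `k = RatFunc (ZMod 5)`, `M = k ⧸ range ℘`, `℘ c = c^5 - c` (additive).  If `n • 1 = c^5 - c` then `c` is integral over
`(ZMod 5)[X]`, hence a polynomial, of degree 0, so `c^5 = c` and `(n : k) = 0`.
`exists_B`: `B = MvPolynomial (Fin 2) k ⧸ span {X 0 ^ 5, X 1 ^ 5}`; `Derivation.liftOfSurjective` of `pderiv i`; `aug` from
`constantCoeff`/`aeval 0`; `ε` from `lcoeff` at the exponent `(4,4)` (`coeff_pderiv`, `coeff_monomial_mul'`).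
`exists_W2`: `T` = structure of pairs `(a0, a1)` with the two `key` identities, `(a0,a1)+(b0,b1) = (a0+b0, a1+b1-Q2 a0 b0)`,
`(a0,a1)(b0,b1) = (a0 b0, a0^5 b1 + b0^5 a1)`, `-(a0,a1) = (-a0,-a1)`, `1 = (1,0)`; all axioms are polynomial identities modulo
`(5 : B) = 0` (`linear_combination (..) * h5`; or `add_pow_char` with `CharP`-free `h5`); `te c = (algebraMap c, 0)`. -/

set_option autoImplicit false

namespace Crest.Agent.R171

namespace BRingAux

open MvPolynomial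

section B

variable (k : Type) [Field k] [CharP k 5]

noncomputable def I5 : Ideal (MvPolynomial (Fin 2) k) := Ideal.span {X 0 ^ 5, X 1 ^ 5}

theorem pd_pow (i j : Fin 2) : pderiv i (X j ^ 5 : MvPolynomial (Fin 2) k) = 0 := by
  have h5 : ((5 : ℕ) : MvPolynomial (Fin 2) k) = 0 := CharP.cast_eq_zero _ 5
  rw [Derivation.leibniz_pow, nsmul_eq_mul, h5, zero_mul]

theorem pd_mem (i : Fin 2) (p : MvPolynomial (Fin 2) k) (hp : Ideal.Quotient.mkₐ k (I5 k) p = 0) :
    Ideal.Quotient.mkₐ k (I5 k) (pderiv i p) = 0 := by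
  obtain ⟨a, b, rfl⟩ := Ideal.mem_span_pair.1 (Ideal.Quotient.eq_zero_iff_mem.1 hp)
  refine Ideal.Quotient.eq_zero_iff_mem.2 (Ideal.mem_span_pair.2 ⟨pderiv i a, pderiv i b, ?_⟩)
  simp only [map_add, Derivation.leibniz, pd_pow, smul_eq_mul]
  ring

noncomputable def dB (i : Fin 2) :
    Derivation k (MvPolynomial (Fin 2) k ⧸ I5 k) (MvPolynomial (Fin 2) k ⧸ I5 k) :=
  Derivation.liftOfSurjective (Ideal.Quotient.mkₐ_surjective k (I5 k)) (pd_mem k i)

theorem dB_mk (i : Fin 2) (p : MvPolynomial (Fin 2) k) :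
    dB k i (Ideal.Quotient.mkₐ k (I5 k) p) = Ideal.Quotient.mkₐ k (I5 k) (pderiv i p) :=
  Derivation.liftOfSurjective_apply _ (pd_mem k i) _

noncomputable def top : Fin 2 →₀ ℕ := Finsupp.single 0 4 + Finsupp.single 1 4

theorem top_apply (i : Fin 2) : top i = 4 := by fin_cases i <;> simp [top]

omit [CharP k 5] in
theorem coeff_top (i : Fin 2) (a : MvPolynomial (Fin 2) k) : coeff top (a * X i ^ 5) = 0 := by
  classical
  rw [X_pow_eq_monomial, coeff_mul_monomial', if_neg]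
  intro h
  simpa [top_apply] using h i

omit [CharP k 5] in
theorem exists_eps : ∃ ε : (MvPolynomial (Fin 2) k ⧸ I5 k) →ₗ[k] k,
    ∀ p, ε (Ideal.Quotient.mkₐ k (I5 k) p) = coeff top p := by
  refine ⟨((I5 k).restrictScalars k).liftQ (lcoeff k top) (fun p hp => ?_) ∘ₗ
    (Submodule.Quotient.restrictScalarsEquiv k (I5 k)).symm.toLinearMap, fun p => rfl⟩
  obtain ⟨a, b, rfl⟩ := Ideal.mem_span_pair.1 hp
  simp [coeff_top]

omit [CharP k 5] in
theorem dec (p : MvPolynomial (Fin 2) k) :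
    ∃ a b, p = C (aeval (0 : Fin 2 → k) p) + X 0 * a + X 1 * b := by
  induction p using MvPolynomial.induction_on with
  | C c => exact ⟨0, 0, by simp⟩
  | add p q hp hq =>
    obtain ⟨a, b, hp⟩ := hp
    obtain ⟨c, d, hq⟩ := hq
    exact ⟨a + c, b + d, by rw [map_add, map_add]; linear_combination hp + hq⟩
  | mul_X p i _ =>
    fin_cases i
    · exact ⟨p, 0, by simp [mul_comm]⟩
    · exact ⟨0, p, by simp [mul_comm]⟩

end B

section W

variable {k B : Type} [Field k] [CommRing B] [Algebra k B]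

/-- the key identity -/
def Key (d : Derivation k B B) (x a b : B) : Prop := d b = x ^ 4 * d a ^ 5 - a ^ 4 * d a

theorem d_ofNat (d : Derivation k B B) : d 2 = 0 := by exact_mod_cast d.map_natCast 2

theorem Key.add (h5 : (5 : B) = 0) {d : Derivation k B B} {x a b a' b' : B} (h : Key d x a b)
    (h' : Key d x a' b') : Key d x (a + a') (b + b' - Q2 a a') := by
  unfold Key Q2 at *
  simp only [map_add, map_sub, Derivation.leibniz, Derivation.leibniz_pow, d_ofNat, smul_eq_mul,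
    nsmul_eq_mul]
  push_cast
  linear_combination h + h' - x ^ 4 * (d a ^ 4 * d a' + 2 * d a ^ 3 * d a' ^ 2 + 2 * d a ^ 2 * d a' ^ 3 +
    d a * d a' ^ 4) * h5

theorem Key.mul (h5 : (5 : B) = 0) {d : Derivation k B B} {x a b a' b' : B} (h : Key d x a b)
    (h' : Key d x a' b') : Key d x (a * a') (a ^ 5 * b' + a' ^ 5 * b) := by
  unfold Key at *
  simp only [map_add, Derivation.leibniz, Derivation.leibniz_pow, smul_eq_mul, nsmul_eq_mul]
  push_cast
  linear_combination a ^ 5 * h' + a' ^ 5 * h + (b' * a ^ 4 * d a + b * a' ^ 4 * d a' -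
    x ^ 4 * ((a * d a') ^ 4 * (a' * d a) + 2 * (a * d a') ^ 3 * (a' * d a) ^ 2 +
      2 * (a * d a') ^ 2 * (a' * d a) ^ 3 + (a * d a') * (a' * d a) ^ 4)) * h5

theorem Key.neg {d : Derivation k B B} {x a b : B} (h : Key d x a b) : Key d x (-a) (-b) := by
  unfold Key at *
  simp only [map_neg]
  linear_combination -h

theorem Key.const {d : Derivation k B B} {x a : B} (h : d a = 0) : Key d x a 0 := by
  simp [Key, h]

@[ext] structure W2 (𝔅 : BData k B) where
  a : B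
  b : B
  hx : Key 𝔅.dx 𝔅.x a b
  hy : Key 𝔅.dy 𝔅.y a b

variable [CharP k 5] {𝔅 : BData k B}

variable (k B) in
include k in
theorem five : (5 : B) = 0 := by
  rw [← map_ofNat (algebraMap k B) 5, show (OfNat.ofNat 5 : k) = 0 by
    exact_mod_cast CharP.cast_eq_zero k 5, map_zero]

instance : Add (W2 𝔅) :=
  ⟨fun u v => ⟨_, _, u.hx.add (five k B) v.hx, u.hy.add (five k B) v.hy⟩⟩

instance : Mul (W2 𝔅) :=
  ⟨fun u v => ⟨_, _, u.hx.mul (five k B) v.hx, u.hy.mul (five k B) v.hy⟩⟩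

instance : Neg (W2 𝔅) := ⟨fun u => ⟨_, _, u.hx.neg, u.hy.neg⟩⟩

instance : Zero (W2 𝔅) := ⟨⟨0, 0, .const (map_zero _), .const (map_zero _)⟩⟩

instance : One (W2 𝔅) := ⟨⟨1, 0, .const (Derivation.map_one_eq_zero _), .const (Derivation.map_one_eq_zero _)⟩⟩

theorem add_a (u v : W2 𝔅) : (u + v).a = u.a + v.a := rfl
theorem add_b (u v : W2 𝔅) : (u + v).b = u.b + v.b - Q2 u.a v.a := rfl
theorem mul_a (u v : W2 𝔅) : (u * v).a = u.a * v.a := rfl
theorem mul_b (u v : W2 𝔅) : (u * v).b = u.a ^ 5 * v.b + v.a ^ 5 * u.b := rfl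
omit [CharP k 5] in
theorem neg_ab (u : W2 𝔅) : (-u).a = -u.a ∧ (-u).b = -u.b := ⟨rfl, rfl⟩
omit [CharP k 5] in
theorem zero_ab : (0 : W2 𝔅).a = 0 ∧ (0 : W2 𝔅).b = 0 := ⟨rfl, rfl⟩
omit [CharP k 5] in
theorem one_ab : (1 : W2 𝔅).a = 1 ∧ (1 : W2 𝔅).b = 0 := ⟨rfl, rfl⟩

instance : CommRing (W2 𝔅) := CommRing.ofMinimalAxioms
  (fun u v w => by ext <;> simp only [add_a, add_b, Q2] <;> ring)
  (fun u => by ext <;> simp only [add_a, add_b, zero_ab, Q2] <;> ring)
  (fun u => by ext <;> simp only [add_a, add_b, zero_ab, neg_ab, Q2] <;> ring)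
  (fun u v w => by ext <;> simp only [mul_a, mul_b] <;> ring)
  (fun u v => by ext <;> simp only [mul_a, mul_b] <;> ring)
  (fun u => by ext <;> simp only [mul_a, mul_b, one_ab] <;> ring)
  (fun u v w => by
    ext <;> simp only [mul_a, mul_b, add_a, add_b, Q2]
    · ring
    · linear_combination u.b * (v.a ^ 4 * w.a + 2 * v.a ^ 3 * w.a ^ 2 + 2 * v.a ^ 2 * w.a ^ 3 +
        v.a * w.a ^ 4) * five k B)

end W

end BRingAux

open BRingAux

theorem exists_k : ∃ (k : Type) (_ : Field k) (_ : CharP k 5) (_ : Infinite k) (M : Type)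
    (_ : AddCommGroup M) (ε0 : k →+ M), (∀ c, ε0 (c ^ 5) = ε0 c) ∧
      ∀ n : ℤ, ¬ (5 : ℤ) ∣ n → ε0 (n : k) ≠ 0 := by
  have : Fact (Nat.Prime 5) := ⟨by norm_num⟩
  let k := RatFunc (ZMod 5)
  have inj : Function.Injective (algebraMap (Polynomial (ZMod 5)) k) := RatFunc.algebraMap_injective _
  have hc : CharP k 5 := charP_of_injective_algebraMap inj 5
  let f : k →+ k := (frobenius k 5).toAddMonoidHom - AddMonoidHom.id k
  have hf : ∀ c, f c = c ^ 5 - c := fun c => rfl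
  refine ⟨k, inferInstance, hc, Infinite.of_injective _ inj, k ⧸ f.range, inferInstance,
    QuotientAddGroup.mk' _, fun c => ?_, fun n hn h => hn ?_⟩
  · exact (QuotientAddGroup.eq_iff_sub_mem).2 ⟨c, hf c⟩
  · obtain ⟨c, hc⟩ := (QuotientAddGroup.eq_zero_iff _).1 h
    rw [hf] at hc
    have hi : IsIntegral (Polynomial (ZMod 5)) c :=
      ⟨Polynomial.X ^ 5 - Polynomial.X - Polynomial.C (n : Polynomial (ZMod 5)), by monicity!, by
        rw [Polynomial.eval₂_sub, Polynomial.eval₂_C]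
        simp [hc]⟩
    obtain ⟨p, rfl⟩ := IsIntegrallyClosed.isIntegral_iff.1 hi
    have h1 : p ^ 5 - p = n := inj (by simpa using hc)
    have h2 := congrArg (Polynomial.eval 0) h1
    simp only [Polynomial.eval_sub, Polynomial.eval_pow, ZMod.pow_card, sub_self,
      Polynomial.eval_intCast] at h2
    exact_mod_cast (ZMod.intCast_zmod_eq_zero_iff_dvd _ 5).1 h2.symm

theorem exists_B (k : Type) [Field k] [CharP k 5] :
    ∃ (B : Type) (_ : CommRing B) (_ : Algebra k B), Nonempty (BData k B) := by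
  obtain ⟨ε, hε⟩ := exists_eps k
  have hs := Ideal.Quotient.mkₐ_surjective k (I5 k)
  have h5 : ((4 : ℕ) : k) + 1 = 0 := by exact_mod_cast CharP.cast_eq_zero k 5
  have hd : ∀ i b, ε (dB k i b) = 0 := fun i b => by
    obtain ⟨p, rfl⟩ := hs b
    rw [dB_mk, hε, MvPolynomial.coeff_pderiv, top_apply, h5, mul_zero]
  refine ⟨MvPolynomial (Fin 2) k ⧸ I5 k, inferInstance, inferInstance, ⟨{
    dx := dB k 0
    dy := dB k 1
    x := Ideal.Quotient.mkₐ k _ (MvPolynomial.X 0)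
    y := Ideal.Quotient.mkₐ k _ (MvPolynomial.X 1)
    aug := Ideal.Quotient.liftₐ _ (MvPolynomial.aeval 0) fun p hp => ?_
    ε := ε
    dxy := fun b => ?_
    dx_x := by rw [dB_mk]; simp
    dx_y := by rw [dB_mk]; simp
    dy_x := by rw [dB_mk]; simp
    dy_y := by rw [dB_mk]; simp
    x5 := by rw [← map_pow]; exact Ideal.Quotient.eq_zero_iff_mem.2 (Ideal.subset_span (by simp))
    y5 := by rw [← map_pow]; exact Ideal.Quotient.eq_zero_iff_mem.2 (Ideal.subset_span (by simp))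
    dec := fun b => ?_
    ε_dx := hd 0
    ε_dy := hd 1
    ε_top := ?_ }⟩⟩
  · obtain ⟨a, b, rfl⟩ := Ideal.mem_span_pair.1 hp
    simp
  · obtain ⟨p, rfl⟩ := hs b
    rw [dB_mk, dB_mk, dB_mk, dB_mk]
    congr 1
    ext m
    simp only [MvPolynomial.coeff_pderiv, add_right_comm m]
    simp [mul_right_comm]
  · obtain ⟨p, rfl⟩ := hs b
    obtain ⟨a, b, h⟩ := dec k p
    refine ⟨Ideal.Quotient.mkₐ k _ a, Ideal.Quotient.mkₐ k _ b, ?_⟩
    conv_lhs => rw [h]
    simp only [map_add, map_mul]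
    rfl
  · rw [← map_pow, ← map_pow, ← map_mul, hε, MvPolynomial.X_pow_eq_monomial,
      MvPolynomial.X_pow_eq_monomial, MvPolynomial.monomial_mul]
    simp [top]

theorem exists_W2 {k B : Type} [Field k] [CharP k 5] [CommRing B] [Algebra k B] (𝔅 : BData k B) :
    ∃ (T : Type) (_ : CommRing T), Nonempty (WData 𝔅 T) := by
  exact ⟨W2 𝔅, inferInstance, ⟨{
    π := { toFun := W2.a, map_one' := rfl, map_mul' := mul_a, map_zero' := rfl, map_add' := add_a }
    δ := W2.b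
    xs := ⟨𝔅.x, 0, by simp [Key, 𝔅.dx_x], .const 𝔅.dy_x⟩
    ys := ⟨𝔅.y, 0, .const 𝔅.dx_y, by simp [Key, 𝔅.dy_y]⟩
    te := fun c => ⟨algebraMap k B c, 0, .const (Derivation.map_algebraMap _ c),
      .const (Derivation.map_algebraMap _ c)⟩
    ext := fun _ _ => W2.ext
    δ_add := add_b
    δ_mul := mul_b
    δ_one := rfl
    key_x := W2.hx
    key_y := W2.hy
    π_xs := rfl
    δ_xs := rfl
    π_ys := rfl
    δ_ys := rfl
    π_te := fun _ => rfl
    δ_te := fun _ => rfl }⟩⟩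

end Crest.Agent.R171
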