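import Crest.Agent.R171.Defs

/-! Task COC: calculus of 3-cocycles on commuting elements.
Every identity is an integer combination of instances of the cocycle identity after rewriting the
commutations; use `have := hφ ..; rw [commutations] at this` and `linear_combination (norm := abel)`.
* pointwise slant lemma: if `g` commutes with `a b c` then
  `ψ b c - ψ (a*b) c + ψ a (b*c) - ψ a b = 0` for `ψ a b = φ g a b - φ a g b + φ a b g`
  (± instances `hφ g a b c, hφ a g b c, hφ a b g c, hφ a b c g`).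
* `alt3 φ g a b = ψ a b - ψ b a`; for a 2-cocycle, `a ↦ ψ a b - ψ b a` is additive on the
  centraliser of `b` (instances `(a,a',b), (a,b,a'), (b,a,a')`); this gives `alt3_mul_left`.
* conjugation: with `a' = g a g⁻¹` (so `a' * g = g * a`), the instances
  `hφ g a b c, hφ a' g b c, hφ a' b' g c, hφ a' b' c' g` give
  `φ a' b' c' - φ a b c = ± (δ h) (a,b,c)`, `h a b = φ g a b - φ a' g b + φ a' b' g`, and `alt3` of a
  coboundary vanishes on commuting triples.
* `exists_ext`: `E = M × Z` (a structure), `(m,g)(m',g') = (m+m'+ψ g g', g g')`, one `= (-ψ 1 1, 1)`,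
  `Group.ofLeftAxioms`; note `ψ 1 g = ψ 1 1 = ψ g 1`. -/

set_option autoImplicit false

namespace Crest.Agent.R171

variable {G M : Type} [Group G] [AddCommGroup M]

theorem alt3_swap12 {X : Type} (φ : X → X → X → M) (a b c : X) :
    alt3 φ b a c = - alt3 φ a b c := by
  unfold alt3; abel

theorem alt3_swap23 {X : Type} (φ : X → X → X → M) (a b c : X) :
    alt3 φ a c b = - alt3 φ a b c := by
  unfold alt3; abel

theorem alt3_cyc {X : Type} (φ : X → X → X → M) (a b c : X) :
    alt3 φ b c a = alt3 φ a b c := by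
  unfold alt3; abel

/-- the chain homotopy between conjugation by `g` and the identity -/
theorem coc_homotopy {φ : G → G → G → M} (hφ : IsCoc3 φ) {g a b c a' b' c' : G}
    (ha : a' * g = g * a) (hb : b' * g = g * b) (hc : c' * g = g * c) :
    φ a' b' c' - φ a b c + ((φ g b c - φ b' g c + φ b' c' g) -
      (φ g (a * b) c - φ (a' * b') g c + φ (a' * b') c' g) +
      (φ g a (b * c) - φ a' g (b * c) + φ a' (b' * c') g) -
      (φ g a b - φ a' g b + φ a' b' g)) = 0 := by
  have h1 := hφ g a b c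
  have h2 := hφ a' g b c
  have h3 := hφ a' b' g c
  have h4 := hφ a' b' c' g
  rw [ha] at h2
  rw [hb] at h3
  rw [hc] at h4
  linear_combination (norm := abel) h2 - h1 - h3 + h4

theorem alt3_mul_left {φ : G → G → G → M} (hφ : IsCoc3 φ) {a a' b c : G}
    (hab : Commute a b) (hac : Commute a c) (ha'b : Commute a' b) (ha'c : Commute a' c)
    (hbc : Commute b c) : alt3 φ (a * a') b c = alt3 φ a b c + alt3 φ a' b c := by
  have h1 := coc_homotopy hφ hac.eq ha'c.eq hbc.eq
  have h2 := coc_homotopy hφ hac.eq hbc.eq ha'c.eq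
  have h3 := coc_homotopy hφ hbc.eq hac.eq ha'c.eq
  rw [← ha'b.eq] at h2
  rw [← hab.eq] at h3
  unfold alt3
  linear_combination (norm := abel) h2 - h1 - h3

theorem alt3_conj {φ : G → G → G → M} (hφ : IsCoc3 φ) (g : G) {a b c : G}
    (hab : Commute a b) (hac : Commute a c) (hbc : Commute b c) :
    alt3 φ (g * a * g⁻¹) (g * b * g⁻¹) (g * c * g⁻¹) = alt3 φ a b c := by
  have e : ∀ x : G, g * x * g⁻¹ * g = g * x := fun x => inv_mul_cancel_right _ _
  have c' : ∀ {x y : G}, Commute x y →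
      g * y * g⁻¹ * (g * x * g⁻¹) = g * x * g⁻¹ * (g * y * g⁻¹) := fun {x y} h => by
    simp only [mul_assoc, inv_mul_cancel_left]
    rw [← mul_assoc y, ← h.eq, mul_assoc]
  have h1 := coc_homotopy hφ (e a) (e b) (e c)
  have h2 := coc_homotopy hφ (e a) (e c) (e b)
  have h3 := coc_homotopy hφ (e b) (e a) (e c)
  have h4 := coc_homotopy hφ (e b) (e c) (e a)
  have h5 := coc_homotopy hφ (e c) (e a) (e b)
  have h6 := coc_homotopy hφ (e c) (e b) (e a)
  simp only [← hab.eq, ← hac.eq, ← hbc.eq, c' hab, c' hac, c' hbc] at h1 h2 h3 h4 h5 h6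
  unfold alt3
  linear_combination (norm := abel) h1 - h2 - h3 + h4 + h5 - h6

theorem slant_coc {Z : Type} [Group Z] {φ : G → G → G → M} (hφ : IsCoc3 φ) (g : G) (f : Z →* G)
    (hf : ∀ z, Commute g (f z)) :
    IsCoc2 (fun a b : Z => φ g (f a) (f b) - φ (f a) g (f b) + φ (f a) (f b) g) := by
  intro a b c
  have h := coc_homotopy hφ (hf a).symm.eq (hf b).symm.eq (hf c).symm.eq
  simp only [map_mul]
  linear_combination (norm := abel) h

/-- the central extension defined by a 2-cocycle -/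
@[ext] structure CExt {Z : Type} [Group Z] {ψ : Z → Z → M} (hψ : IsCoc2 ψ) where
  m : M
  g : Z

instance {Z : Type} [Group Z] {ψ : Z → Z → M} (hψ : IsCoc2 ψ) : Mul (CExt hψ) :=
  ⟨fun u v => ⟨u.m + v.m + ψ u.g v.g, u.g * v.g⟩⟩

instance {Z : Type} [Group Z] {ψ : Z → Z → M} (hψ : IsCoc2 ψ) : One (CExt hψ) :=
  ⟨⟨-ψ 1 1, 1⟩⟩

instance {Z : Type} [Group Z] {ψ : Z → Z → M} (hψ : IsCoc2 ψ) : Inv (CExt hψ) :=
  ⟨fun u => ⟨-ψ 1 1 - u.m - ψ u.g⁻¹ u.g, u.g⁻¹⟩⟩

theorem IsCoc2.one_left {Z : Type} [Group Z] {ψ : Z → Z → M} (hψ : IsCoc2 ψ) (g : Z) :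
    ψ 1 g = ψ 1 1 := by
  have := hψ 1 1 g
  simp only [one_mul] at this
  linear_combination (norm := abel) this

theorem IsCoc2.one_right {Z : Type} [Group Z] {ψ : Z → Z → M} (hψ : IsCoc2 ψ) (g : Z) :
    ψ g 1 = ψ 1 1 := by
  have := hψ g 1 1
  simp only [mul_one] at this
  linear_combination (norm := abel) -this

instance {Z : Type} [Group Z] {ψ : Z → Z → M} (hψ : IsCoc2 ψ) : Group (CExt hψ) :=
  Group.ofLeftAxioms
    (fun u v w => CExt.ext (by
      change u.m + v.m + ψ u.g v.g + w.m + ψ (u.g * v.g) w.g =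
        u.m + (v.m + w.m + ψ v.g w.g) + ψ u.g (v.g * w.g)
      linear_combination (norm := abel) -hψ u.g v.g w.g) (mul_assoc u.g v.g w.g))
    (fun u => CExt.ext (by
      change -ψ 1 1 + u.m + ψ 1 u.g = u.m
      rw [hψ.one_left u.g]; abel) (one_mul u.g))
    (fun u => CExt.ext (by
      change -ψ 1 1 - u.m - ψ u.g⁻¹ u.g + u.m + ψ u.g⁻¹ u.g = -ψ 1 1
      abel) (inv_mul_cancel u.g))

theorem exists_ext {Z : Type} [Group Z] {ψ : Z → Z → M} (hψ : IsCoc2 ψ) :
    ∃ (E : Type) (_ : Group E) (p : E →* Z), Function.Surjective p ∧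
      (∀ e, p e = 1 → ∀ e', Commute e e') ∧
      ∀ u v : E, Commute u v → ψ (p u) (p v) = ψ (p v) (p u) := by
  refine ⟨CExt hψ, inferInstance, MonoidHom.mk' CExt.g fun _ _ => rfl, fun g => ⟨⟨0, g⟩, rfl⟩,
    fun e he e' => ?_, fun u v h => ?_⟩
  · have he' : e.g = 1 := he
    refine CExt.ext ?_ ?_
    · change e.m + e'.m + ψ e.g e'.g = e'.m + e.m + ψ e'.g e.g
      rw [he', hψ.one_left e'.g, hψ.one_right e'.g, add_comm e.m]
    · change e.g * e'.g = e'.g * e.g
      rw [he', one_mul, mul_one]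
  · have h1 : u.m + v.m + ψ u.g v.g = v.m + u.m + ψ v.g u.g := congrArg CExt.m h.eq
    rw [add_comm u.m] at h1
    exact add_left_cancel h1

end Crest.Agent.R171
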