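import Crest.Agent.R171.Defs

/-! Task CONJ: conjugation formulas in a Steinberg system (Milnor, Introduction to algebraic
K-theory, §9).
`acts_w`: cases on `k, l ∈ {i, j, other}`.  Basic moves: `x i j a * x j l b * (x i j a)⁻¹ = x i l (a b) * x j l b`,
and `x j l b * x i j a * (x j l b)⁻¹ = x i j a * x i l (-(a b))` (from `mul`, `comm`).  First the four
mixed cases `(i,l),(j,l),(k,i),(k,j)` and the disjoint case; for `(k,l) = (i,j)` or `(j,i)` write
`x i j r = [x i n r, x n j 1]` with a third index `n` (`H3`) and conjugate the commutator.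
`acts_h` = `Acts.mul` + funext.  `h_commute_one_sub` (Milnor 9.8): `w i j (-1) = w j i 1`
(conjugate `w i j u` by itself: `w i j u = w j i (-u⁻¹)`), then for `u + v = 1`
`w u * w (-1) * w v = (w u * x j i 1 * (w u)⁻¹) * w u * x i j (-1) * w v * ((w v)⁻¹ * x j i 1 * w v)
 = x i j (-u²) * w u * x i j (-1) * w v * x i j (-v²) = w (u v)`
(`(w v)⁻¹ = w (-v)`, `u - 1 + v = 0`, `u⁻¹ + v⁻¹ = (u v)⁻¹`, `u - u² = u v = v - v²`), so
`h u * h v = h (u v) = h v * h u`. -/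

set_option autoImplicit false

namespace Crest.Agent.R171

namespace SS
variable {ι R G : Type} [DecidableEq ι] [CommRing R] [Group G] {S : SS ι R G}

omit [DecidableEq ι] in
theorem x_zero {i j : ι} (hij : i ≠ j) : S.x i j 0 = 1 := by
  have := S.add hij 0 0
  rw [add_zero] at this
  exact mul_eq_left.mp this

omit [DecidableEq ι] in
theorem x_inv {i j : ι} (hij : i ≠ j) (a : R) : (S.x i j a)⁻¹ = S.x i j (-a) := by
  rw [inv_eq_iff_mul_eq_one, S.add hij, add_neg_cancel, x_zero hij]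

omit [DecidableEq ι] in
theorem Acts.mul {g g' : G} {π π' : Equiv.Perm ι} {μ μ' : ι → Rˣ} (h : S.Acts g π μ)
    (h' : S.Acts g' π' μ') : S.Acts (g * g') (π * π') (fun k => μ (π' k) * μ' k) := by
  intro k l hkl r
  have h1 := h' k l hkl r
  have h2 := h (π' k) (π' l) (fun e => hkl (π'.injective e))
    ((μ' k : R) * r * (((μ' l)⁻¹ : Rˣ) : R))
  calc g * g' * S.x k l r * (g * g')⁻¹ = g * (g' * S.x k l r * g'⁻¹) * g⁻¹ := by group
    _ = _ := by
      rw [h1, h2]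
      simp only [Equiv.Perm.coe_mul, Function.comp, mul_inv_rev, Units.val_mul]
      congr 1
      ring

omit [DecidableEq ι] in
theorem Acts.inv {g : G} {π : Equiv.Perm ι} {μ : ι → Rˣ} (h : S.Acts g π μ) :
    S.Acts g⁻¹ π⁻¹ (fun k => (μ (π⁻¹ k))⁻¹) := by
  intro k l hkl r
  have h1 := h (π⁻¹ k) (π⁻¹ l) (fun e => hkl (π⁻¹.injective e))
    ((((μ (π⁻¹ k))⁻¹ : Rˣ) : R) * r * ((((μ (π⁻¹ l))⁻¹)⁻¹ : Rˣ) : R))
  have e : (μ (π⁻¹ k) : R) * ((((μ (π⁻¹ k))⁻¹ : Rˣ) : R) * r * ((((μ (π⁻¹ l))⁻¹)⁻¹ : Rˣ) : R)) *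
      (((μ (π⁻¹ l))⁻¹ : Rˣ) : R) = r := by
    have a1 := (μ (π⁻¹ k)).mul_inv
    have a2 := (μ (π⁻¹ l)).mul_inv
    rw [inv_inv]
    linear_combination (r * (μ (π⁻¹ l) : R) * (((μ (π⁻¹ l))⁻¹ : Rˣ) : R)) * a1 + r * a2
  rw [e] at h1
  have p1 : ∀ m, π (π⁻¹ m) = m := fun m => π.apply_symm_apply m
  rw [p1, p1] at h1
  rw [← h1]
  simp only [inv_inv, mul_assoc, inv_mul_cancel_left, inv_mul_cancel, mul_one]

omit [DecidableEq ι] in
theorem Acts.conj {g w : G} {π : Equiv.Perm ι} {μ t : ι → Rˣ} (hw : S.Acts w π μ)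
    (hg : S.Acts g 1 t) : S.Acts (w * g * w⁻¹) 1 (fun k => t (π⁻¹ k)) := by
  have h := (hw.mul hg).mul hw.inv
  have e1 : π * 1 * π⁻¹ = 1 := by group
  rw [e1] at h
  convert h using 2 with k
  simp only [Equiv.Perm.coe_one, id]
  rw [mul_right_comm, mul_inv_cancel, one_mul]

omit [DecidableEq ι] in
theorem cj_A {i j l : ι} (hij : i ≠ j) (hjl : j ≠ l) (hil : i ≠ l) (a b : R) :
    S.x i j a * S.x j l b * (S.x i j a)⁻¹ = S.x i l (a * b) * S.x j l b := by
  rw [← S.mul hij hjl hil]; group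

omit [DecidableEq ι] in
theorem cj_B {i j l : ι} (hij : i ≠ j) (hjl : j ≠ l) (hil : i ≠ l) (a b : R) :
    S.x j l b * S.x i j a * (S.x j l b)⁻¹ = S.x i j a * S.x i l (-(a * b)) := by
  have h := S.mul hij hjl hil (-a) b
  rw [← x_inv hij, neg_mul] at h
  rw [← h]; group

omit [DecidableEq ι] in
theorem cj_C {i j k l : ι} (hij : i ≠ j) (hkl : k ≠ l) (hjk : j ≠ k) (hil : i ≠ l) (a b : R) :
    S.x i j a * S.x k l b * (S.x i j a)⁻¹ = S.x k l b := by
  rw [(S.comm hij hkl hjk hil a b).eq]; group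

omit [DecidableEq ι] in
theorem cj_D {i j k l : ι} (hij : i ≠ j) (hkl : k ≠ l) (hjk : j ≠ k) (hil : i ≠ l) (a b : R) :
    S.x i j (-a) * S.x k l b * S.x i j a = S.x k l b := by
  have := cj_C (S := S) hij hkl hjk hil (-a) b
  rwa [x_inv hij, neg_neg] at this

theorem cj_mul (g a b : G) : g * (a * b) * g⁻¹ = (g * a * g⁻¹) * (g * b * g⁻¹) := by group

omit [DecidableEq ι] in
theorem w_cj (i j : ι) (u : Rˣ) (y : G) : S.w i j u * y * (S.w i j u)⁻¹ =
    S.x i j u * (S.x j i (-((u⁻¹ : Rˣ) : R)) * (S.x i j u * y * (S.x i j u)⁻¹) *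
      (S.x j i (-((u⁻¹ : Rˣ) : R)))⁻¹) * (S.x i j u)⁻¹ := by
  unfold SS.w; group

omit [DecidableEq ι] in
theorem w_il {i j l : ι} (hij : i ≠ j) (hjl : j ≠ l) (hil : i ≠ l) (u : Rˣ) (r : R) :
    S.w i j u * S.x i l r * (S.w i j u)⁻¹ = S.x j l (-((u⁻¹ : Rˣ) : R) * r) := by
  rw [w_cj, cj_C hij hil hij.symm hil, cj_A hij.symm hil hjl, cj_mul, cj_A hij hjl hil,
    cj_C hij hil hij.symm hil]
  have e : (u : R) * (-((u⁻¹ : Rˣ) : R) * r) = -r := by
    have := u.mul_inv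
    linear_combination (-r) * this
  rw [e, cj_D hil hjl hjl.symm hil]

omit [DecidableEq ι] in
theorem w_jl {i j l : ι} (hij : i ≠ j) (hjl : j ≠ l) (hil : i ≠ l) (u : Rˣ) (r : R) :
    S.w i j u * S.x j l r * (S.w i j u)⁻¹ = S.x i l ((u : R) * r) := by
  rw [w_cj, cj_A hij hjl hil, cj_mul (S.x j i _), cj_A hij.symm hil hjl, cj_C hij.symm hjl hij hjl]
  have e : -((u⁻¹ : Rˣ) : R) * ((u : R) * r) = -r := by
    have := u.mul_inv
    linear_combination (-r) * this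
  rw [e, cj_D hjl hil hil.symm hjl, cj_C hij hil hij.symm hil]

omit [DecidableEq ι] in
theorem w_ki {i j k : ι} (hij : i ≠ j) (hki : k ≠ i) (hkj : k ≠ j) (u : Rˣ) (r : R) :
    S.w i j u * S.x k i r * (S.w i j u)⁻¹ = S.x k j (-(r * (u : R))) := by
  rw [w_cj, cj_B hki hij hkj, cj_mul (S.x j i _), cj_C hij.symm hki hki.symm hij.symm,
    cj_B hkj hij.symm hki]
  have e : -(-(r * (u : R)) * -((u⁻¹ : Rˣ) : R)) = -r := by
    have := u.mul_inv
    linear_combination (-r) * this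
  rw [e, ← mul_assoc (S.x k i r), ← x_inv hki, cj_C hki hkj hki.symm hkj,
    cj_C hij hkj hkj.symm hij]

omit [DecidableEq ι] in
theorem w_kj {i j k : ι} (hij : i ≠ j) (hki : k ≠ i) (hkj : k ≠ j) (u : Rˣ) (r : R) :
    S.w i j u * S.x k j r * (S.w i j u)⁻¹ = S.x k i (r * ((u⁻¹ : Rˣ) : R)) := by
  rw [w_cj, cj_C hij hkj hkj.symm hij, cj_B hkj hij.symm hki, cj_mul, cj_C hij hkj hkj.symm hij,
    cj_B hki hij hkj]
  have e : -(-(r * -((u⁻¹ : Rˣ) : R)) * (u : R)) = -r := by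
    have := u.mul_inv
    linear_combination (-r) * this
  rw [e, ← mul_assoc (S.x k j r), ← x_inv hkj, cj_C hkj hki hkj.symm hki]
  congr 1
  ring

theorem cj_comm (g a b : G) : g * (a * b * a⁻¹ * b⁻¹) * g⁻¹ =
    (g * a * g⁻¹) * (g * b * g⁻¹) * (g * a * g⁻¹)⁻¹ * (g * b * g⁻¹)⁻¹ := by group

omit [DecidableEq ι] in
theorem w_ij (H3 : ∀ i j : ι, ∃ k, k ≠ i ∧ k ≠ j) {i j : ι} (hij : i ≠ j) (u : Rˣ) (r : R) :
    S.w i j u * S.x i j r * (S.w i j u)⁻¹ =
      S.x j i (-((u⁻¹ : Rˣ) : R) * r * ((u⁻¹ : Rˣ) : R)) := by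
  obtain ⟨n, hni, hnj⟩ := H3 i j
  have h := S.mul hni.symm hnj hij r 1
  rw [mul_one] at h
  rw [← h, cj_comm, w_il hij hnj.symm hni.symm, w_kj hij hni hnj, S.mul hnj.symm hni hij.symm,
    one_mul]

omit [DecidableEq ι] in
theorem w_ji (H3 : ∀ i j : ι, ∃ k, k ≠ i ∧ k ≠ j) {i j : ι} (hij : i ≠ j) (u : Rˣ) (r : R) :
    S.w i j u * S.x j i r * (S.w i j u)⁻¹ = S.x i j ((u : R) * r * -(u : R)) := by
  obtain ⟨n, hni, hnj⟩ := H3 i j
  have h := S.mul hnj.symm hni hij.symm r 1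
  rw [mul_one] at h
  rw [← h, cj_comm, w_jl hij hnj.symm hni.symm, w_ki hij hni hnj, S.mul hni.symm hnj hij,
    one_mul]

theorem acts_w (H3 : ∀ i j : ι, ∃ k, k ≠ i ∧ k ≠ j) {i j : ι} (hij : i ≠ j) (u : Rˣ) :
    S.Acts (S.w i j u) (Equiv.swap i j)
      (fun k => if k = i then -u⁻¹ else if k = j then u else 1) := by
  intro k l hkl r
  by_cases hki : k = i
  · subst hki
    by_cases hlj : l = j
    · subst hlj
      rw [w_ij H3 hij]
      simp [hij.symm]
    · rw [w_il hij (Ne.symm hlj) hkl]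
      simp [hkl.symm, hlj, Equiv.swap_apply_of_ne_of_ne hkl.symm hlj]
  · by_cases hkj : k = j
    · subst hkj
      by_cases hli : l = i
      · subst hli
        rw [w_ji H3 hij]
        simp [hki]
      · rw [w_jl hij hkl (Ne.symm hli)]
        simp [hki, hli, hkl.symm, Equiv.swap_apply_of_ne_of_ne hli hkl.symm]
    · by_cases hli : l = i
      · subst hli
        rw [w_ki hij hki hkj]
        simp [hki, hkj, Equiv.swap_apply_of_ne_of_ne hki hkj]
      · by_cases hlj : l = j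
        · subst hlj
          rw [w_kj hij hki hkj]
          simp [hki, hkj, hli, Equiv.swap_apply_of_ne_of_ne hki hkj]
        · rw [w_cj, cj_C hij hkl (Ne.symm hkj) (Ne.symm hli),
            cj_C hij.symm hkl (Ne.symm hki) (Ne.symm hlj),
            cj_C hij hkl (Ne.symm hkj) (Ne.symm hli)]
          simp [hki, hkj, hli, hlj, Equiv.swap_apply_of_ne_of_ne hki hkj,
            Equiv.swap_apply_of_ne_of_ne hli hlj]

theorem acts_h (H3 : ∀ i j : ι, ∃ k, k ≠ i ∧ k ≠ j) {i j : ι} (hij : i ≠ j) (u : Rˣ) :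
    S.Acts (S.h i j u) 1 (dg i j u) := by
  have h := (acts_w (S := S) H3 hij u).mul (acts_w (S := S) H3 hij (-1))
  rw [Equiv.swap_mul_self] at h
  unfold SS.h
  convert h using 2 with k
  unfold dg
  by_cases hki : k = i
  · subst hki
    simp [hij.symm]
  · by_cases hkj : k = j
    · subst hkj
      simp [hki]
    · simp [hki, hkj, Equiv.swap_apply_of_ne_of_ne hki hkj]

omit [DecidableEq ι] in
theorem Acts.commute_x {g : G} {t : ι → Rˣ} (hg : S.Acts g 1 t) {k l : ι} (hkl : k ≠ l)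
    (ht : t k = t l) (r : R) : Commute g (S.x k l r) := by
  have h := hg k l hkl r
  have e : (t k : R) * r * (((t l)⁻¹ : Rˣ) : R) = r := by
    rw [ht]
    have := (t l).mul_inv
    linear_combination r * this
  rw [e] at h
  simp only [Equiv.Perm.coe_one, id] at h
  exact mul_inv_eq_iff_eq_mul.mp h

omit [DecidableEq ι] in
theorem Acts.commute_h {g : G} {t : ι → Rˣ} (hg : S.Acts g 1 t) {k l : ι} (hkl : k ≠ l)
    (ht : t k = t l) (u : Rˣ) : Commute g (S.h k l u) := by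
  have a := fun r => hg.commute_x hkl ht r
  have b := fun r => hg.commute_x hkl.symm ht.symm r
  unfold SS.h SS.w
  exact (((a _).mul_right (b _)).mul_right (a _)).mul_right
    (((a _).mul_right (b _)).mul_right (a _))

omit [DecidableEq ι] in
theorem w_alt (H3 : ∀ i j : ι, ∃ k, k ≠ i ∧ k ≠ j) {i j : ι} (hij : i ≠ j) (u : Rˣ) :
    S.w i j u = S.x j i (-((u⁻¹ : Rˣ) : R)) * S.x i j u * S.x j i (-((u⁻¹ : Rˣ) : R)) := by
  have h : S.w i j u = S.w i j u * (S.x i j (u : R) * S.x j i (-((u⁻¹ : Rˣ) : R)) *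
      S.x i j (u : R)) * (S.w i j u)⁻¹ := by
    have : S.x i j (u : R) * S.x j i (-((u⁻¹ : Rˣ) : R)) * S.x i j (u : R) = S.w i j u := rfl
    rw [this]; group
  rw [cj_mul, cj_mul, w_ij H3 hij, w_ji H3 hij] at h
  have e1 : -((u⁻¹ : Rˣ) : R) * (u : R) * ((u⁻¹ : Rˣ) : R) = -((u⁻¹ : Rˣ) : R) := by
    have := u.mul_inv
    linear_combination (-((u⁻¹ : Rˣ) : R)) * this
  have e2 : (u : R) * -((u⁻¹ : Rˣ) : R) * -(u : R) = (u : R) := by
    have := u.mul_inv
    linear_combination (u : R) * this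
  rwa [e1, e2] at h

omit [DecidableEq ι] in
theorem w_triple (H3 : ∀ i j : ι, ∃ k, k ≠ i ∧ k ≠ j) {i j : ι} (hij : i ≠ j)
    (u v : Rˣ) (huv : (u : R) + v = 1) :
    S.w i j u * S.w i j (-1) * S.w i j v = S.w i j (u * v) := by
  have h1 : S.w i j (-1) = S.x j i 1 * S.x i j (-1) * S.x j i 1 := by
    rw [w_alt H3 hij]; simp
  have h2 : S.w i j u * S.x j i 1 = S.x i j ((u : R) * 1 * -(u : R)) * S.w i j u := by
    rw [← w_ji H3 hij]; group
  have h3 : S.x j i 1 * S.w i j v = S.w i j v * S.x i j (-((v : R) * v)) := by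
    have h := w_ij (S := S) H3 hij v (-((v : R) * v))
    have e : -((v⁻¹ : Rˣ) : R) * -((v : R) * v) * ((v⁻¹ : Rˣ) : R) = 1 := by
      have := v.mul_inv
      linear_combination ((v : R) * ((v⁻¹ : Rˣ) : R) + 1) * this
    rw [e] at h
    rw [← h]; group
  have hu := u.mul_inv
  have hv := v.mul_inv
  calc S.w i j u * S.w i j (-1) * S.w i j v
      = (S.w i j u * S.x j i 1) * S.x i j (-1) * (S.x j i 1 * S.w i j v) := by rw [h1]; group
    _ = (S.x i j ((u : R) * 1 * -(u : R)) * S.x i j u) * S.x j i (-((u⁻¹ : Rˣ) : R)) *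
        (S.x i j u * S.x i j (-1) * S.x i j v) * S.x j i (-((v⁻¹ : Rˣ) : R)) *
        (S.x i j v * S.x i j (-((v : R) * v))) := by
      rw [h2, h3]; unfold SS.w; simp only [mul_assoc]
    _ = S.w i j (u * v) := by
      rw [S.add hij, S.add hij, S.add hij, S.add hij]
      have e0 : (u : R) + -1 + v = 0 := by linear_combination huv
      rw [e0, x_zero hij, mul_one, mul_assoc (S.x i j _), S.add hij.symm]
      unfold SS.w
      have e1 : (u : R) * 1 * -(u : R) + u = ((u * v : Rˣ) : R) := by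
        rw [Units.val_mul]; linear_combination (-(u : R)) * huv
      have e2 : (v : R) + -((v : R) * v) = ((u * v : Rˣ) : R) := by
        rw [Units.val_mul]; linear_combination (-(v : R)) * huv
      have e3 : -((u⁻¹ : Rˣ) : R) + -((v⁻¹ : Rˣ) : R) = -(((u * v)⁻¹ : Rˣ) : R) := by
        rw [mul_inv, Units.val_mul]
        linear_combination (-((u⁻¹ : Rˣ) : R) * ((v⁻¹ : Rˣ) : R)) * huv
          + ((v⁻¹ : Rˣ) : R) * hu + ((u⁻¹ : Rˣ) : R) * hv
      rw [e1, e2, e3]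

theorem h_commute_one_sub (H3 : ∀ i j : ι, ∃ k, k ≠ i ∧ k ≠ j) {i j : ι} (hij : i ≠ j)
    (u v : Rˣ) (huv : (u : R) + v = 1) : Commute (S.h i j u) (S.h i j v) := by
  have h1 := w_triple (S := S) H3 hij u v huv
  have h2 := w_triple (S := S) H3 hij v u (by rw [add_comm]; exact huv)
  show S.h i j u * S.h i j v = S.h i j v * S.h i j u
  unfold SS.h
  rw [← mul_assoc, ← mul_assoc (S.w i j v * S.w i j (-1)), h1, h2, mul_comm u v]

end SS

end Crest.Agent.R171
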