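import Mathlib
import Crest.Prelude.Def_Steinberg

/-!
Row 171 (S0259): shared definitions.

Plan.  `A` = regular local ring containing `X Y q` with `X*Y = Φ₅(q)`.  The symbol
`4·{1-X, 1-Y, q}` (realised by three commuting "diagonal" elements of `St A`) dies in `H₃(St F)` by
Milnor-K-theory relations, and it is detected over `A` by an explicit 3-cocycle on `GL_N(R')`
(configurations of generic flags) with values in an alternating symbol `I` on an Artinian ring `R'`.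
-/

set_option autoImplicit false

namespace Crest.Agent.R171

open Finset

/-! ### inhomogeneous cocycles with trivial coefficients -/

def IsCoc3 {G M : Type} [Group G] [AddCommGroup M] (φ : G → G → G → M) : Prop :=
  ∀ a b c d : G, φ b c d - φ (a * b) c d + φ a (b * c) d - φ a b (c * d) + φ a b c = 0

def IsCoc2 {G M : Type} [Group G] [AddCommGroup M] (ψ : G → G → M) : Prop :=
  ∀ a b c : G, ψ b c - ψ (a * b) c + ψ a (b * c) - ψ a b = 0

/-- antisymmetrisation (= value on the torus cycle when `a b c` commute) -/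
def alt3 {G M : Type} [AddCommGroup M] (φ : G → G → G → M) (a b c : G) : M :=
  φ a b c - φ a c b - φ b a c + φ b c a + φ c a b - φ c b a

/-! ### Steinberg systems -/

/-- a family of elements of `G` satisfying the Steinberg relations (values at `i = j` are junk) -/
structure SS (ι R G : Type) [CommRing R] [Group G] where
  x : ι → ι → R → G
  add : ∀ {i j : ι}, i ≠ j → ∀ a b : R, x i j a * x i j b = x i j (a + b)
  comm : ∀ {i j k l : ι}, i ≠ j → k ≠ l → j ≠ k → i ≠ l → ∀ a b : R, Commute (x i j a) (x k l b)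
  mul : ∀ {i j l : ι}, i ≠ j → j ≠ l → i ≠ l → ∀ a b : R,
    x i j a * x j l b * (x i j a)⁻¹ * (x j l b)⁻¹ = x i l (a * b)

namespace SS
variable {ι R G : Type} [CommRing R] [Group G]

def w (S : SS ι R G) (i j : ι) (u : Rˣ) : G :=
  S.x i j (u : R) * S.x j i (-((u⁻¹ : Rˣ) : R)) * S.x i j (u : R)

def h (S : SS ι R G) (i j : ι) (u : Rˣ) : G := S.w i j u * S.w i j (-1)

/-- conjugation by `g` acts on the generators like the monomial matrix `e k ↦ μ k • e (π k)` -/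
def Acts (S : SS ι R G) (g : G) (π : Equiv.Perm ι) (μ : ι → Rˣ) : Prop :=
  ∀ k l : ι, k ≠ l → ∀ r : R,
    g * S.x k l r * g⁻¹ = S.x (π k) (π l) ((μ k : R) * r * (((μ l)⁻¹ : Rˣ) : R))

end SS

/-- the diagonal matrix with `u` at `i`, `u⁻¹` at `j` -/
def dg {ι R : Type} [DecidableEq ι] [CommRing R] (i j : ι) (u : Rˣ) : ι → Rˣ :=
  fun k => if k = i then u else if k = j then u⁻¹ else 1

open Crest.AlgebraR.Steinberg in
/-- the generators of the stable Steinberg group -/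
def stx (R : Type) [CommRing R] (i j : ℕ) (a : R) : St R :=
  if h : i ≠ j then PresentedGroup.of (rels := rels R) (⟨(i, j), h⟩, a) else 1

/-- the three commuting tori -/
def a1 {R G : Type} [CommRing R] [Group G] (S : SS ℕ R G) (u : Rˣ) : G := S.h 0 3 u * S.h 1 2 u
def a2 {R G : Type} [CommRing R] [Group G] (S : SS ℕ R G) (u : Rˣ) : G := S.h 0 3 u * S.h 2 1 u
def a3 {R G : Type} [CommRing R] [Group G] (S : SS ℕ R G) (u : Rˣ) : G := S.h 0 1 u * S.h 3 2 u

/-! ### symbols -/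

/-- alternating trilinear forms -/
structure IsAlt {W M : Type} [AddCommGroup W] [AddCommGroup M] (I : W →+ W →+ W →+ M) : Prop where
  alt12 : ∀ a b, I a a b = 0
  alt23 : ∀ a b, I a b b = 0

/-- a logarithm `lg` on the units of `R` for which `I` is a Steinberg symbol -/
structure IsSym {R W M : Type} [CommRing R] [AddCommGroup W] [AddCommGroup M]
    (I : W →+ W →+ W →+ M) (lg : R → W) : Prop where
  alt : IsAlt I
  lg_mul : ∀ a b : R, IsUnit a → IsUnit b → lg (a * b) = lg a + lg b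
  lg_neg : ∀ a : R, IsUnit a → lg (-a) = lg a
  stein : ∀ (a b : R) (w : W), IsUnit a → IsUnit b → a + b = 1 → I (lg a) (lg b) w = 0

/-! ### abstract determinants of multisets of vectors -/

/-- `U L`: the determinant of the `card L` vectors of `L` (first `card L` coordinates) is a unit;
`Q L` its logarithm; `e m` the standard basis. -/
structure DetData (V : Type) {W M : Type} [AddCommGroup W] [AddCommGroup M]
    (I : W →+ W →+ W →+ M) where
  U : Multiset V → Prop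
  Q : Multiset V → W
  e : ℕ → V
  pl : ∀ (L : Multiset V) (a b c d : V) (w : W),
    U (L + {a} + {b}) → U (L + {a} + {c}) → U (L + {a} + {d}) → U (L + {b} + {c}) →
    U (L + {b} + {d}) → U (L + {c} + {d}) →
    I (Q (L + {a} + {b}) + Q (L + {c} + {d}) - Q (L + {a} + {c}) - Q (L + {b} + {d}))
      (Q (L + {a} + {d}) + Q (L + {b} + {c}) - Q (L + {a} + {c}) - Q (L + {b} + {d})) w = 0
  e_U : ∀ L : Multiset V, U (L + {e (Multiset.card L)}) ↔ U L
  e_Q : ∀ L : Multiset V, U L → Q (L + {e (Multiset.card L)}) = Q L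
  U_zero : U 0
  gen : ∀ 𝓛 : Finset (Multiset V), (∀ L ∈ 𝓛, ∃ v, U (L + {v})) → ∃ v, ∀ L ∈ 𝓛, U (L + {v})

/-- first `j` vectors of the flag `F` -/
def seg {V : Type} (F : ℕ → V) (j : ℕ) : Multiset V := (Multiset.range j).map F

/-- `Stack l s`: `s` is a sum of initial segments of the flags in `l` -/
inductive Stack {V : Type} : List (ℕ → V) → Multiset V → Prop
  | nil : Stack [] 0
  | cons (F : ℕ → V) (j : ℕ) {l : List (ℕ → V)} {s : Multiset V} :
      Stack l s → Stack (F :: l) (seg F j + s)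

/-- multi-indices `J : Fin k → ℕ` with `∑ J + r = m` -/
def IDX (k r m : ℕ) : Finset (Fin k → ℕ) :=
  (Fintype.piFinset fun _ : Fin k => Finset.range (m + 1)).filter fun J => ∑ i, J i + r = m

def stk {V : Type} {k : ℕ} (f : Fin k → ℕ → V) (J : Fin k → ℕ) : Multiset V := ∑ i, seg (f i) (J i)

def T3 {W M : Type} [AddCommGroup W] [AddCommGroup M] (I : W →+ W →+ W →+ M)
    (d0 d1 d2 d3 : W) : M := I (d0 - d3) (d1 - d3) (d2 - d3)

def T2 {W M : Type} [AddCommGroup W] [AddCommGroup M] (I : W →+ W →+ W →+ M)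
    (s d0 d1 d2 : W) : M := I s (d0 - d2) (d1 - d2)

namespace DetData
variable {V W M : Type} [AddCommGroup W] [AddCommGroup M] {I : W →+ W →+ W →+ M}

/-- the list of flags `l` is in general position at level `m` -/
def Gen (D : DetData V I) (m : ℕ) (l : List (ℕ → V)) : Prop :=
  l ≠ [] ∧ ∀ s, Stack l s → Multiset.card s = m → D.U s

def σ3 (D : DetData V I) (L : Multiset V) (a b c d : V) : M :=
  T3 I (D.Q (L + {b} + {c} + {d})) (D.Q (L + {a} + {c} + {d})) (D.Q (L + {a} + {b} + {d}))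
    (D.Q (L + {a} + {b} + {c}))

def σ2 (D : DetData V I) (s : W) (L : Multiset V) (a b c : V) : M :=
  T2 I s (D.Q (L + {b} + {c})) (D.Q (L + {a} + {c})) (D.Q (L + {a} + {b}))

def c3 (D : DetData V I) (m : ℕ) (F0 F1 F2 F3 : ℕ → V) : M :=
  ∑ J ∈ IDX 4 3 m, D.σ3 (stk ![F0, F1, F2, F3] J) (F0 (J 0)) (F1 (J 1)) (F2 (J 2)) (F3 (J 3))

def b3 (D : DetData V I) (m : ℕ) (F0 F1 F2 : ℕ → V) : M :=
  ∑ J ∈ IDX 3 2 m, D.σ3 (stk ![F0, F1, F2] J) (F0 (J 0)) (F1 (J 1)) (F2 (J 2)) (D.e m)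

def c2 (D : DetData V I) (s : W) (m : ℕ) (F0 F1 F2 : ℕ → V) : M :=
  ∑ J ∈ IDX 3 2 m, D.σ2 s (stk ![F0, F1, F2] J) (F0 (J 0)) (F1 (J 1)) (F2 (J 2))

def b2 (D : DetData V I) (s : W) (m : ℕ) (F0 F1 : ℕ → V) : M :=
  ∑ J ∈ IDX 2 1 m, D.σ2 s (stk ![F0, F1] J) (F0 (J 0)) (F1 (J 1)) (D.e m)

/-- `g` preserves level-`N` determinants -/
def Pres (D : DetData V I) (N : ℕ) (g : V → V) : Prop :=
  ∀ L : Multiset V, Multiset.card L = N → (D.U (L.map g) ↔ D.U L) ∧ D.Q (L.map g) = D.Q L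

/-- `g` acts on all determinants like the diagonal matrix with logarithmic entries `χ` -/
def Tor (D : DetData V I) (g : V → V) (χ : ℕ → W) : Prop :=
  ∀ L : Multiset V, (D.U (L.map g) ↔ D.U L) ∧
    (D.U L → D.Q (L.map g) = D.Q L + ∑ i ∈ range (Multiset.card L), χ i)

end DetData

/-- "second Chern class" of a diagonal pair, multiplied by `s` -/
def e2 {W M : Type} [AddCommGroup W] [AddCommGroup M] (I : W →+ W →+ W →+ M) (s : W)
    (b c : ℕ → W) : ℕ → M
  | 0 => 0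
  | m + 1 => e2 I s b c m + (I s (b m) (∑ i ∈ range m, c i) - I s (c m) (∑ i ∈ range m, b i))

/-- "third Chern class" of a diagonal triple -/
def e3 {W M : Type} [AddCommGroup W] [AddCommGroup M] (I : W →+ W →+ W →+ M)
    (a b c : ℕ → W) : ℕ → M
  | 0 => 0
  | m + 1 => e3 I a b c m + (e2 I (a m) b c m - e2 I (b m) a c m + e2 I (c m) a b m)

/-! ### elementary and diagonal maps on `ℕ → R` -/

def elem {R : Type} [CommRing R] (i j : ℕ) (r : R) (v : ℕ → R) : ℕ → R :=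
  Function.update v i (v i + r * v j)

def diagm {R : Type} [CommRing R] (t : ℕ → Rˣ) (v : ℕ → R) : ℕ → R := fun k => (t k : R) * v k

/-! ### the truncated polynomial ring `k[x,y]/(x⁵,y⁵)`, abstractly -/

structure BData (k B : Type) [Field k] [CommRing B] [Algebra k B] where
  dx : Derivation k B B
  dy : Derivation k B B
  x : B
  y : B
  aug : B →ₐ[k] k
  ε : B →ₗ[k] k
  dxy : ∀ b, dx (dy b) = dy (dx b)
  dx_x : dx x = 1
  dx_y : dx y = 0
  dy_x : dy x = 0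
  dy_y : dy y = 1
  x5 : x ^ 5 = 0
  y5 : y ^ 5 = 0
  dec : ∀ b, ∃ b1 b2, b = algebraMap k B (aug b) + x * b1 + y * b2
  ε_dx : ∀ b, ε (dx b) = 0
  ε_dy : ∀ b, ε (dy b) = 0
  ε_top : ε (x ^ 4 * y ^ 4) = 1

/-- the defining equation `Φ₅(1+y²) + x⁴y⁴ + x⁵y³` -/
def Epoly {R : Type} [CommRing R] (x y : R) : R :=
  y ^ 8 + 5 * y ^ 6 + (10 + x ^ 4) * y ^ 4 + x ^ 5 * y ^ 3 + 10 * y ^ 2 + 5

/-- `((a+b)⁵ - a⁵ - b⁵)/5` -/
def Q2 {B : Type} [CommRing B] (a b : B) : B :=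
  a ^ 4 * b + 2 * a ^ 3 * b ^ 2 + 2 * a ^ 2 * b ^ 3 + a * b ^ 4

/-- a subring of the length-two Witt vectors `W₂(B)`, `a = (π a, δ a)` -/
structure WData {k B : Type} [Field k] [CommRing B] [Algebra k B] (𝔅 : BData k B)
    (T : Type) [CommRing T] where
  π : T →+* B
  δ : T → B
  xs : T
  ys : T
  te : k → T
  ext : ∀ a b, π a = π b → δ a = δ b → a = b
  δ_add : ∀ a b, δ (a + b) = δ a + δ b - Q2 (π a) (π b)
  δ_mul : ∀ a b, δ (a * b) = π a ^ 5 * δ b + π b ^ 5 * δ a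
  δ_one : δ 1 = 0
  key_x : ∀ a, 𝔅.dx (δ a) = 𝔅.x ^ 4 * 𝔅.dx (π a) ^ 5 - π a ^ 4 * 𝔅.dx (π a)
  key_y : ∀ a, 𝔅.dy (δ a) = 𝔅.y ^ 4 * 𝔅.dy (π a) ^ 5 - π a ^ 4 * 𝔅.dy (π a)
  π_xs : π xs = 𝔅.x
  δ_xs : δ xs = 0
  π_ys : π ys = 𝔅.y
  δ_ys : δ ys = 0
  π_te : ∀ c, π (te c) = algebraMap k B c
  δ_te : ∀ c, δ (te c) = 0

namespace BData
variable {k B : Type} [Field k] [CommRing B] [Algebra k B]

/-- triples `(λ, p, q)`: `p dx + q dy` is closed and its inverse Cartier image is `p dx + q dy + dλ` -/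
def Closed (𝔅 : BData k B) (u : B × B × B) : Prop :=
  𝔅.dy u.2.1 = 𝔅.dx u.2.2 ∧ 𝔅.x ^ 4 * u.2.1 ^ 5 = u.2.1 + 𝔅.dx u.1 ∧
    𝔅.y ^ 4 * u.2.2 ^ 5 = u.2.2 + 𝔅.dy u.1

/-- the mod 5 syntomic symbol -/
def I0 (𝔅 : BData k B) (u v w : B × B × B) : k :=
  𝔅.ε (u.1 * (v.2.1 * w.2.2 - v.2.2 * w.2.1)
    - v.1 * ((u.2.1 + 𝔅.dx u.1) * w.2.2 - (u.2.2 + 𝔅.dy u.1) * w.2.1)
    + w.1 * ((u.2.1 + 𝔅.dx u.1) * (v.2.2 + 𝔅.dy v.1) - (u.2.2 + 𝔅.dy u.1) * (v.2.1 + 𝔅.dx v.1)))

end BData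

/-- the logarithm `a ↦ (δ a / a⁵, dlog a)` -/
noncomputable def WData.logT {k B T : Type} [Field k] [CommRing B] [Algebra k B] {𝔅 : BData k B}
    [CommRing T] (𝔚 : WData 𝔅 T) (a : T) : B × B × B :=
  (𝔚.δ a * Ring.inverse (𝔚.π a) ^ 5, 𝔅.dx (𝔚.π a) * Ring.inverse (𝔚.π a),
    𝔅.dy (𝔚.π a) * Ring.inverse (𝔚.π a))

end Crest.Agent.R171
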