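import Crest.Agent.R171.Defs

/-! Task DETA: determinants of multisets of vectors, well defined up to sign.
`dL_eq`: two enumerations `w w' : Fin m → V` of the same multiset differ by a permutation
(`Equiv.ofFiberEquiv` + counting, or `List.Perm` ↔ `List.ofFn`, e.g. `List.Perm.exists_...`/`Tuple`), then
`Matrix.det_permute` (sign `= ±1`). -/

set_option autoImplicit false

namespace Crest.Agent.R171

variable {R : Type} [CommRing R]

/-- minor on the first `m` coordinates of `m` vectors -/
def detv (m : ℕ) (w : Fin m → ℕ → R) : R := Matrix.det (Matrix.of fun i j : Fin m => w i j)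

/-- the multiset enumerated by `w` -/
def ms {V : Type} {m : ℕ} (w : Fin m → V) : Multiset V := Finset.univ.val.map w

theorem card_ms {V : Type} {m : ℕ} (w : Fin m → V) : Multiset.card (ms w) = m := by
  simp [ms]

theorem exists_ms {V : Type} (L : Multiset V) : ∃ w : Fin (Multiset.card L) → V, ms w = L := by
  induction L using Quotient.inductionOn with
  | h l => exact ⟨l.get, (Fin.univ_val_map l.get).trans (congrArg _ (List.ofFn_get l))⟩

theorem ms_snoc {V : Type} {m : ℕ} (w : Fin m → V) (v : V) :
    ms (Fin.snoc (α := fun _ => V) w v) = ms w + {v} := by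
  unfold ms
  rw [Fin.univ_val_map, Fin.univ_val_map, List.ofFn_succ', List.concat_eq_append, ← Multiset.coe_add]
  simp

theorem ms_map {V V' : Type} {m : ℕ} (w : Fin m → V) (g : V → V') :
    (ms w).map g = ms (g ∘ w) := by
  unfold ms; rw [Multiset.map_map]

theorem exists_perm_of_ms_eq {V : Type} {m : ℕ} {w w' : Fin m → V} (h : ms w = ms w') :
    ∃ σ : Equiv.Perm (Fin m), w' = w ∘ σ := by
  classical
  have hc : ∀ v, Fintype.card {i // w' i = v} = Fintype.card {i // w i = v} := fun v => by
    have := congrArg (Multiset.count v) h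
    simp only [ms, Multiset.count_map] at this
    rw [Fintype.card_subtype, Fintype.card_subtype]
    simp only [eq_comm (b := v)]
    exact this.symm
  exact ⟨Equiv.ofFiberEquiv fun v => Fintype.equivOfCardEq (hc v),
    funext fun i => (Equiv.ofFiberEquiv_map _ i).symm⟩

/-- determinant of a multiset (for a chosen enumeration) -/
noncomputable def dL (L : Multiset (ℕ → R)) : R := detv _ (exists_ms L).choose

theorem dL_eq {m : ℕ} (w : Fin m → ℕ → R) : dL (ms w) = detv m w ∨ dL (ms w) = - detv m w := by
  have key : ∀ (n : ℕ) (w' : Fin n → ℕ → R), ms w' = ms w →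
      detv n w' = detv m w ∨ detv n w' = - detv m w := by
    intro n w' h
    obtain rfl : n = m := by rw [← card_ms w', h, card_ms]
    obtain ⟨σ, rfl⟩ := exists_perm_of_ms_eq h.symm
    have e : detv n (w ∘ σ) = (Equiv.Perm.sign σ : ℤ) * detv n w :=
      Matrix.det_permute σ (Matrix.of fun i j : Fin n => w i j)
    rcases Int.units_eq_one_or (Equiv.Perm.sign σ) with h1 | h1 <;> simp [e, h1]
  exact key _ _ (exists_ms (ms w)).choose_spec

theorem isUnit_dL {m : ℕ} (w : Fin m → ℕ → R) : IsUnit (dL (ms w)) ↔ IsUnit (detv m w) := by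
  rcases dL_eq w with h | h <;> simp [h]

/-- appending the standard basis vector `e m` -/
theorem detv_snoc_e {m : ℕ} (w : Fin m → ℕ → R) :
    detv (m + 1) (Fin.snoc (α := fun _ => ℕ → R) w (Pi.single m 1)) = detv m w := by
  unfold detv
  rw [Matrix.det_succ_row _ (Fin.last m), Finset.sum_eq_single (Fin.last m)]
  · simp only [Fin.succAbove_last, Matrix.of_apply, Fin.snoc_last, Fin.val_last, Pi.single_eq_same,
      mul_one, ← two_mul, pow_mul, neg_one_sq, one_pow, one_mul]
    congr 1
    ext i j
    simp
  · intro j _ hj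
    have : (j : ℕ) ≠ m := fun h => hj (Fin.ext h)
    simp [this]
  · simp

theorem detv_elem {m i j : ℕ} (hij : i ≠ j) (hi : i < m) (hj : j < m) (r : R)
    (w : Fin m → ℕ → R) : detv m (elem i j r ∘ w) = detv m w := by
  unfold detv
  rw [← Matrix.det_updateCol_add_smul_self (Matrix.of fun a b : Fin m => w a b)
    (i := ⟨i, hi⟩) (j := ⟨j, hj⟩) (fun h => hij (congrArg Fin.val h)) r]
  congr 1
  ext a b
  by_cases h : b = ⟨i, hi⟩
  · subst h
    simp [elem]
  · have : (b : ℕ) ≠ i := fun e => h (Fin.ext e)
    simp [elem, Matrix.updateCol_ne h, this]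

theorem detv_diagm {m : ℕ} (t : ℕ → Rˣ) (w : Fin m → ℕ → R) :
    detv m (diagm t ∘ w) = (∏ i ∈ Finset.range m, (t i : R)) * detv m w := by
  unfold detv
  rw [← Fin.prod_univ_eq_prod_range (fun i => (t i : R)) m, ← Matrix.det_mul_row]
  rfl

theorem detv_snoc_add_smul {m : ℕ} (w : Fin m → ℕ → R) (u v : ℕ → R) (c : R) :
    detv (m + 1) (Fin.snoc (α := fun _ => ℕ → R) w (u + c • v)) =
      detv (m + 1) (Fin.snoc (α := fun _ => ℕ → R) w u) +
        c * detv (m + 1) (Fin.snoc (α := fun _ => ℕ → R) w v) := by
  have e : ∀ v : ℕ → R, detv (m + 1) (Fin.snoc (α := fun _ => ℕ → R) w v) =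
      ((Matrix.of fun i j : Fin (m + 1) => Fin.snoc (α := fun _ => ℕ → R) w u i j).updateRow
        (Fin.last m) fun j => v j).det := fun v => by
    unfold detv
    congr 1
    ext i j
    refine Fin.lastCases ?_ (fun i => ?_) i
    · simp
    · simp [Matrix.updateRow_ne (Fin.castSucc_ne_last i)]
  rw [e, e u, e v, ← Matrix.det_updateRow_smul, ← Matrix.det_updateRow_add]
  rfl

end Crest.Agent.R171
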