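import Crest.Agent.R171.DetA

/-! Task DETB: the three-term Plücker relation.  Put `β a b = detv (m+2) (snoc (snoc w a) b)`.
E.g.: the `(m+3)×(m+3)` matrix with rows `w i, b, c, d` (first `m+2` coordinates) and last column `β a (row)` has a kernel
vector `(cofactors, -1)`, so its determinant is `0` (adjugate); expand along the last column, `β a (w i) = 0`.
Or use that `β a b` is a unit: write `c, d` (first `m+2` coordinates) in the basis `w, a, b` (Cramer / inverse matrix) and use
multilinearity (`Matrix.detRowAlternating`, `det_updateRow_*`). -/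

set_option autoImplicit false

namespace Crest.Agent.R171

variable {R : Type} [CommRing R]

def β2 {m : ℕ} (w : Fin m → ℕ → R) (a b : ℕ → R) : R :=
  detv (m + 2) (Fin.snoc (α := fun _ => ℕ → R) (Fin.snoc (α := fun _ => ℕ → R) w a) b)

/-- the matrix with rows `w, a, b` -/
def β2mat {m : ℕ} (w : Fin m → ℕ → R) (a b : ℕ → R) : Matrix (Fin (m + 2)) (Fin (m + 2)) R :=
  Matrix.of fun i j => (Fin.snoc (α := fun _ => ℕ → R) (Fin.snoc (α := fun _ => ℕ → R) w a) b) i j

theorem β2_eq_det {m : ℕ} (w : Fin m → ℕ → R) (a b : ℕ → R) : β2 w a b = (β2mat w a b).det := rfl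

omit [CommRing R] in
theorem β2mat_last {m : ℕ} (w : Fin m → ℕ → R) (a b : ℕ → R) (j : Fin (m + 2)) :
    β2mat w a b (Fin.last (m + 1)) j = b j := by
  simp [β2mat]

omit [CommRing R] in
theorem β2mat_pen {m : ℕ} (w : Fin m → ℕ → R) (a b : ℕ → R) (j : Fin (m + 2)) :
    β2mat w a b (Fin.last m).castSucc j = a j := by
  simp only [β2mat, Matrix.of_apply, Fin.snoc_castSucc, Fin.snoc_last]

omit [CommRing R] in
theorem β2mat_init {m : ℕ} (w : Fin m → ℕ → R) (a b : ℕ → R) (i : Fin m) (j : Fin (m + 2)) :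
    β2mat w a b i.castSucc.castSucc j = w i j := by
  simp only [β2mat, Matrix.of_apply, Fin.snoc_castSucc]

theorem β2_idx_cases {m : ℕ} (i : Fin (m + 2)) :
    i = Fin.last (m + 1) ∨ i = (Fin.last m).castSucc ∨ ∃ k : Fin m, i = k.castSucc.castSucc := by
  refine Fin.lastCases (Or.inl rfl) (fun i' => Or.inr ?_) i
  exact Fin.lastCases (Or.inl rfl) (fun k => Or.inr ⟨k, rfl⟩) i'

theorem β2_pen_ne_last {m : ℕ} : (Fin.last m).castSucc ≠ Fin.last (m + 1) :=
  (Fin.castSucc_lt_last _).ne

theorem β2_init_ne_last {m : ℕ} (k : Fin m) : k.castSucc.castSucc ≠ Fin.last (m + 1) :=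
  (Fin.castSucc_lt_last _).ne

theorem β2_init_ne_pen {m : ℕ} (k : Fin m) : k.castSucc.castSucc ≠ (Fin.last m).castSucc :=
  fun h => (Fin.castSucc_lt_last k).ne (Fin.castSucc_injective _ h)

omit [CommRing R] in
theorem β2mat_update_last {m : ℕ} (w : Fin m → ℕ → R) (a b d : ℕ → R) :
    (β2mat w a b).updateRow (Fin.last (m + 1)) (fun j => d j) = β2mat w a d := by
  ext i j
  rcases β2_idx_cases i with rfl | rfl | ⟨k, rfl⟩
  · rw [Matrix.updateRow_self, β2mat_last]
  · rw [Matrix.updateRow_ne β2_pen_ne_last, β2mat_pen, β2mat_pen]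
  · rw [Matrix.updateRow_ne (β2_init_ne_last k), β2mat_init, β2mat_init]

omit [CommRing R] in
theorem β2mat_update_pen {m : ℕ} (w : Fin m → ℕ → R) (a b d : ℕ → R) :
    (β2mat w a b).updateRow (Fin.last m).castSucc (fun j => d j) = β2mat w d b := by
  ext i j
  rcases β2_idx_cases i with rfl | rfl | ⟨k, rfl⟩
  · rw [Matrix.updateRow_ne β2_pen_ne_last.symm, β2mat_last, β2mat_last]
  · rw [Matrix.updateRow_self, β2mat_pen]
  · rw [Matrix.updateRow_ne (β2_init_ne_pen k), β2mat_init, β2mat_init]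

theorem β2_swap {m : ℕ} (w : Fin m → ℕ → R) (a b : ℕ → R) : β2 w b a = - β2 w a b := by
  have h := Matrix.det_permute (Equiv.swap (Fin.last m).castSucc (Fin.last (m + 1))) (β2mat w a b)
  rw [Equiv.Perm.sign_swap β2_pen_ne_last] at h
  have e : (β2mat w a b).submatrix (Equiv.swap (Fin.last m).castSucc (Fin.last (m + 1))) id =
      β2mat w b a := by
    ext i j
    rw [Matrix.submatrix_apply, id]
    rcases β2_idx_cases i with rfl | rfl | ⟨k, rfl⟩
    · rw [Equiv.swap_apply_right, β2mat_last, β2mat_pen]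
    · rw [Equiv.swap_apply_left, β2mat_last, β2mat_pen]
    · rw [Equiv.swap_apply_of_ne_of_ne (β2_init_ne_pen k) (β2_init_ne_last k), β2mat_init,
        β2mat_init]
  rw [β2_eq_det, β2_eq_det, ← e, h]
  simp

theorem β2_init_eq_zero {m : ℕ} (w : Fin m → ℕ → R) (c : ℕ → R) (k : Fin m) :
    β2 w c (w k) = 0 := by
  rw [β2_eq_det]
  refine Matrix.det_zero_of_row_eq (β2_init_ne_last k) ?_
  ext j
  rw [β2mat_init, β2mat_last]

/-- the Plücker relation (no unit hypothesis is needed) -/
theorem plucker' {m : ℕ} (w : Fin m → ℕ → R) (a b c d : ℕ → R) :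
    β2 w a b * β2 w c d + β2 w a d * β2 w b c = β2 w a c * β2 w b d := by
  let φ : (Fin (m + 2) → R) →ₗ[R] R :=
    (LinearMap.proj (Fin.last (m + 1))).comp (Matrix.cramer (β2mat w c c).transpose)
  have hφ : ∀ v : ℕ → R, φ (fun j => v j) = β2 w c v := by
    intro v
    simp only [φ, LinearMap.comp_apply, LinearMap.proj_apply]
    rw [Matrix.cramer_transpose_apply, β2mat_update_last, β2_eq_det]
  have h1 := Matrix.mulVec_cramer (β2mat w a b).transpose (fun j => d j)
  have h2 : (β2mat w a b).transpose.mulVec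
      (Matrix.cramer (β2mat w a b).transpose (fun j => d j)) =
      ∑ i, Matrix.cramer (β2mat w a b).transpose (fun j => d j) i • (β2mat w a b) i := by
    ext j
    simp [Matrix.mulVec, dotProduct, mul_comm]
  rw [h2, Matrix.det_transpose] at h1
  have h3 := congrArg φ h1
  rw [map_sum, map_smul, hφ, Fin.sum_univ_castSucc, Fin.sum_univ_castSucc] at h3
  simp only [map_smul, Matrix.cramer_transpose_apply, β2mat_update_last, β2mat_update_pen,
    smul_eq_mul] at h3
  have e1 : β2mat w a b (Fin.last (m + 1)) = fun j : Fin (m + 2) => b j := funext (β2mat_last w a b)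
  have e2 : β2mat w a b (Fin.last m).castSucc = fun j : Fin (m + 2) => a j := funext (β2mat_pen w a b)
  have e3 : ∀ k : Fin m, φ (β2mat w a b k.castSucc.castSucc) = 0 := by
    intro k
    have : β2mat w a b k.castSucc.castSucc = fun j : Fin (m + 2) => w k j := funext (β2mat_init w a b k)
    rw [this, hφ, β2_init_eq_zero]
  simp only [e3, mul_zero, Finset.sum_const_zero, zero_add] at h3
  rw [e1, e2, hφ, hφ, ← β2_eq_det, ← β2_eq_det, ← β2_eq_det, β2_swap w b d, β2_swap w a c,
    β2_swap w b c] at h3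
  linear_combination -h3

theorem plucker {m : ℕ} (w : Fin m → ℕ → R) (a b c d : ℕ → R) (hab : IsUnit (β2 w a b)) :
    β2 w a b * β2 w c d + β2 w a d * β2 w b c = β2 w a c * β2 w b d := by
  have _ := hab
  exact plucker' w a b c d

end Crest.Agent.R171
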