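import Crest.Agent.R171.DetB

/-! Task DETC: the concrete `DetData`: `U L := IsUnit (dL L)`, `Q L := lg (dL L)`, `e m := Pi.single m 1`.
`Q (ms w) = lg (detv m w)` for units (`dL_eq`, `lg_neg`); for non-units `Pres` needs `Q (L.map g) = Q L`: so define
`Q L := if IsUnit (dL L) then lg (dL L) else 0`.
`pl`: `plucker` gives `s + t = 1` for the units `s = β_ab β_cd (β_ac β_bd)⁻¹`, `t = β_ad β_bc (β_ac β_bd)⁻¹`; `stein`, `lg_mul`.
`gen`: induction on the finite set: if `v` is good for the old `L`s and `v'` for the new one, then `v + θ n • v'` is good for all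
for some `n`: for each `L`, `α + θ n γ` (`detv_snoc_add_smul`, one of `α, γ` a unit) is a non-unit for at most one `n`
(local ring, `θ i - θ j` units); pigeonhole. -/

set_option autoImplicit false

namespace Crest.Agent.R171

section DetCAux
variable {R W M : Type} [CommRing R] [AddCommGroup W] [AddCommGroup M]
  {I : W →+ W →+ W →+ M} {lg : R → W}

theorem IsSym.detc_lg_one (hS : IsSym I lg) : lg 1 = 0 := by
  have := hS.lg_mul 1 1 isUnit_one isUnit_one
  rw [one_mul] at this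
  simpa using this

theorem IsSym.detc_lg_prod (hS : IsSym I lg) (t : ℕ → Rˣ) (m : ℕ) :
    lg (∏ i ∈ Finset.range m, (t i : R)) = ∑ i ∈ Finset.range m, lg (t i) := by
  induction m with
  | zero => simpa using hS.detc_lg_one
  | succ m ih =>
    rw [Finset.prod_range_succ, Finset.sum_range_succ, hS.lg_mul _ _ _ (t m).isUnit, ih]
    rw [← Units.coe_prod]
    exact Units.isUnit _

theorem IsSym.detc_pl (hS : IsSym I lg) {ab cd ad bc ac bd : R} (hab : IsUnit ab) (hcd : IsUnit cd)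
    (had : IsUnit ad) (hbc : IsUnit bc) (hac : IsUnit ac) (hbd : IsUnit bd)
    (h : ab * cd + ad * bc = ac * bd) (w : W) :
    I (lg ab + lg cd - lg ac - lg bd) (lg ad + lg bc - lg ac - lg bd) w = 0 := by
  obtain ⟨u, hu⟩ := hac.mul hbd
  have hinv : lg ((u⁻¹ : Rˣ) : R) = - lg ac - lg bd := by
    have h1 := hS.lg_mul _ _ u.isUnit (u⁻¹).isUnit
    rw [Units.mul_inv, hS.detc_lg_one, hu, hS.lg_mul _ _ hac hbd] at h1
    rw [eq_comm, add_eq_zero_iff_neg_eq] at h1
    rw [← h1]; abel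
  have h1 : lg (ab * cd * ((u⁻¹ : Rˣ) : R)) = lg ab + lg cd - lg ac - lg bd := by
    rw [hS.lg_mul _ _ (hab.mul hcd) (u⁻¹).isUnit, hS.lg_mul _ _ hab hcd, hinv]; abel
  have h2 : lg (ad * bc * ((u⁻¹ : Rˣ) : R)) = lg ad + lg bc - lg ac - lg bd := by
    rw [hS.lg_mul _ _ (had.mul hbc) (u⁻¹).isUnit, hS.lg_mul _ _ had hbc, hinv]; abel
  rw [← h1, ← h2]
  refine hS.stein _ _ w ((hab.mul hcd).mul (u⁻¹).isUnit) ((had.mul hbc).mul (u⁻¹).isUnit) ?_
  rw [← add_mul, h, ← hu, Units.mul_inv]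

open Classical in
/-- logarithm of the determinant -/
noncomputable def detcQ (lg : R → W) (L : Multiset (ℕ → R)) : W :=
  if IsUnit (dL L) then lg (dL L) else 0

open Classical in
theorem detcQ_ms (hS : IsSym I lg) {m : ℕ} (w : Fin m → ℕ → R) :
    detcQ lg (ms w) = if IsUnit (detv m w) then lg (detv m w) else 0 := by
  unfold detcQ
  by_cases h : IsUnit (detv m w)
  · rw [if_pos ((isUnit_dL w).2 h), if_pos h]
    rcases dL_eq w with h' | h'
    · rw [h']
    · rw [h', hS.lg_neg _ h]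
  · rw [if_neg (fun h' => h ((isUnit_dL w).1 h')), if_neg h]

theorem detcQ_unit (hS : IsSym I lg) {m : ℕ} (w : Fin m → ℕ → R) (h : IsUnit (detv m w)) :
    detcQ lg (ms w) = lg (detv m w) := by
  rw [detcQ_ms hS, if_pos h]

theorem detc_exists_ms {V : Type} (L : Multiset V) {N : ℕ} (h : Multiset.card L = N) :
    ∃ w : Fin N → V, ms w = L := by
  subst h; exact exists_ms L

omit [CommRing R] in
theorem detc_two {m : ℕ} (w : Fin m → ℕ → R) (a b : ℕ → R) :
    ms w + {a} + {b} =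
      ms (Fin.snoc (α := fun _ => ℕ → R) (Fin.snoc (α := fun _ => ℕ → R) w a) b) := by
  rw [ms_snoc, ms_snoc]

theorem detc_U2 {m : ℕ} (w : Fin m → ℕ → R) (a b : ℕ → R)
    (h : IsUnit (dL (ms w + {a} + {b}))) : IsUnit (β2 w a b) := by
  rw [detc_two, isUnit_dL] at h
  exact h

theorem detc_Q2 (hS : IsSym I lg) {m : ℕ} (w : Fin m → ℕ → R) (a b : ℕ → R)
    (h : IsUnit (β2 w a b)) : detcQ lg (ms w + {a} + {b}) = lg (β2 w a b) := by
  rw [detc_two, detcQ_unit hS _ h]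
  rfl

theorem detc_bad [IsLocalRing R] (θ : ℕ → R) (hθ : ∀ i j, i ≠ j → IsUnit (θ i - θ j)) {α γ : R}
    (h : IsUnit α ∨ IsUnit γ) : {n : ℕ | ¬ IsUnit (α + θ n * γ)}.Subsingleton := by
  intro n hn k hk
  by_contra hnk
  have hn' : α + θ n * γ ∈ IsLocalRing.maximalIdeal R := hn
  have hk' : α + θ k * γ ∈ IsLocalRing.maximalIdeal R := hk
  have h1 : (θ n - θ k) * γ ∈ IsLocalRing.maximalIdeal R := by
    have := Ideal.sub_mem _ hn' hk'
    convert this using 1; ring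
  have h2 : γ ∈ IsLocalRing.maximalIdeal R := (Ideal.unit_mul_mem_iff_mem _ (hθ n k hnk)).1 h1
  have h3 : α ∈ IsLocalRing.maximalIdeal R := by
    have := Ideal.sub_mem _ hn' (Ideal.mul_mem_left _ (θ n) h2)
    convert this using 1; ring
  rcases h with h | h
  · exact h3 h
  · exact h2 h

theorem detc_gen [IsLocalRing R] (θ : ℕ → R) (hθ : ∀ i j, i ≠ j → IsUnit (θ i - θ j))
    (𝓛 : Finset (Multiset (ℕ → R))) (h : ∀ L ∈ 𝓛, ∃ v, IsUnit (dL (L + {v}))) :
    ∃ v, ∀ L ∈ 𝓛, IsUnit (dL (L + {v})) := by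
  classical
  induction 𝓛 using Finset.induction_on with
  | empty => exact ⟨0, by simp⟩
  | insert L0 𝓛 hL0 ih =>
    obtain ⟨v, hv⟩ := ih fun L hL => h L (Finset.mem_insert_of_mem hL)
    obtain ⟨v', hv'⟩ := h L0 (Finset.mem_insert_self _ _)
    have hfin : ∀ L ∈ insert L0 𝓛, {n : ℕ | ¬ IsUnit (dL (L + {v + θ n • v'}))}.Finite := by
      intro L hL
      obtain ⟨m, w, rfl⟩ : ∃ (m : ℕ) (u : Fin m → ℕ → R), ms u = L := ⟨_, exists_ms L⟩
      have hor : IsUnit (detv (_ + 1) (Fin.snoc (α := fun _ => ℕ → R) w v)) ∨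
          IsUnit (detv (_ + 1) (Fin.snoc (α := fun _ => ℕ → R) w v')) := by
        rcases Finset.mem_insert.1 hL with h0 | h0
        · right
          rw [← isUnit_dL, ms_snoc, h0]; exact hv'
        · left
          rw [← isUnit_dL, ms_snoc]; exact hv _ h0
      refine (detc_bad θ hθ hor).finite.subset ?_
      intro n hn
      simp only [Set.mem_ofPred_eq] at hn ⊢
      rwa [← ms_snoc, isUnit_dL, detv_snoc_add_smul] at hn
    have hfin' : (⋃ L ∈ (insert L0 𝓛 : Finset _),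
        {n : ℕ | ¬ IsUnit (dL (L + {v + θ n • v'}))}).Finite :=
      Set.Finite.biUnion (Finset.finite_toSet _) hfin
    obtain ⟨n, hn⟩ := hfin'.infinite_compl.nonempty
    refine ⟨v + θ n • v', fun L hL => ?_⟩
    by_contra hc
    exact hn (Set.mem_iUnion₂.2 ⟨L, hL, hc⟩)

end DetCAux

theorem exists_detData {R W M : Type} [CommRing R] [IsLocalRing R] [AddCommGroup W] [AddCommGroup M]
    {I : W →+ W →+ W →+ M} {lg : R → W} (hS : IsSym I lg) (θ : ℕ → R)
    (hθ : ∀ i j, i ≠ j → IsUnit (θ i - θ j)) :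
    ∃ D : DetData (ℕ → R) I,
      (∀ (N i j : ℕ) (r : R), i ≠ j → i < N → j < N → D.Pres N (elem i j r)) ∧
      (∀ t : ℕ → Rˣ, D.Tor (diagm t) (fun i => lg (t i))) := by
  refine ⟨⟨fun L => IsUnit (dL L), detcQ lg, fun m => Pi.single m 1, ?_, ?_, ?_, ?_,
    detc_gen θ hθ⟩, ?_, ?_⟩
  · intro L a b c d w hab hac had hbc hbd hcd
    obtain ⟨m, u, rfl⟩ : ∃ (m : ℕ) (u : Fin m → ℕ → R), ms u = L := ⟨_, exists_ms L⟩
    have hab := detc_U2 u a b hab
    have hac := detc_U2 u a c hac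
    have had := detc_U2 u a d had
    have hbc := detc_U2 u b c hbc
    have hbd := detc_U2 u b d hbd
    have hcd := detc_U2 u c d hcd
    rw [detc_Q2 hS u a b hab, detc_Q2 hS u a c hac, detc_Q2 hS u a d had, detc_Q2 hS u b c hbc,
      detc_Q2 hS u b d hbd, detc_Q2 hS u c d hcd]
    exact hS.detc_pl hab hcd had hbc hac hbd (plucker u a b c d hab) w
  · intro L
    obtain ⟨m, u, rfl⟩ : ∃ (m : ℕ) (u : Fin m → ℕ → R), ms u = L := ⟨_, exists_ms L⟩
    rw [card_ms, ← ms_snoc, isUnit_dL, isUnit_dL, detv_snoc_e]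
  · intro L _
    obtain ⟨m, u, rfl⟩ : ∃ (m : ℕ) (u : Fin m → ℕ → R), ms u = L := ⟨_, exists_ms L⟩
    rw [card_ms, ← ms_snoc, detcQ_ms hS, detcQ_ms hS, detv_snoc_e]
  · have h0 : (0 : Multiset (ℕ → R)) = ms (Fin.elim0 : Fin 0 → ℕ → R) := by simp [ms]
    rw [h0, isUnit_dL]
    simp [detv]
  · intro N i j r hij hi hj L hL
    obtain ⟨u, rfl⟩ := detc_exists_ms L hL
    dsimp only
    rw [ms_map, isUnit_dL, isUnit_dL, detcQ_ms hS, detcQ_ms hS, detv_elem hij hi hj]
    exact ⟨Iff.rfl, rfl⟩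
  · intro t L
    obtain ⟨m, u, rfl⟩ : ∃ (m : ℕ) (u : Fin m → ℕ → R), ms u = L := ⟨_, exists_ms L⟩
    have hp : IsUnit (∏ i ∈ Finset.range m, (t i : R)) := by
      rw [← Units.coe_prod]; exact Units.isUnit _
    dsimp only
    rw [ms_map, isUnit_dL, isUnit_dL, card_ms]
    refine ⟨by rw [detv_diagm, IsUnit.mul_iff]; exact ⟨fun h => h.2, fun h => ⟨hp, h⟩⟩, fun h => ?_⟩
    have h' : IsUnit (detv m (diagm t ∘ u)) := by rw [detv_diagm]; exact hp.mul h
    rw [detcQ_unit hS _ h', detcQ_unit hS _ h, detv_diagm, hS.lg_mul _ _ hp h, hS.detc_lg_prod,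
      add_comm]

end Crest.Agent.R171
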