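import Crest.Agent.R171.Defs

/-! Task TEL: telescoping over multi-indices, and bookkeeping for `seg`, `stk`, `Stack`.
`tel`: for each `i`, `∑_{J ∈ IDX (k+1) r m} t i J = ∑_{J i = 0} + ∑_{J i ≠ 0}`, the first is reindexed by
`Fin.insertNth i 0` (`Fin.sum_univ_succAbove`), the second by `J' ↦ J' + Pi.single i 1`. -/

set_option autoImplicit false

namespace Crest.Agent.R171

open Finset

theorem mem_IDX {k r m : ℕ} {J : Fin k → ℕ} : J ∈ IDX k r m ↔ ∑ i, J i + r = m := by
  simp only [IDX, mem_filter, Fintype.mem_piFinset, mem_range, and_iff_right_iff_imp]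
  intro h i
  have := single_le_sum (f := J) (fun j _ => Nat.zero_le _) (mem_univ i)
  omega

theorem IDX_succ (k r m : ℕ) : IDX k (r + 1) (m + 1) = IDX k r m := by
  ext J; simp only [mem_IDX]; omega

theorem IDX_zero (k r : ℕ) : IDX k (r + 1) 0 = ∅ := by
  ext J; simp only [mem_IDX]; simp

theorem tel_split {M : Type} [AddCommGroup M] (k r m : ℕ) (i : Fin (k + 1))
    (f : (Fin (k + 1) → ℕ) → M) :
    ∑ J ∈ IDX (k + 1) r m, f J =
      ∑ K ∈ IDX k r m, f (Fin.insertNth (α := fun _ => ℕ) i 0 K) +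
        ∑ J ∈ IDX (k + 1) (r + 1) m, f (J + Pi.single i 1) := by
  rw [← sum_filter_add_sum_filter_not (IDX (k + 1) r m) (fun J => J i = 0)]
  congr 1
  · symm
    refine sum_bij' (fun K _ => Fin.insertNth (α := fun _ => ℕ) i 0 K)
      (fun J _ => Fin.removeNth i J) ?_ ?_ ?_ ?_ ?_
    · intro K hK
      rw [mem_filter, mem_IDX, Fin.sum_univ_succAbove _ i]
      simpa [mem_IDX] using hK
    · intro J hJ
      rw [mem_filter, mem_IDX, Fin.sum_univ_succAbove _ i, hJ.2, zero_add] at hJ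
      exact mem_IDX.2 hJ.1
    · intro K _
      simp
    · intro J hJ
      rw [← (mem_filter.1 hJ).2]
      simp
    · intro K _
      rfl
  · symm
    refine sum_bij' (fun J _ => J + Pi.single i 1) (fun J _ => J - Pi.single i 1) ?_ ?_ ?_ ?_ ?_
    · intro J hJ
      rw [mem_IDX] at hJ
      rw [mem_filter, mem_IDX]
      simp only [Pi.add_apply, sum_add_distrib, sum_pi_single', mem_univ, if_true,
        Pi.single_eq_same]
      omega
    · intro J hJ
      rw [mem_filter, mem_IDX, Fin.sum_univ_succAbove _ i] at hJ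
      rw [mem_IDX, Fin.sum_univ_succAbove _ i]
      simp only [Pi.sub_apply, Pi.single_eq_same, Pi.single_eq_of_ne (Fin.succAbove_ne i _),
        Nat.sub_zero]
      omega
    · intro J _
      funext j
      simp
    · intro J hJ
      funext j
      have := (mem_filter.1 hJ).2
      by_cases h : j = i
      · subst h
        simp only [Pi.add_apply, Pi.sub_apply, Pi.single_eq_same]
        omega
      · simp [Pi.single_eq_of_ne h]
    · intro J _
      rfl

theorem tel {M : Type} [AddCommGroup M] (k r m : ℕ) (t : Fin (k + 1) → (Fin (k + 1) → ℕ) → M)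
    (u u' : (Fin (k + 1) → ℕ) → M)
    (hd : ∀ J ∈ IDX (k + 1) r m, ∑ i, t i J + u J = 0)
    (hd' : ∀ J ∈ IDX (k + 1) (r + 1) m, ∑ i, t i (J + Pi.single i 1) + u' J = 0) :
    ∑ i, ∑ K ∈ IDX k r m, t i (Fin.insertNth (α := fun _ => ℕ) i 0 K) +
      ∑ J ∈ IDX (k + 1) r m, u J - ∑ J ∈ IDX (k + 1) (r + 1) m, u' J = 0 := by
  have h1 := sum_eq_zero hd
  have h2 := sum_eq_zero hd'
  rw [sum_add_distrib, sum_comm] at h1 h2
  rw [sum_congr rfl fun i _ => tel_split k r m i (t i), sum_add_distrib] at h1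
  linear_combination (norm := abel) h1 - h2

theorem tel1 {W : Type} [AddCommGroup W] (g : ℕ → ℕ → W) (m : ℕ) :
    ∑ J ∈ IDX 2 1 m, (g (J 0) (J 1 + 1) - g (J 0 + 1) (J 1)) = g 0 m - g m 0 := by
  have h := sum_range_sub' (fun j => g j (m - j)) m
  simp only [Nat.sub_zero, Nat.sub_self] at h
  rw [← h]
  refine sum_bij' (fun J _ => J 0) (fun j _ => ![j, m - (j + 1)]) ?_ ?_ ?_ ?_ ?_
  · intro J hJ
    rw [mem_IDX, Fin.sum_univ_two] at hJ
    rw [mem_range]
    omega
  · intro j hj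
    rw [mem_range] at hj
    rw [mem_IDX, Fin.sum_univ_two]
    simp only [Matrix.cons_val_zero, Matrix.cons_val_one]
    omega
  · intro J hJ
    rw [mem_IDX, Fin.sum_univ_two] at hJ
    funext i
    fin_cases i
    · rfl
    · simp only [Fin.mk_one, Matrix.cons_val_one, Matrix.cons_val_zero]
      omega
  · intro j _
    rfl
  · intro J hJ
    rw [mem_IDX, Fin.sum_univ_two] at hJ
    rw [show m - J 0 = J 1 + 1 by omega, show m - (J 0 + 1) = J 1 by omega]

variable {V : Type}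

@[simp] theorem seg_zero (F : ℕ → V) : seg F 0 = 0 := rfl

theorem seg_succ (F : ℕ → V) (j : ℕ) : seg F (j + 1) = seg F j + {F j} := by
  unfold seg
  rw [Multiset.range_succ, Multiset.map_cons, add_comm, Multiset.singleton_add]

@[simp] theorem card_seg (F : ℕ → V) (j : ℕ) : Multiset.card (seg F j) = j := by
  simp [seg]

theorem seg_map {V' : Type} (g : V → V') (F : ℕ → V) (j : ℕ) :
    seg (g ∘ F) j = (seg F j).map g := by
  simp [seg]

theorem stk2 (F0 F1 : ℕ → V) (J : Fin 2 → ℕ) :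
    stk ![F0, F1] J = seg F0 (J 0) + seg F1 (J 1) := by
  simp [stk, Fin.sum_univ_succ]

theorem stk3 (F0 F1 F2 : ℕ → V) (J : Fin 3 → ℕ) :
    stk ![F0, F1, F2] J = seg F0 (J 0) + seg F1 (J 1) + seg F2 (J 2) := by
  simp [stk, Fin.sum_univ_succ, add_assoc]

theorem stk4 (F0 F1 F2 F3 : ℕ → V) (J : Fin 4 → ℕ) :
    stk ![F0, F1, F2, F3] J = seg F0 (J 0) + seg F1 (J 1) + seg F2 (J 2) + seg F3 (J 3) := by
  simp [stk, Fin.sum_univ_succ, add_assoc]

theorem stack1 (F0 : ℕ → V) (j0 : ℕ) : Stack [F0] (seg F0 j0) := by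
  simpa using Stack.cons F0 j0 Stack.nil

theorem stack2 (F0 F1 : ℕ → V) (j0 j1 : ℕ) : Stack [F0, F1] (seg F0 j0 + seg F1 j1) :=
  Stack.cons F0 j0 (stack1 F1 j1)

theorem stack3 (F0 F1 F2 : ℕ → V) (j0 j1 j2 : ℕ) :
    Stack [F0, F1, F2] (seg F0 j0 + seg F1 j1 + seg F2 j2) := by
  rw [add_assoc]; exact Stack.cons F0 j0 (stack2 F1 F2 j1 j2)

theorem stack4 (F0 F1 F2 F3 : ℕ → V) (j0 j1 j2 j3 : ℕ) :
    Stack [F0, F1, F2, F3] (seg F0 j0 + seg F1 j1 + seg F2 j2 + seg F3 j3) := by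
  have := Stack.cons F0 j0 (stack3 F1 F2 F3 j1 j2 j3)
  simpa only [add_assoc] using this

theorem stack5 (F0 F1 F2 F3 F4 : ℕ → V) (j0 j1 j2 j3 j4 : ℕ) :
    Stack [F0, F1, F2, F3, F4] (seg F0 j0 + seg F1 j1 + seg F2 j2 + seg F3 j3 + seg F4 j4) := by
  have := Stack.cons F0 j0 (stack4 F1 F2 F3 F4 j1 j2 j3 j4)
  simpa only [add_assoc] using this

end Crest.Agent.R171
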