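import Crest.Agent.R171.Rel
import Crest.Agent.R171.Tel

/-! Task FLAGB: behaviour of the flag cochains under the group, and generic flags.
* `b3_tor`: termwise; remove `e m` with `e_Q` (before and after applying `g`), `Tor`, `Finset.sum_range_succ`, `T3_shift`.
* `b2_tor`: the same with `T2_shift`, then `tel1` with `g i j = Q (seg F0 i + seg F1 j)`.
* `exists_gen`: induction on `n ≤ N`: `∃ F, ∀ l ∈ S, ∀ m ≤ N, Gen m l → ∀ j ≤ n, ∀ s, Stack l s → card s + j = m → U (seg F j + s)`.
  Step: apply `D.gen` to the finite set of `seg F n + s` (`l ∈ S`, `Gen m l`, `Stack l s`, `card s + n + 1 = m ≤ N`; finiteness of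
  `{s | Stack l s ∧ card s ≤ N}` by induction on `l`); the required witness is the next vector of the first flag of `l ≠ []`;
  then `Function.update F n v`. -/

set_option autoImplicit false

namespace Crest.Agent.R171

variable {V W M : Type} [AddCommGroup W] [AddCommGroup M] {I : W →+ W →+ W →+ M}

theorem c3_zero (D : DetData V I) (F0 F1 F2 F3 : ℕ → V) : D.c3 0 F0 F1 F2 F3 = 0 := by
  simp [DetData.c3, IDX_zero]

theorem c2_zero (D : DetData V I) (s : W) (F0 F1 F2 : ℕ → V) : D.c2 s 0 F0 F1 F2 = 0 := by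
  simp [DetData.c2, IDX_zero]

theorem c3_pres (D : DetData V I) {N : ℕ} {g : V → V} (hg : D.Pres N g) (F0 F1 F2 F3 : ℕ → V) :
    D.c3 N (g ∘ F0) (g ∘ F1) (g ∘ F2) (g ∘ F3) = D.c3 N F0 F1 F2 F3 := by
  unfold DetData.c3
  refine Finset.sum_congr rfl fun J hJ => ?_
  rw [mem_IDX, Fin.sum_univ_four] at hJ
  have hL : stk ![g ∘ F0, g ∘ F1, g ∘ F2, g ∘ F3] J = (stk ![F0, F1, F2, F3] J).map g := by
    simp only [stk4, seg_map, Multiset.map_add]
  have hc : Multiset.card (stk ![F0, F1, F2, F3] J) + 3 = N := by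
    simp only [stk4, Multiset.card_add, card_seg]; exact hJ
  have key : ∀ a b c : V, D.Q ((stk ![F0, F1, F2, F3] J).map g + {g a} + {g b} + {g c}) =
      D.Q (stk ![F0, F1, F2, F3] J + {a} + {b} + {c}) := by
    intro a b c
    have := (hg (stk ![F0, F1, F2, F3] J + {a} + {b} + {c}) (by
      simp only [Multiset.card_add, Multiset.card_singleton]; omega)).2
    simpa only [Multiset.map_add, Multiset.map_singleton] using this
  simp only [DetData.σ3, hL, Function.comp_apply, key]

theorem e_Q' (D : DetData V I) {m : ℕ} {L : Multiset V} (hL : Multiset.card L = m)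
    (hU : D.U L) : D.Q (L + {D.e m}) = D.Q L := by
  subst hL; exact D.e_Q L hU

theorem tor_e_Q (D : DetData V I) {g : V → V} {χ : ℕ → W} (hg : D.Tor g χ) {m : ℕ}
    {L : Multiset V} (hL : Multiset.card L = m) (hU : D.U L) :
    D.Q (L.map g + {D.e m}) = D.Q L + ∑ i ∈ Finset.range m, χ i := by
  rw [e_Q' D (by rw [Multiset.card_map, hL]) ((hg L).1.2 hU), (hg L).2 hU, hL]

theorem b3_tor (hI : IsAlt I) (D : DetData V I) {g : V → V} {χ : ℕ → W} (hg : D.Tor g χ) (m : ℕ)
    (F0 F1 F2 : ℕ → V) (h : D.Gen m [F0, F1, F2]) (h' : D.Gen (m + 1) [F0, F1, F2]) :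
    D.b3 m (g ∘ F0) (g ∘ F1) (g ∘ F2) = D.b3 m F0 F1 F2 - D.c2 (χ m) m F0 F1 F2 := by
  unfold DetData.b3 DetData.c2
  rw [← Finset.sum_sub_distrib]
  refine Finset.sum_congr rfl fun J hJ => ?_
  rw [mem_IDX, Fin.sum_univ_three] at hJ
  have hL : stk ![g ∘ F0, g ∘ F1, g ∘ F2] J = (stk ![F0, F1, F2] J).map g := by
    simp only [stk3, seg_map, Multiset.map_add]
  have hc : Multiset.card (stk ![F0, F1, F2] J) + 2 = m := by
    simp only [stk3, Multiset.card_add, card_seg]; exact hJ
  have u0 : D.U (stk ![F0, F1, F2] J + {F1 (J 1)} + {F2 (J 2)}) := by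
    have := h.2 _ (stack3 F0 F1 F2 (J 0) (J 1 + 1) (J 2 + 1)) (by
      simp only [Multiset.card_add, card_seg]; omega)
    convert this using 1
    simp only [stk3, seg_succ]; abel
  have u1 : D.U (stk ![F0, F1, F2] J + {F0 (J 0)} + {F2 (J 2)}) := by
    have := h.2 _ (stack3 F0 F1 F2 (J 0 + 1) (J 1) (J 2 + 1)) (by
      simp only [Multiset.card_add, card_seg]; omega)
    convert this using 1
    simp only [stk3, seg_succ]; abel
  have u2 : D.U (stk ![F0, F1, F2] J + {F0 (J 0)} + {F1 (J 1)}) := by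
    have := h.2 _ (stack3 F0 F1 F2 (J 0 + 1) (J 1 + 1) (J 2)) (by
      simp only [Multiset.card_add, card_seg]; omega)
    convert this using 1
    simp only [stk3, seg_succ]; abel
  have u3 : D.U (stk ![F0, F1, F2] J + {F0 (J 0)} + {F1 (J 1)} + {F2 (J 2)}) := by
    have := h'.2 _ (stack3 F0 F1 F2 (J 0 + 1) (J 1 + 1) (J 2 + 1)) (by
      simp only [Multiset.card_add, card_seg]; omega)
    convert this using 1
    simp only [stk3, seg_succ]; abel
  have c2 : ∀ a b : V, Multiset.card (stk ![F0, F1, F2] J + {a} + {b}) = m := by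
    intro a b
    simp only [Multiset.card_add, Multiset.card_singleton]; omega
  have c3 : Multiset.card (stk ![F0, F1, F2] J + {F0 (J 0)} + {F1 (J 1)} + {F2 (J 2)}) = m + 1 := by
    simp only [Multiset.card_add, Multiset.card_singleton]; omega
  have a0 := tor_e_Q D hg (c2 _ _) u0
  have a1 := tor_e_Q D hg (c2 _ _) u1
  have a2 := tor_e_Q D hg (c2 _ _) u2
  have a3 := (hg _).2 u3
  rw [c3, Finset.sum_range_succ] at a3
  simp only [Multiset.map_add, Multiset.map_singleton] at a0 a1 a2 a3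
  simp only [DetData.σ3, DetData.σ2, hL, Function.comp_apply]
  rw [a0, a1, a2, a3, e_Q' D (c2 _ _) u0, e_Q' D (c2 _ _) u1, e_Q' D (c2 _ _) u2, T3_shift hI]

theorem b2_tor (hI : IsAlt I) (D : DetData V I) {g : V → V} {χ : ℕ → W} (hg : D.Tor g χ) (s : W)
    (m : ℕ) (F0 F1 : ℕ → V) (h : D.Gen m [F0, F1]) (h' : D.Gen (m + 1) [F0, F1]) :
    D.b2 s m (g ∘ F0) (g ∘ F1) = D.b2 s m F0 F1 + I s (χ m) (D.Q (seg F1 m) - D.Q (seg F0 m)) := by
  have ht := tel1 (fun i j => D.Q (seg F0 i + seg F1 j)) m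
  simp only [seg_zero, zero_add, add_zero] at ht
  rw [← ht, map_sum]
  unfold DetData.b2
  rw [← Finset.sum_add_distrib]
  refine Finset.sum_congr rfl fun J hJ => ?_
  rw [mem_IDX, Fin.sum_univ_two] at hJ
  have hL : stk ![g ∘ F0, g ∘ F1] J = (stk ![F0, F1] J).map g := by
    simp only [stk2, seg_map, Multiset.map_add]
  have hc : Multiset.card (stk ![F0, F1] J) + 1 = m := by
    simp only [stk2, Multiset.card_add, card_seg]; exact hJ
  have e0 : seg F0 (J 0) + seg F1 (J 1 + 1) = stk ![F0, F1] J + {F1 (J 1)} := by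
    simp only [stk2, seg_succ]; abel
  have e1 : seg F0 (J 0 + 1) + seg F1 (J 1) = stk ![F0, F1] J + {F0 (J 0)} := by
    simp only [stk2, seg_succ]; abel
  have u0 : D.U (stk ![F0, F1] J + {F1 (J 1)}) := by
    rw [← e0]
    exact h.2 _ (stack2 F0 F1 (J 0) (J 1 + 1)) (by
      simp only [Multiset.card_add, card_seg]; omega)
  have u1 : D.U (stk ![F0, F1] J + {F0 (J 0)}) := by
    rw [← e1]
    exact h.2 _ (stack2 F0 F1 (J 0 + 1) (J 1)) (by
      simp only [Multiset.card_add, card_seg]; omega)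
  have u2 : D.U (stk ![F0, F1] J + {F0 (J 0)} + {F1 (J 1)}) := by
    have := h'.2 _ (stack2 F0 F1 (J 0 + 1) (J 1 + 1)) (by
      simp only [Multiset.card_add, card_seg]; omega)
    convert this using 1
    simp only [stk2, seg_succ]; abel
  have c1 : ∀ a : V, Multiset.card (stk ![F0, F1] J + {a}) = m := by
    intro a
    simp only [Multiset.card_add, Multiset.card_singleton]; omega
  have c2 : Multiset.card (stk ![F0, F1] J + {F0 (J 0)} + {F1 (J 1)}) = m + 1 := by
    simp only [Multiset.card_add, Multiset.card_singleton]; omega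
  have a0 := tor_e_Q D hg (c1 _) u0
  have a1 := tor_e_Q D hg (c1 _) u1
  have a2 := (hg _).2 u2
  rw [c2, Finset.sum_range_succ] at a2
  simp only [Multiset.map_add, Multiset.map_singleton] at a0 a1 a2
  simp only [DetData.σ2, hL, Function.comp_apply]
  rw [a0, a1, a2, e_Q' D (c1 _) u0, e_Q' D (c1 _) u1, T2_shift hI, e0, e1]

theorem stack_nil_inv {s : Multiset V} (h : Stack [] s) : s = 0 := by
  cases h; rfl

theorem stack_cons_inv {F : ℕ → V} {l : List (ℕ → V)} {s : Multiset V} (h : Stack (F :: l) s) :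
    ∃ j s', Stack l s' ∧ s = seg F j + s' := by
  cases h with
  | cons _ j h' => exact ⟨j, _, h', rfl⟩

theorem U_seg_e (D : DetData V I) (j : ℕ) : D.U (seg D.e j) := by
  induction j with
  | zero => simpa using D.U_zero
  | succ j ih =>
    rw [seg_succ]
    have := (D.e_U (seg D.e j)).2 ih
    rwa [card_seg] at this

theorem gen_std (D : DetData V I) (m : ℕ) : D.Gen m [D.e] := by
  refine ⟨by simp, fun s hs _ => ?_⟩
  obtain ⟨j, s', hs', rfl⟩ := stack_cons_inv hs
  rw [stack_nil_inv hs', add_zero]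
  exact U_seg_e D j

theorem stack_map_inv (g : V → V) {l : List (ℕ → V)} {s : Multiset V}
    (h : Stack (l.map (g ∘ ·)) s) : ∃ s', Stack l s' ∧ s = s'.map g := by
  induction l generalizing s with
  | nil => exact ⟨0, Stack.nil, by rw [stack_nil_inv h]; simp⟩
  | cons F l ih =>
    rw [List.map_cons] at h
    obtain ⟨j, s1, h1, rfl⟩ := stack_cons_inv h
    obtain ⟨s2, h2, rfl⟩ := ih h1
    exact ⟨seg F j + s2, Stack.cons F j h2, by rw [Multiset.map_add, seg_map]⟩

theorem gen_map (D : DetData V I) {m : ℕ} {g : V → V}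
    (hg : ∀ L : Multiset V, Multiset.card L = m → D.U L → D.U (L.map g)) {l : List (ℕ → V)}
    (h : D.Gen m l) : D.Gen m (l.map (g ∘ ·)) := by
  refine ⟨by simpa using h.1, fun s hs hc => ?_⟩
  obtain ⟨s', hs', rfl⟩ := stack_map_inv g hs
  rw [Multiset.card_map] at hc
  exact hg s' hc (h.2 s' hs' hc)

theorem Tor_comp (D : DetData V I) {g g' : V → V} {χ χ' : ℕ → W} (h : D.Tor g χ)
    (h' : D.Tor g' χ') : D.Tor (g ∘ g') (χ + χ') := by
  intro L
  rw [← Multiset.map_map]
  refine ⟨(h _).1.trans (h' L).1, fun hU => ?_⟩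
  rw [(h _).2 ((h' L).1.2 hU), (h' L).2 hU, Multiset.card_map]
  simp only [Pi.add_apply, Finset.sum_add_distrib]
  abel

theorem stack_finite (l : List (ℕ → V)) (N : ℕ) :
    Set.Finite {s : Multiset V | Stack l s ∧ Multiset.card s ≤ N} := by
  induction l with
  | nil =>
    refine Set.Finite.subset (Set.finite_singleton 0) ?_
    rintro s ⟨hs, _⟩
    exact stack_nil_inv hs
  | cons F l ih =>
    refine Set.Finite.subset (Set.Finite.image (fun p : ℕ × Multiset V => seg F p.1 + p.2)
      ((Set.finite_Iic N).prod ih)) ?_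
    rintro s ⟨hs, hc⟩
    obtain ⟨j, s', hs', rfl⟩ := stack_cons_inv hs
    simp only [Multiset.card_add, card_seg] at hc
    exact ⟨(j, s'), ⟨by simp only [Set.mem_Iic]; omega, hs', by simp only; omega⟩, rfl⟩

theorem seg_update (F : ℕ → V) {n : ℕ} (v : V) {j : ℕ} (hj : j ≤ n) :
    seg (Function.update F n v) j = seg F j := by
  unfold seg
  refine Multiset.map_congr rfl fun i hi => ?_
  rw [Multiset.mem_range] at hi
  exact Function.update_of_ne (by omega) _ _

theorem exists_gen (D : DetData V I) (N : ℕ) (S : Finset (List (ℕ → V))) :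
    ∃ F : ℕ → V, ∀ l ∈ S, ∀ m ≤ N, D.Gen m l → D.Gen m (F :: l) := by
  classical
  have main : ∀ n : ℕ, ∃ F : ℕ → V, ∀ l ∈ S, ∀ m ≤ N, D.Gen m l → ∀ j ≤ n, ∀ s, Stack l s →
      Multiset.card s + j = m → D.U (seg F j + s) := by
    intro n
    induction n with
    | zero =>
      refine ⟨D.e, fun l _ m _ hG j hj s hs hc => ?_⟩
      obtain rfl : j = 0 := by omega
      rw [seg_zero, zero_add]
      exact hG.2 s hs hc
    | succ n ih =>
      obtain ⟨F, hF⟩ := ih
      have hfin : Set.Finite {L : Multiset V | ∃ l ∈ S, ∃ s, Stack l s ∧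
          Multiset.card s + (n + 1) ≤ N ∧ D.Gen (Multiset.card s + (n + 1)) l ∧
          L = seg F n + s} := by
        refine Set.Finite.subset (Set.Finite.biUnion S.finite_toSet fun l _ =>
          (stack_finite l N).image (fun s => seg F n + s)) ?_
        rintro L ⟨l, hl, s, hs, hc, _, rfl⟩
        simp only [Set.mem_iUnion]
        exact ⟨l, hl, s, ⟨hs, by omega⟩, rfl⟩
      obtain ⟨v, hv⟩ := D.gen hfin.toFinset (by
        intro L hL
        rw [Set.Finite.mem_toFinset] at hL
        obtain ⟨l, hl, s, hs, hc, hG, rfl⟩ := hL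
        obtain ⟨F0, l', rfl⟩ := List.exists_cons_of_ne_nil hG.1
        obtain ⟨j, s', hs', rfl⟩ := stack_cons_inv hs
        refine ⟨F0 j, ?_⟩
        have := hF _ hl _ hc hG n le_rfl _ (Stack.cons F0 (j + 1) hs') (by
          simp only [Multiset.card_add, card_seg]; omega)
        convert this using 1
        rw [seg_succ]; abel)
      refine ⟨Function.update F n v, fun l hl m hm hG j hj s hs hc => ?_⟩
      rcases Nat.lt_or_ge j (n + 1) with hlt | hge
      · rw [seg_update F v (by omega)]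
        exact hF l hl m hm hG j (by omega) s hs hc
      · obtain rfl : j = n + 1 := by omega
        subst hc
        have := hv (seg F n + s) (by
          rw [Set.Finite.mem_toFinset]
          exact ⟨l, hl, s, hs, hm, hG, rfl⟩)
        convert this using 1
        rw [seg_succ, seg_update F v le_rfl, Function.update_self]; abel
  obtain ⟨F, hF⟩ := main N
  refine ⟨F, fun l hl m hm hG => ⟨by simp, fun s hs hc => ?_⟩⟩
  obtain ⟨j, s', hs', rfl⟩ := stack_cons_inv hs
  simp only [Multiset.card_add, card_seg] at hc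
  exact hF l hl m hm hG j (by omega) s' hs' (by omega)

end Crest.Agent.R171
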