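import Crest.Agent.R171.FlagA
import Crest.Agent.R171.FlagB
import Crest.Agent.R171.Coc

/-! The 3-cocycle on a group preserving level-`N` determinants and its value on tori. -/

set_option autoImplicit false

namespace Crest.Agent.R171

open Finsupp

section Chains
variable {X : Type}

abbrev Ch (X : Type) := List X →₀ ℤ

noncomputable def cone (F : X) : Ch X →ₗ[ℤ] Ch X := Finsupp.lmapDomain ℤ ℤ (List.cons F)

noncomputable def bdL : List X → Ch X
  | [] => 0
  | F :: l => single l 1 - cone F (bdL l)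

noncomputable def bd : Ch X →ₗ[ℤ] Ch X := Finsupp.linearCombination ℤ bdL

noncomputable def act (g : X → X) : Ch X →ₗ[ℤ] Ch X := Finsupp.lmapDomain ℤ ℤ (List.map g)

@[simp] theorem cone_single (F : X) (l : List X) (n : ℤ) :
    cone F (single l n) = single (F :: l) n := by
  simp [cone]

@[simp] theorem act_single (g : X → X) (l : List X) (n : ℤ) :
    act g (single l n) = single (l.map g) n := by
  simp [act]

theorem bd_single (l : List X) : bd (single l 1) = bdL l := by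
  simp [bd]

theorem ch_ext {M : Type} [AddCommGroup M] {f g : Ch X →ₗ[ℤ] M}
    (h : ∀ l, f (single l 1) = g (single l 1)) (z : Ch X) : f z = g z := by
  have : f = g := by
    apply Finsupp.lhom_ext'
    intro l
    apply LinearMap.ext_ring
    simpa using h l
  rw [this]

theorem bd_cone (F : X) (z : Ch X) : bd (cone F z) = z - cone F (bd z) := by
  refine ch_ext (f := bd ∘ₗ cone F) (g := LinearMap.id - cone F ∘ₗ bd) ?_ z
  intro l
  simp [bd_single, bdL]

theorem bd_bdL (l : List X) : bd (bdL l) = 0 := by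
  induction l with
  | nil => simp [bdL]
  | cons F l ih => rw [bdL, map_sub, bd_single, bd_cone, ih, map_zero, sub_zero, sub_self]

theorem bd_bd (z : Ch X) : bd (bd z) = 0 := by
  refine ch_ext (f := bd ∘ₗ bd) (g := 0) ?_ z
  intro l
  simp [bd_single, bd_bdL]

theorem act_cone (g : X → X) (F : X) (z : Ch X) : act g (cone F z) = cone (g F) (act g z) := by
  refine ch_ext (f := act g ∘ₗ cone F) (g := cone (g F) ∘ₗ act g) ?_ z
  intro l
  simp

theorem bdL_map (g : X → X) (l : List X) : bdL (l.map g) = act g (bdL l) := by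
  induction l with
  | nil => simp [bdL]
  | cons F l ih => rw [List.map_cons, bdL, bdL, map_sub, act_single, act_cone, ih]

theorem bd_act (g : X → X) (z : Ch X) : bd (act g z) = act g (bd z) := by
  refine ch_ext (f := bd ∘ₗ act g) (g := act g ∘ₗ bd) ?_ z
  intro l
  simp [bd_single, bdL_map]

theorem act_act (g h : X → X) (z : Ch X) : act g (act h z) = act (g ∘ h) z := by
  refine ch_ext (f := act g ∘ₗ act h) (g := act (g ∘ h)) ?_ z
  intro l
  simp

/-- chains supported on lists satisfying `P` -/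
def Sup (P : List X → Prop) : Submodule ℤ (Ch X) := Finsupp.supported ℤ ℤ {l | P l}

theorem single_mem_Sup {P : List X → Prop} {l : List X} (h : P l) : single l (1 : ℤ) ∈ Sup P :=
  Finsupp.single_mem_supported ℤ 1 h

theorem Sup_ind {P : List X → Prop} {z : Ch X} (hz : z ∈ Sup P) (S : Submodule ℤ (Ch X))
    (h : ∀ l ∈ z.support, P l → single l 1 ∈ S) : z ∈ S := by
  rw [← Finsupp.sum_single z]
  refine Submodule.sum_mem _ fun l hl => ?_
  have : single l (z l) = z l • single l (1 : ℤ) := by simp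
  rw [this]
  exact S.smul_mem _ (h l hl (hz hl))

theorem Sup_ext {M : Type} [AddCommGroup M] {P : List X → Prop} {f g : Ch X →ₗ[ℤ] M}
    (h : ∀ l, P l → f (single l 1) = g (single l 1)) {z : Ch X} (hz : z ∈ Sup P) : f z = g z :=
  Sup_ind hz (LinearMap.eqLocus f g) fun l _ hl => h l hl

theorem Sup_map {P P' : List X → Prop} (f : Ch X →ₗ[ℤ] Ch X) {z : Ch X} (hz : z ∈ Sup P)
    (h : ∀ l ∈ z.support, P l → f (single l 1) ∈ Sup P') : f z ∈ Sup P' :=
  Sup_ind hz ((Sup P').comap f) h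

/-- the functional attached to a function on lists -/
noncomputable def ev {M : Type} [AddCommGroup M] (f : List X → M) : Ch X →ₗ[ℤ] M :=
  Finsupp.linearCombination ℤ f

@[simp] theorem ev_single {M : Type} [AddCommGroup M] (f : List X → M) (l : List X) :
    ev f (single l 1) = f l := by
  simp [ev]

def on1 {M : Type} [AddCommGroup M] (f : X → M) : List X → M
  | [a] => f a
  | _ => 0

def on2 {M : Type} [AddCommGroup M] (f : X → X → M) : List X → M
  | [a, b] => f a b
  | _ => 0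

def on3 {M : Type} [AddCommGroup M] (f : X → X → X → M) : List X → M
  | [a, b, c] => f a b c
  | _ => 0

def on4 {M : Type} [AddCommGroup M] (f : X → X → X → X → M) : List X → M
  | [a, b, c, d] => f a b c d
  | _ => 0

theorem bdL_len (l : List X) : bdL l ∈ Sup (fun l' : List X => l'.length + 1 = l.length) := by
  induction l with
  | nil => exact Submodule.zero_mem _
  | cons F l ih =>
    rw [bdL]
    refine Submodule.sub_mem _ (single_mem_Sup rfl) (Sup_map _ ih fun l' _ hl' => ?_)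
    rw [cone_single]
    exact single_mem_Sup (by simpa using hl')

theorem ev_bdL_len {M : Type} [AddCommGroup M] (f : List X → M) (n : ℕ)
    (hf : ∀ l, l.length ≠ n → f l = 0) (l : List X) (hl : l.length ≠ n + 1) :
    ev f (bdL l) = 0 := by
  refine Sup_ext (g := 0) (fun l' hl' => ?_) (bdL_len l)
  rw [ev_single, LinearMap.zero_apply]
  exact hf l' (by omega)

theorem on1_len {M : Type} [AddCommGroup M] (f : X → M) (l : List X) (h : l.length ≠ 1) :
    on1 f l = 0 := by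
  match l, h with
  | [], _ => rfl
  | [_], h => exact absurd rfl h
  | _ :: _ :: _, _ => rfl

theorem on2_len {M : Type} [AddCommGroup M] (f : X → X → M) (l : List X) (h : l.length ≠ 2) :
    on2 f l = 0 := by
  match l, h with
  | [], _ => rfl
  | [_], _ => rfl
  | [_, _], h => exact absurd rfl h
  | _ :: _ :: _ :: _, _ => rfl

theorem on3_len {M : Type} [AddCommGroup M] (f : X → X → X → M) (l : List X)
    (h : l.length ≠ 3) : on3 f l = 0 := by
  match l, h with
  | [], _ => rfl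
  | [_], _ => rfl
  | [_, _], _ => rfl
  | [_, _, _], h => exact absurd rfl h
  | _ :: _ :: _ :: _ :: _, _ => rfl

theorem on4_len {M : Type} [AddCommGroup M] (f : X → X → X → X → M) (l : List X)
    (h : l.length ≠ 4) : on4 f l = 0 := by
  match l, h with
  | [], _ => rfl
  | [_], _ => rfl
  | [_, _], _ => rfl
  | [_, _, _], _ => rfl
  | [_, _, _, _], h => exact absurd rfl h
  | _ :: _ :: _ :: _ :: _ :: _, _ => rfl

theorem ev_on1_bd {M : Type} [AddCommGroup M] (f : X → M) (a b : X) :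
    ev (on1 f) (bdL [a, b]) = f b - f a := by
  simp [bdL, on1]

theorem ev_on2_bd {M : Type} [AddCommGroup M] (f : X → X → M) (a b c : X) :
    ev (on2 f) (bdL [a, b, c]) = f b c - f a c + f a b := by
  simp [bdL, on2]; abel

theorem ev_on3_bd {M : Type} [AddCommGroup M] (f : X → X → X → M) (a b c d : X) :
    ev (on3 f) (bdL [a, b, c, d]) = f b c d - f a c d + f a b d - f a b c := by
  simp [bdL, on3]; abel

theorem ev_on4_bd {M : Type} [AddCommGroup M] (f : X → X → X → X → M) (a b c d e : X) :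
    ev (on4 f) (bdL [a, b, c, d, e]) = f b c d e - f a c d e + f a b d e - f a b c e + f a b c d := by
  simp [bdL, on4]; abel

theorem len1 {l : List X} (h : l.length = 1) : ∃ a, l = [a] := by
  match l, h with
  | [a], _ => exact ⟨a, rfl⟩

theorem len2 {l : List X} (h : l.length = 2) : ∃ a b, l = [a, b] := by
  match l, h with
  | [a, b], _ => exact ⟨a, b, rfl⟩

theorem len3 {l : List X} (h : l.length = 3) : ∃ a b c, l = [a, b, c] := by
  match l, h with
  | [a, b, c], _ => exact ⟨a, b, c, rfl⟩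

theorem len4 {l : List X} (h : l.length = 4) : ∃ a b c d, l = [a, b, c, d] := by
  match l, h with
  | [a, b, c, d], _ => exact ⟨a, b, c, d, rfl⟩

theorem len5 {l : List X} (h : l.length = 5) : ∃ a b c d e, l = [a, b, c, d, e] := by
  match l, h with
  | [a, b, c, d, e], _ => exact ⟨a, b, c, d, e, rfl⟩

end Chains

variable {V W M : Type} [AddCommGroup W] [AddCommGroup M] {I : W →+ W →+ W →+ M}

/-- general position at all levels `≤ N` -/
def GenA (D : DetData V I) (N : ℕ) (l : List (ℕ → V)) : Prop := ∀ m ≤ N, D.Gen m l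

noncomputable def fill (D : DetData V I) (N : ℕ) (z : Ch (ℕ → V)) : Ch (ℕ → V) :=
  cone (exists_gen D N z.support).choose z

theorem bd_fill (D : DetData V I) (N : ℕ) {z : Ch (ℕ → V)} (hz : bd z = 0) :
    bd (fill D N z) = z := by
  rw [fill, bd_cone, hz, map_zero, sub_zero]

theorem fill_genN (D : DetData V I) (N : ℕ) {z : Ch (ℕ → V)} (hz : z ∈ Sup (D.Gen N)) :
    fill D N z ∈ Sup (D.Gen N) := by
  refine Sup_map _ hz fun l hl h => ?_
  rw [cone_single]
  exact single_mem_Sup ((exists_gen D N z.support).choose_spec l hl N le_rfl h)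

theorem fill_genA (D : DetData V I) (N : ℕ) {z : Ch (ℕ → V)} (hz : z ∈ Sup (GenA D N)) :
    fill D N z ∈ Sup (GenA D N) := by
  refine Sup_map _ hz fun l hl h => ?_
  rw [cone_single]
  exact single_mem_Sup fun m hm => (exists_gen D N z.support).choose_spec l hl m hm (h m hm)

/-- action on chains of flags -/
noncomputable def actF (g : V → V) : Ch (ℕ → V) →ₗ[ℤ] Ch (ℕ → V) := act (fun F => g ∘ F)

theorem actF_genN (D : DetData V I) {N : ℕ} {g : V → V} (hg : D.Pres N g) {z : Ch (ℕ → V)}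
    (hz : z ∈ Sup (D.Gen N)) : actF g z ∈ Sup (D.Gen N) := by
  refine Sup_map _ hz fun l _ h => ?_
  rw [actF, act_single]
  exact single_mem_Sup (gen_map D (fun L hL hU => ((hg L hL).1).2 hU) h)

theorem actF_genA (D : DetData V I) {N : ℕ} {g : V → V} {χ : ℕ → W} (hg : D.Tor g χ)
    {z : Ch (ℕ → V)} (hz : z ∈ Sup (GenA D N)) : actF g z ∈ Sup (GenA D N) := by
  refine Sup_map _ hz fun l _ h => ?_
  rw [actF, act_single]
  exact single_mem_Sup fun m hm => gen_map D (fun L _ hU => ((hg L).1).2 hU) (h m hm)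

noncomputable def C3 (D : DetData V I) (m : ℕ) : Ch (ℕ → V) →ₗ[ℤ] M := ev (on4 (D.c3 m))
noncomputable def B3 (D : DetData V I) (m : ℕ) : Ch (ℕ → V) →ₗ[ℤ] M := ev (on3 (D.b3 m))
noncomputable def C2 (D : DetData V I) (s : W) (m : ℕ) : Ch (ℕ → V) →ₗ[ℤ] M :=
  ev (on3 (D.c2 s m))
noncomputable def B2 (D : DetData V I) (s : W) (m : ℕ) : Ch (ℕ → V) →ₗ[ℤ] M :=
  ev (on2 (D.b2 s m))
noncomputable def A0 (D : DetData V I) (s s' : W) (m : ℕ) : Ch (ℕ → V) →ₗ[ℤ] M :=
  ev (on1 fun F => I s s' (D.Q (seg F m)))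

theorem C3_bd (hI : IsAlt I) (D : DetData V I) (N : ℕ) {z : Ch (ℕ → V)} (hz : z ∈ Sup (D.Gen N)) :
    C3 D N (bd z) = 0 := by
  refine Sup_ext (f := C3 D N ∘ₗ bd) (g := 0) (fun l hl => ?_) hz
  rw [LinearMap.comp_apply, bd_single, LinearMap.zero_apply, C3]
  by_cases h5 : l.length = 5
  · obtain ⟨a, b, c, d, e, rfl⟩ := len5 h5
    rw [ev_on4_bd]
    exact c3_coc hI D N a b c d e hl
  · exact ev_bdL_len _ 4 (on4_len _) l h5

theorem C3_act (D : DetData V I) {N : ℕ} {g : V → V} (hg : D.Pres N g) (z : Ch (ℕ → V)) :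
    C3 D N (actF g z) = C3 D N z := by
  refine ch_ext (f := C3 D N ∘ₗ actF g) (g := C3 D N) (fun l => ?_) z
  rw [LinearMap.comp_apply, actF, act_single, C3, ev_single, ev_single]
  by_cases h4 : l.length = 4
  · obtain ⟨a, b, c, d, rfl⟩ := len4 h4
    exact c3_pres D hg a b c d
  · rw [on4_len _ _ h4, on4_len _ _ (by simpa using h4)]

theorem C3_succ (hI : IsAlt I) (D : DetData V I) {N m : ℕ} (hm : m + 1 ≤ N) {z : Ch (ℕ → V)}
    (hz : z ∈ Sup (GenA D N)) : C3 D (m + 1) z = C3 D m z - B3 D m (bd z) := by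
  refine Sup_ext (f := C3 D (m + 1)) (g := C3 D m - B3 D m ∘ₗ bd) (fun l hl => ?_) hz
  rw [LinearMap.sub_apply, LinearMap.comp_apply, bd_single, C3, C3, B3, ev_single, ev_single]
  by_cases h4 : l.length = 4
  · obtain ⟨a, b, c, d, rfl⟩ := len4 h4
    rw [ev_on3_bd]
    exact c3_succ hI D m a b c d (hl m (by omega)) (hl (m + 1) hm)
  · rw [on4_len _ _ h4, on4_len _ _ h4, ev_bdL_len _ 3 (on3_len _) l h4, sub_zero]

theorem C2_succ (hI : IsAlt I) (D : DetData V I) (s : W) {N m : ℕ} (hm : m + 1 ≤ N)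
    {z : Ch (ℕ → V)} (hz : z ∈ Sup (GenA D N)) :
    C2 D s (m + 1) z = C2 D s m z + B2 D s m (bd z) := by
  refine Sup_ext (f := C2 D s (m + 1)) (g := C2 D s m + B2 D s m ∘ₗ bd) (fun l hl => ?_) hz
  rw [LinearMap.add_apply, LinearMap.comp_apply, bd_single, C2, C2, B2, ev_single, ev_single]
  by_cases h3 : l.length = 3
  · obtain ⟨a, b, c, rfl⟩ := len3 h3
    rw [ev_on2_bd]
    exact c2_succ hI D s m a b c (hl m (by omega)) (hl (m + 1) hm)
  · rw [on3_len _ _ h3, on3_len _ _ h3, ev_bdL_len _ 2 (on2_len _) l h3, add_zero]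

theorem B3_act (hI : IsAlt I) (D : DetData V I) {g : V → V} {χ : ℕ → W} (hg : D.Tor g χ)
    {N m : ℕ} (hm : m + 1 ≤ N) {z : Ch (ℕ → V)} (hz : z ∈ Sup (GenA D N)) :
    B3 D m (actF g z) = B3 D m z - C2 D (χ m) m z := by
  refine Sup_ext (f := B3 D m ∘ₗ actF g) (g := B3 D m - C2 D (χ m) m) (fun l hl => ?_) hz
  rw [LinearMap.sub_apply, LinearMap.comp_apply, actF, act_single, B3, C2, ev_single, ev_single,
    ev_single]
  by_cases h3 : l.length = 3
  · obtain ⟨a, b, c, rfl⟩ := len3 h3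
    exact b3_tor hI D hg m a b c (hl m (by omega)) (hl (m + 1) hm)
  · rw [on3_len _ _ h3, on3_len _ _ h3, on3_len _ _ (by simpa using h3), sub_zero]

theorem B2_act (hI : IsAlt I) (D : DetData V I) {g : V → V} {χ : ℕ → W} (hg : D.Tor g χ) (s : W)
    {N m : ℕ} (hm : m + 1 ≤ N) {z : Ch (ℕ → V)} (hz : z ∈ Sup (GenA D N)) :
    B2 D s m (actF g z) = B2 D s m z + A0 D s (χ m) m (bd z) := by
  refine Sup_ext (f := B2 D s m ∘ₗ actF g) (g := B2 D s m + A0 D s (χ m) m ∘ₗ bd)
    (fun l hl => ?_) hz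
  rw [LinearMap.add_apply, LinearMap.comp_apply, LinearMap.comp_apply, actF, act_single, B2, A0,
    ev_single, ev_single, bd_single]
  by_cases h2 : l.length = 2
  · obtain ⟨a, b, rfl⟩ := len2 h2
    rw [ev_on1_bd, ← map_sub]
    exact b2_tor hI D hg s m a b (hl m (by omega)) (hl (m + 1) hm)
  · rw [on2_len _ _ h2, on2_len _ _ (by simpa using h2), ev_bdL_len _ 1 (on1_len _) l h2, add_zero]

section Psi
variable (D : DetData V I) (N : ℕ) {G : Type} [Group G] (ρ : G →* Equiv.Perm V)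

noncomputable def ac (g : G) : Ch (ℕ → V) →ₗ[ℤ] Ch (ℕ → V) := actF (ρ g)

theorem ac_mul (g h : G) (z : Ch (ℕ → V)) : ac ρ g (ac ρ h z) = ac ρ (g * h) z := by
  rw [ac, ac, ac, actF, actF, actF, act_act, map_mul]
  rfl

theorem bd_ac (g : G) (z : Ch (ℕ → V)) : bd (ac ρ g z) = ac ρ g (bd z) := bd_act _ _

noncomputable def ψ0 : Ch (ℕ → V) := single [D.e] 1
noncomputable def ψ1 (a : G) : Ch (ℕ → V) := fill D N (ac ρ a (ψ0 D) - ψ0 D)
noncomputable def ψ2 (a b : G) : Ch (ℕ → V) :=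
  fill D N (ac ρ a (ψ1 D N ρ b) - ψ1 D N ρ (a * b) + ψ1 D N ρ a)
noncomputable def ψ3 (a b c : G) : Ch (ℕ → V) :=
  fill D N (ac ρ a (ψ2 D N ρ b c) - ψ2 D N ρ (a * b) c + ψ2 D N ρ a (b * c) - ψ2 D N ρ a b)

theorem bd_ψ1 (a : G) : bd (ψ1 D N ρ a) = ac ρ a (ψ0 D) - ψ0 D := by
  apply bd_fill
  rw [map_sub, bd_ac, ψ0, bd_single]
  simp [bdL, ac, actF]

theorem bd_ψ2 (a b : G) :
    bd (ψ2 D N ρ a b) = ac ρ a (ψ1 D N ρ b) - ψ1 D N ρ (a * b) + ψ1 D N ρ a := by
  apply bd_fill
  simp only [map_add, map_sub, bd_ac, bd_ψ1, ac_mul]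
  abel

theorem bd_ψ3 (a b c : G) : bd (ψ3 D N ρ a b c) =
    ac ρ a (ψ2 D N ρ b c) - ψ2 D N ρ (a * b) c + ψ2 D N ρ a (b * c) - ψ2 D N ρ a b := by
  apply bd_fill
  simp only [map_add, map_sub, bd_ac, bd_ψ2, ac_mul, mul_assoc]
  abel

/-- abstract closure properties of a class of chains under a submonoid -/
theorem ψ_mem (P : List (ℕ → V) → Prop) (H : G → Prop) (hmul : ∀ a b, H a → H b → H (a * b))
    (h0 : P [D.e]) (hfill : ∀ z ∈ Sup P, fill D N z ∈ Sup P)
    (hac : ∀ g, H g → ∀ z ∈ Sup P, ac ρ g z ∈ Sup P) :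
    ψ0 D ∈ Sup P ∧ (∀ a, H a → ψ1 D N ρ a ∈ Sup P) ∧ (∀ a b, H a → H b → ψ2 D N ρ a b ∈ Sup P) ∧
      (∀ a b c, H a → H b → H c → ψ3 D N ρ a b c ∈ Sup P) := by
  have p0 : ψ0 D ∈ Sup P := single_mem_Sup h0
  have p1 : ∀ a, H a → ψ1 D N ρ a ∈ Sup P := fun a ha =>
    hfill _ (Submodule.sub_mem _ (hac a ha _ p0) p0)
  have p2 : ∀ a b, H a → H b → ψ2 D N ρ a b ∈ Sup P := fun a b ha hb =>
    hfill _ (Submodule.add_mem _ (Submodule.sub_mem _ (hac a ha _ (p1 b hb))
      (p1 _ (hmul a b ha hb))) (p1 a ha))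
  refine ⟨p0, p1, p2, fun a b c ha hb hc => hfill _ (Submodule.sub_mem _ (Submodule.add_mem _
    (Submodule.sub_mem _ (hac a ha _ (p2 b c hb hc)) (p2 _ _ (hmul a b ha hb) hc))
    (p2 _ _ ha (hmul b c hb hc))) (p2 a b ha hb))⟩

end Psi

theorem exists_flag_cocycle (hI : IsAlt I) (D : DetData V I) (N : ℕ) {G : Type} [Group G]
    (ρ : G →* Equiv.Perm V) (hρ : ∀ g, D.Pres N (ρ g)) :
    ∃ φ : G → G → G → M, IsCoc3 φ ∧ ∀ (a b c : G) (χa χb χc : ℕ → W),
      D.Tor (ρ a) χa → D.Tor (ρ b) χb → D.Tor (ρ c) χc → Commute a b → Commute a c → Commute b c →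
      alt3 φ a b c = e3 I χa χb χc N := by
  obtain ⟨-, -, -, n3⟩ := ψ_mem D N ρ (D.Gen N) (fun _ => True) (fun _ _ _ _ => trivial)
    (gen_std D N) (fun z hz => fill_genN D N hz) (fun g _ z hz => actF_genN D (hρ g) hz)
  let H : G → Prop := fun g => ∃ χ, D.Tor (ρ g) χ
  have hmul : ∀ a b, H a → H b → H (a * b) := by
    rintro a b ⟨χ, h⟩ ⟨χ', h'⟩
    refine ⟨χ + χ', ?_⟩
    rw [map_mul, Equiv.Perm.coe_mul]
    exact Tor_comp D h h'
  obtain ⟨t0, t1, t2, t3⟩ := ψ_mem D N ρ (GenA D N) H hmul (fun m _ => gen_std D m)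
    (fun z hz => fill_genA D N hz) (fun g hg z hz => actF_genA D hg.choose_spec hz)
  refine ⟨fun a b c => C3 D N (ψ3 D N ρ a b c), ?_, ?_⟩
  · intro a b c d
    have hz : ac ρ a (ψ3 D N ρ b c d) - ψ3 D N ρ (a * b) c d + ψ3 D N ρ a (b * c) d -
        ψ3 D N ρ a b (c * d) + ψ3 D N ρ a b c ∈ Sup (D.Gen N) :=
      Submodule.add_mem _ (Submodule.sub_mem _ (Submodule.add_mem _ (Submodule.sub_mem _
        (actF_genN D (hρ a) (n3 _ _ _ trivial trivial trivial)) (n3 _ _ _ trivial trivial trivial))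
        (n3 _ _ _ trivial trivial trivial)) (n3 _ _ _ trivial trivial trivial))
        (n3 _ _ _ trivial trivial trivial)
    have hb : bd (ac ρ a (ψ3 D N ρ b c d) - ψ3 D N ρ (a * b) c d + ψ3 D N ρ a (b * c) d -
        ψ3 D N ρ a b (c * d) + ψ3 D N ρ a b c) = 0 := by
      simp only [map_add, map_sub, bd_ac, bd_ψ3, ac_mul, mul_assoc]
      abel
    have := C3_bd hI D N (fill_genN D N hz)
    rw [bd_fill D N hb] at this
    simp only [map_add, map_sub] at this
    rw [ac, C3_act D (hρ a)] at this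
    exact this
  · -- level recursion
    have l1 : ∀ (s s' : W) (m : ℕ) (c : G) (χ : ℕ → W), D.Tor (ρ c) χ →
        A0 D s s' m (bd (ψ1 D N ρ c)) = I s s' (∑ i ∈ Finset.range m, χ i) := by
      intro s s' m c χ hc
      have hU : D.U (seg D.e m) := (gen_std D m).2 _ (stack1 _ _) (card_seg _ _)
      rw [bd_ψ1, map_sub, ψ0, ac, actF, act_single, A0, ev_single, ev_single]
      simp only [List.map, on1]
      rw [seg_map, (hc _).2 hU, card_seg, map_add, add_sub_cancel_left]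
    have l2 : ∀ (s : W) (b c : G) (χb χc : ℕ → W), D.Tor (ρ b) χb → D.Tor (ρ c) χc → Commute b c →
        ∀ m ≤ N, C2 D s m (ψ2 D N ρ b c - ψ2 D N ρ c b) = e2 I s χb χc m := by
      intro s b c χb χc hb hc hbc m
      have hz : ψ2 D N ρ b c - ψ2 D N ρ c b ∈ Sup (GenA D N) :=
        Submodule.sub_mem _ (t2 b c ⟨_, hb⟩ ⟨_, hc⟩) (t2 c b ⟨_, hc⟩ ⟨_, hb⟩)
      induction m with
      | zero =>
        intro _
        refine ch_ext (f := C2 D s 0) (g := 0) (fun l => ?_) _
        rw [C2, ev_single, LinearMap.zero_apply]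
        by_cases h3 : l.length = 3
        · obtain ⟨a, b, c, rfl⟩ := len3 h3
          exact c2_zero D s a b c
        · exact on3_len _ _ h3
      | succ m ih =>
        intro hm
        rw [C2_succ hI D s hm hz, ih (by omega), e2]
        congr 1
        simp only [map_add, map_sub, bd_ψ2]
        rw [ac, ac, B2_act hI D hb s hm (t1 c ⟨_, hc⟩), B2_act hI D hc s hm (t1 b ⟨_, hb⟩),
          l1 s _ m c χc hc, l1 s _ m b χb hb, hbc.eq]
        abel
    intro a b c χa χb χc ha hb hc hab hac hbc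
    have hz : alt3 (ψ3 D N ρ) a b c ∈ Sup (GenA D N) := by
      have Ha : H a := ⟨_, ha⟩
      have Hb : H b := ⟨_, hb⟩
      have Hc : H c := ⟨_, hc⟩
      unfold alt3
      exact Submodule.sub_mem _ (Submodule.add_mem _ (Submodule.add_mem _ (Submodule.sub_mem _
        (Submodule.sub_mem _ (t3 _ _ _ Ha Hb Hc) (t3 _ _ _ Ha Hc Hb)) (t3 _ _ _ Hb Ha Hc))
        (t3 _ _ _ Hb Hc Ha)) (t3 _ _ _ Hc Ha Hb)) (t3 _ _ _ Hc Hb Ha)
    have hbd : bd (alt3 (ψ3 D N ρ) a b c) =
        (ac ρ a (ψ2 D N ρ b c - ψ2 D N ρ c b) - (ψ2 D N ρ b c - ψ2 D N ρ c b)) -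
        (ac ρ b (ψ2 D N ρ a c - ψ2 D N ρ c a) - (ψ2 D N ρ a c - ψ2 D N ρ c a)) +
        (ac ρ c (ψ2 D N ρ a b - ψ2 D N ρ b a) - (ψ2 D N ρ a b - ψ2 D N ρ b a)) := by
      unfold alt3
      simp only [map_add, map_sub, bd_ψ3, hab.eq, hac.eq, hbc.eq]
      abel
    have l3 : ∀ m ≤ N, C3 D m (alt3 (ψ3 D N ρ) a b c) = e3 I χa χb χc m := by
      intro m
      induction m with
      | zero =>
        intro _
        refine ch_ext (f := C3 D 0) (g := 0) (fun l => ?_) _
        rw [C3, ev_single, LinearMap.zero_apply]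
        by_cases h4 : l.length = 4
        · obtain ⟨a, b, c, d, rfl⟩ := len4 h4
          exact c3_zero D a b c d
        · exact on4_len _ _ h4
      | succ m ih =>
        intro hm
        have s2 : ∀ (b c : G), H b → H c → ψ2 D N ρ b c - ψ2 D N ρ c b ∈ Sup (GenA D N) :=
          fun b c hb hc => Submodule.sub_mem _ (t2 b c hb hc) (t2 c b hc hb)
        have k : ∀ (g : G) (χ : ℕ → W), D.Tor (ρ g) χ → ∀ z ∈ Sup (GenA D N),
            B3 D m (ac ρ g z - z) = - C2 D (χ m) m z := by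
          intro g χ hg z hz
          rw [map_sub, ac, B3_act hI D hg hm hz]
          abel
        rw [C3_succ hI D hm hz, ih (by omega), e3, hbd, map_add, map_sub,
          k a χa ha _ (s2 b c ⟨_, hb⟩ ⟨_, hc⟩), k b χb hb _ (s2 a c ⟨_, ha⟩ ⟨_, hc⟩),
          k c χc hc _ (s2 a b ⟨_, ha⟩ ⟨_, hb⟩),
          l2 _ b c χb χc hb hc hbc m (by omega), l2 _ a c χa χc ha hc hac m (by omega),
          l2 _ a b χa χb ha hb hab m (by omega)]
        abel
    rw [← l3 N le_rfl]
    unfold alt3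
    simp only [map_add, map_sub]

end Crest.Agent.R171
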