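import Crest.Agent.R171.Defs

/-! Task HOM: interface with Mathlib's `groupHomology` (inhomogeneous chains, trivial coefficients).
Let `z = n • ∑ sgn single ![..] 1 ∈ (Fin 3 → G) →₀ ℤ` be the torus chain of `a b c` (a cycle since they commute;
`groupHomology.d_single`, `Fin.contractNth`).  (1) With `M = C₃(G')/range d` and the universal cocycle
`ψ a b c = mk (single ![a,b,c] 1)` (cocycle: `d (single ![a,b,c,d] 1)`), `h1` says that the image of `z` is a boundary, so
`map f _ 3 (π z) = 0` (`groupHomology.π_map`, `HomologicalComplex.liftCycles_homologyπ_eq_zero_of_boundary` or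
`toCycles_comp_homologyπ`).  (2) If `π z = 0` then `z = d c` (use `homology_π_ι`, `pOpcycles`/`descOpcycles` to the quotient
by the range of `d`, or `ShortComplex.moduleCatHomologyIso`); apply `h2` to the finite set of all entries of
`c.support`, and the functional `Finsupp.linearCombination ℤ (fun g => φ (g 0) (g 1) (g 2))` kills `d c` but
sends `z` to `n • alt3 φ a b c`. -/

set_option autoImplicit false

namespace Crest.Agent.R171

open CategoryTheory

theorem hom_pi_eq_zero_iff (C : ChainComplex (ModuleCat.{0} ℤ) ℕ) (n : ℕ) (x : C.cycles n) :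
    (C.homologyπ n).hom x = 0 ↔
      ∃ y : C.X (n + 1), (C.d (n + 1) n).hom y = (C.iCycles n).hom x := by
  have hex : (ShortComplex.mk (C.toCycles (n + 1) n) (C.homologyπ n) (by simp)).Exact :=
    ShortComplex.exact_of_g_is_cokernel _ (C.homologyIsCokernel (n + 1) n (by simp))
  rw [ShortComplex.moduleCat_exact_iff] at hex
  have hti : ∀ y : C.X (n + 1),
      (C.iCycles n).hom ((C.toCycles (n + 1) n).hom y) = (C.d (n + 1) n).hom y := by
    intro y
    rw [← C.toCycles_i (n + 1) n]
    rfl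
  constructor
  · intro h
    obtain ⟨y, hy⟩ := hex x h
    refine ⟨y, ?_⟩
    rw [← hti]
    exact congrArg _ hy
  · rintro ⟨y, hy⟩
    have hx : x = (C.toCycles (n + 1) n).hom y := by
      apply (ModuleCat.mono_iff_injective (C.iCycles n)).1 inferInstance
      change (C.iCycles n).hom x = (C.iCycles n).hom _
      rw [hti, hy]
    rw [hx]
    have h0 := C.toCycles_comp_homologyπ (n + 1) n
    have h1 : (C.toCycles (n + 1) n ≫ C.homologyπ n).hom y = 0 := by rw [h0]; rfl
    exact h1

/-- basis chains -/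
noncomputable def hsg {G : Type} {n : ℕ} (g : Fin n → G) : (Fin n → G) →₀ ℤ := Finsupp.single g 1

/-- the differential on chains with trivial integer coefficients -/
noncomputable def hdd (G : Type) [Group G] (n : ℕ) :
    ((Fin (n + 1) → G) →₀ ℤ) →ₗ[ℤ] ((Fin n → G) →₀ ℤ) :=
  (groupHomology.inhomogeneousChains.d (Rep.trivial ℤ G ℤ) n).hom

theorem hdd_single {G : Type} [Group G] (n : ℕ) (g : Fin (n + 1) → G) :
    hdd G n (hsg g) = hsg (fun i => g i.succ) +
      ∑ j : Fin (n + 1), (-1 : ℤ) ^ ((j : ℕ) + 1) • hsg (Fin.contractNth j (· * ·) g) := by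
  have := groupHomology.inhomogeneousChains.d_single (A := Rep.trivial ℤ G ℤ) n g (1 : ℤ)
  simpa [hdd, hsg] using this

theorem hdd_three {G : Type} [Group G] (a b c : G) :
    hdd G 2 (hsg ![a, b, c]) = hsg ![b, c] - hsg ![a * b, c] + hsg ![a, b * c] - hsg ![a, b] := by
  rw [hdd_single]
  have e0 : (fun i : Fin 2 => (![a, b, c] : Fin 3 → G) i.succ) = ![b, c] := by
    funext i; fin_cases i <;> rfl
  have e1 : Fin.contractNth (0 : Fin 3) (· * ·) (![a, b, c] : Fin 3 → G) = ![a * b, c] := by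
    funext i; fin_cases i <;> rfl
  have e2 : Fin.contractNth (1 : Fin 3) (· * ·) (![a, b, c] : Fin 3 → G) = ![a, b * c] := by
    funext i; fin_cases i <;> rfl
  have e3 : Fin.contractNth (2 : Fin 3) (· * ·) (![a, b, c] : Fin 3 → G) = ![a, b] := by
    funext i; fin_cases i <;> rfl
  rw [Fin.sum_univ_three, e0, e1, e2, e3]
  simp
  abel

theorem hdd_four {G : Type} [Group G] (a b c d : G) :
    hdd G 3 (hsg ![a, b, c, d]) = hsg ![b, c, d] - hsg ![a * b, c, d] + hsg ![a, b * c, d]
      - hsg ![a, b, c * d] + hsg ![a, b, c] := by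
  rw [hdd_single]
  have e0 : (fun i : Fin 3 => (![a, b, c, d] : Fin 4 → G) i.succ) = ![b, c, d] := by
    funext i; fin_cases i <;> rfl
  have e1 : Fin.contractNth (0 : Fin 4) (· * ·) (![a, b, c, d] : Fin 4 → G) = ![a * b, c, d] := by
    funext i; fin_cases i <;> rfl
  have e2 : Fin.contractNth (1 : Fin 4) (· * ·) (![a, b, c, d] : Fin 4 → G) = ![a, b * c, d] := by
    funext i; fin_cases i <;> rfl
  have e3 : Fin.contractNth (2 : Fin 4) (· * ·) (![a, b, c, d] : Fin 4 → G) = ![a, b, c * d] := by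
    funext i; fin_cases i <;> rfl
  have e4 : Fin.contractNth (3 : Fin 4) (· * ·) (![a, b, c, d] : Fin 4 → G) = ![a, b, c] := by
    funext i; fin_cases i <;> rfl
  rw [Fin.sum_univ_four, e0, e1, e2, e3, e4]
  simp
  abel

/-- the torus chain -/
noncomputable def htor {G : Type} (a b c : G) : (Fin 3 → G) →₀ ℤ :=
  alt3 (fun x y z => hsg ![x, y, z]) a b c

theorem hdd_tor {G : Type} [Group G] {a b c : G} (hab : Commute a b) (hac : Commute a c)
    (hbc : Commute b c) : hdd G 2 (htor a b c) = 0 := by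
  simp only [htor, alt3, map_add, map_sub, hdd_three]
  rw [← hab.eq, ← hac.eq, ← hbc.eq]
  abel

/-- the functional attached to a 3-cochain -/
noncomputable def hev {G M : Type} [AddCommGroup M] (φ : G → G → G → M) :
    ((Fin 3 → G) →₀ ℤ) →ₗ[ℤ] M :=
  Finsupp.linearCombination ℤ (fun g : Fin 3 → G => φ (g 0) (g 1) (g 2))

theorem hev_sg {G M : Type} [AddCommGroup M] (φ : G → G → G → M) (a b c : G) :
    hev φ (hsg ![a, b, c]) = φ a b c := by
  simp [hev, hsg]

theorem hev_tor {G M : Type} [AddCommGroup M] (φ : G → G → G → M) (a b c : G) :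
    hev φ (htor a b c) = alt3 φ a b c := by
  simp only [htor, alt3, map_add, map_sub, hev_sg]

theorem hev_dd {G M : Type} [Group G] [AddCommGroup M] (φ : G → G → G → M)
    (y : (Fin 4 → G) →₀ ℤ)
    (h : ∀ g ∈ y.support, φ (g 1) (g 2) (g 3) - φ (g 0 * g 1) (g 2) (g 3)
      + φ (g 0) (g 1 * g 2) (g 3) - φ (g 0) (g 1) (g 2 * g 3) + φ (g 0) (g 1) (g 2) = 0) :
    hev φ (hdd G 3 y) = 0 := by
  rw [← Finsupp.sum_single y, Finsupp.sum, map_sum, map_sum]
  refine Finset.sum_eq_zero fun g hg => ?_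
  have e : Finsupp.single g (y g) = y g • hsg ![g 0, g 1, g 2, g 3] := by
    have : (![g 0, g 1, g 2, g 3] : Fin 4 → G) = g := by
      funext i; fin_cases i <;> rfl
    rw [this, hsg, Finsupp.smul_single, smul_eq_mul, mul_one]
  rw [e, map_zsmul, map_zsmul, hdd_four]
  simp only [map_add, map_sub, hev_sg]
  rw [h g hg, smul_zero]

theorem not_injective_H3 {G G' : Type} [Group G] [Group G'] (f : G →* G')
    (τ : Rep.trivial ℤ G ℤ ⟶ Rep.res f (Rep.trivial ℤ G' ℤ)) (hτ : ∀ m : ℤ, τ.hom m = m)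
    (a b c : G) (hab : Commute a b) (hac : Commute a c) (hbc : Commute b c) (n : ℤ)
    (h1 : ∀ (M : Type) [AddCommGroup M] (ψ : G' → G' → G' → M), IsCoc3 ψ →
      n • alt3 ψ (f a) (f b) (f c) = 0)
    (h2 : ∀ s : Finset G, ∃ (K : Subgroup G) (M : Type) (_ : AddCommGroup M) (φ : G → G → G → M),
      (∀ g ∈ s, g ∈ K) ∧
      (∀ a ∈ K, ∀ b ∈ K, ∀ c ∈ K, ∀ d ∈ K,
        φ b c d - φ (a * b) c d + φ a (b * c) d - φ a b (c * d) + φ a b c = 0) ∧
      n • alt3 φ a b c ≠ 0) :
    ¬ Function.Injective (groupHomology.map f τ 3).hom := by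
  intro hinj
  have hd : ∀ (H : Type) [Group H] (m : ℕ) (y : (Fin (m + 1) → H) →₀ ℤ),
      ((groupHomology.inhomogeneousChains (Rep.trivial ℤ H ℤ)).d (m + 1) m).hom y = hdd H m y := by
    intro H _ m y
    rw [groupHomology.inhomogeneousChains.d_def]
    rfl
  have hz : ((groupHomology.inhomogeneousChains (Rep.trivial ℤ G ℤ)).d 3 2).hom
      (n • htor a b c) = 0 := by
    rw [hd G 2, map_zsmul, hdd_tor hab hac hbc, smul_zero]
  let z : groupHomology.cycles (Rep.trivial ℤ G ℤ) 3 :=
    groupHomology.cyclesMk (A := Rep.trivial ℤ G ℤ) 3 2 (by simp) (n • htor a b c) hz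
  have hiz : (groupHomology.iCycles (Rep.trivial ℤ G ℤ) 3).hom z = n • htor a b c :=
    groupHomology.iCycles_mk (A := Rep.trivial ℤ G ℤ) (by simp) (n • htor a b c) hz
  -- the image of `z` is a boundary
  have hmap : (groupHomology.map f τ 3).hom ((groupHomology.π (Rep.trivial ℤ G ℤ) 3).hom z) = 0 := by
    have e1 : (groupHomology.map f τ 3).hom ((groupHomology.π (Rep.trivial ℤ G ℤ) 3).hom z) =
        (groupHomology.π (Rep.trivial ℤ G' ℤ) 3).hom ((groupHomology.cyclesMap f τ 3).hom z) := by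
      have := groupHomology.π_map f τ 3
      exact congrArg (fun t => ModuleCat.Hom.hom t z) this
    rw [e1]
    refine (hom_pi_eq_zero_iff _ 3 _).2 ?_
    have e2 : (groupHomology.iCycles (Rep.trivial ℤ G' ℤ) 3).hom
        ((groupHomology.cyclesMap f τ 3).hom z) =
        ((groupHomology.chainsMap f τ).f 3).hom
          ((groupHomology.iCycles (Rep.trivial ℤ G ℤ) 3).hom z) := by
      have := HomologicalComplex.cyclesMap_i (groupHomology.chainsMap f τ) 3
      exact congrArg (fun t => ModuleCat.Hom.hom t z) this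
    have e3 : ∀ x y w : G, ((groupHomology.chainsMap f τ).f 3).hom (hsg ![x, y, w]) =
        hsg ![f x, f y, f w] := by
      intro x y w
      have := groupHomology.chainsMap_f_single f τ 3 ![x, y, w] (1 : ℤ)
      rw [hτ] at this
      have e : (f ∘ (![x, y, w] : Fin 3 → G)) = ![f x, f y, f w] := by
        funext i; fin_cases i <;> rfl
      rw [e] at this
      exact this
    let L : ((Fin 3 → G) →₀ ℤ) →ₗ[ℤ] ((Fin 3 → G') →₀ ℤ) := ((groupHomology.chainsMap f τ).f 3).hom
    have e4 : L (n • htor a b c) = n • htor (f a) (f b) (f c) := by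
      have e3' : ∀ x y w : G, L (hsg ![x, y, w]) = hsg ![f x, f y, f w] := e3
      simp only [map_zsmul, htor, alt3, map_add, map_sub, e3']
    let Q := ((Fin 3 → G') →₀ ℤ) ⧸ LinearMap.range (hdd G' 3)
    let mk : ((Fin 3 → G') →₀ ℤ) →ₗ[ℤ] Q := (LinearMap.range (hdd G' 3)).mkQ
    have hcoc : IsCoc3 (fun x y w : G' => mk (hsg ![x, y, w])) := by
      intro x y w t
      have : mk (hdd G' 3 (hsg ![x, y, w, t])) = 0 :=
        (Submodule.Quotient.mk_eq_zero _).2 ⟨_, rfl⟩
      rw [hdd_four] at this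
      simpa only [map_add, map_sub] using this
    have h5 := h1 Q _ hcoc
    have h6 : mk (n • htor (f a) (f b) (f c)) = 0 := by
      rw [← h5]
      simp only [map_zsmul, htor, alt3, map_add, map_sub]
    obtain ⟨y, hy⟩ := (Submodule.Quotient.mk_eq_zero _).1 h6
    refine ⟨y, ?_⟩
    rw [hd G' 3, hy]
    refine Eq.trans ?_ e2.symm
    rw [hiz]
    exact e4.symm
  have hπ : (groupHomology.π (Rep.trivial ℤ G ℤ) 3).hom z = 0 :=
    hinj (hmap.trans (map_zero _).symm)
  obtain ⟨y, hy⟩ := (hom_pi_eq_zero_iff _ 3 _).1 hπ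
  have hy' : hdd G 3 y = n • htor a b c := by
    rw [← hd G 3, ← hiz]
    exact hy
  classical
  let y' : (Fin 4 → G) →₀ ℤ := y
  obtain ⟨K, M, _, φ, hK, hφ, hne⟩ :=
    h2 (y'.support.biUnion fun g => Finset.univ.image g)
  apply hne
  have hmem : ∀ g ∈ y'.support, ∀ i, g i ∈ K := fun g hg i =>
    hK _ (Finset.mem_biUnion.2 ⟨g, hg, Finset.mem_image_of_mem g (Finset.mem_univ i)⟩)
  have h7 := hev_dd φ y' fun g hg =>
    hφ _ (hmem g hg 0) _ (hmem g hg 1) _ (hmem g hg 2) _ (hmem g hg 3)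
  have h8 : hev φ (hdd G 3 y') = n • alt3 φ a b c := by
    have : hdd G 3 y' = n • htor a b c := hy'
    rw [this, map_zsmul, hev_tor]
  rw [← h8, h7]

end Crest.Agent.R171
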