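import Crest.Agent.R171.Defs

/-! Task MILNOR: pure Milnor K-theory.  Additivity in all slots follows from the swaps; `2 • s a a c = 0`,
`2 • s (-1) b c = 0`.  Let `P = 1 - X Y`.  Steinberg relation for `U = -X(1-Y)/(1-X)`, `1 - U = P/(1-X)`, and for
`X, 1-X`: with `w = X (1-Y)/(1-X)` we get `2 • s (1-X) (1-Y) q = 2 • s P w q = -2 • s P q w`.
`P = -q (1-q⁴)/(1-q)` (so `1 - q⁴ ≠ 0`), and `4 • s (1-q⁴) q w = s (1-q⁴) q⁴ w = 0`, `s (1-q) q w = 0`;
so `4 • s P q w = 0`. -/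

set_option autoImplicit false

namespace Crest.Agent.R171

theorem milnor_vanish {F M : Type} [Field F] [AddCommGroup M] (s : Fˣ → Fˣ → Fˣ → M)
    (hmul : ∀ a a' b c, s (a * a') b c = s a b c + s a' b c)
    (h12 : ∀ a b c, s b a c = - s a b c) (h23 : ∀ a b c, s a c b = - s a b c)
    (hst : ∀ u v c : Fˣ, (u : F) + v = 1 → s u v c = 0)
    (X Y : F) (u v q : Fˣ) (hu : (u : F) = 1 - X) (hv : (v : F) = 1 - Y) (hX : X ≠ 0)
    (hq : (q : F) ≠ 1) (hP : 1 - X * Y ≠ 0)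
    (hXY : X * Y = 1 + (q : F) + (q : F) ^ 2 + (q : F) ^ 3 + (q : F) ^ 4) :
    (4 : ℤ) • s u v q = 0 := by
  have hmul2 : ∀ a b b' c, s a (b * b') c = s a b c + s a b' c := fun a b b' c => by
    rw [h12 (b * b') a c, hmul, h12 a b c, h12 a b' c]; abel
  have hone : ∀ b c, s 1 b c = 0 := fun b c => by
    have := hmul 1 1 b c
    rw [one_mul] at this
    exact left_eq_add.1 this
  have hinv : ∀ a b c, s a⁻¹ b c = -s a b c := fun a b c => by
    have := hmul a⁻¹ a b c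
    rw [inv_mul_cancel, hone] at this
    exact eq_neg_of_add_eq_zero_left this.symm
  have hinv2 : ∀ a b c, s a b⁻¹ c = -s a b c := fun a b c => by
    rw [h12 b⁻¹ a c, hinv, h12 a b c, neg_neg]
  have hneg : ∀ b c, s (-1) b c + s (-1) b c = 0 := fun b c => by
    rw [← hmul, neg_mul_neg, one_mul, hone]
  have hneg2 : ∀ b c, s b (-1) c + s b (-1) c = 0 := fun b c => by
    rw [h12 (-1) b c, ← neg_add, hneg, neg_zero]
  have hself : ∀ a c, s a a c + s a a c = 0 := fun a c => by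
    nth_rewrite 1 [h12 a a c]
    exact neg_add_cancel _
  have hq1 : (1 : F) - q ≠ 0 := sub_ne_zero.2 hq.symm
  have hPq : (1 - X * Y) * (1 - q) = -q * (1 - (q : F) ^ 4) := by rw [hXY]; ring
  have hq4 : (1 : F) - (q : F) ^ 4 ≠ 0 := fun h => by
    rw [h, mul_zero] at hPq
    exact mul_ne_zero hP hq1 hPq
  obtain ⟨x, rfl⟩ : ∃ x : Fˣ, (x : F) = X := ⟨Units.mk0 X hX, rfl⟩
  obtain ⟨P, hP'⟩ : ∃ P : Fˣ, (P : F) = 1 - x * Y := ⟨Units.mk0 _ hP, rfl⟩
  obtain ⟨r, hr⟩ : ∃ r : Fˣ, (r : F) = 1 - q := ⟨Units.mk0 _ hq1, rfl⟩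
  obtain ⟨t, ht⟩ : ∃ t : Fˣ, (t : F) = 1 - (q : F) ^ 4 := ⟨Units.mk0 _ hq4, rfl⟩
  have e1 := hst (P * u⁻¹) (-1 * (x * v * u⁻¹)) q (by
    have hu0 : (u : F) ≠ 0 := u.ne_zero
    push_cast
    field_simp
    rw [hP', hv, hu]
    ring)
  have e2 := hst u x q (by rw [hu]; ring)
  have e3 : s u (x * v * u⁻¹) q = s u x q + s u v q - s u u q := by
    rw [hmul2, hmul2, hinv2]; abel
  rw [hmul, hinv, hmul2, hmul2 u, e3, h23 P q (x * v * u⁻¹)] at e1
  generalize x * v * u⁻¹ = w at e1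
  have e4 : P = -1 * q * t * r⁻¹ := by
    rw [eq_mul_inv_iff_mul_eq]
    ext
    push_cast
    rw [hP', hr, ht, hPq]
    ring
  have e5 : s P q w = s (-1) q w + s q q w + s t q w - s r q w := by
    rw [e4, hmul, hmul, hmul, hinv]; abel
  have e6 := hst r q w (by rw [hr]; ring)
  have e7 := hst t (q * q * q * q) w (by rw [ht]; push_cast; ring)
  rw [hmul2, hmul2, hmul2] at e7
  linear_combination (norm := abel) (-4 : ℤ) • e1 - (4 : ℤ) • e2 - (4 : ℤ) • e5 + (4 : ℤ) • e6 - e7 +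
    (2 : ℤ) • hneg2 P q - (2 : ℤ) • hneg2 u q + (2 : ℤ) • hself u q - (2 : ℤ) • hneg q w -
    (2 : ℤ) • hself q w

end Crest.Agent.R171
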