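import Crest.Agent.R171.StSys

/-! Task REP: the action of `St A` on `ℕ → R` by elementary maps, and finite levels.
`exists_rep`: the Steinberg system `x i j r := elem i j (f r)` as a permutation (inverse `elem i j (-(f r))`, junk `1` for `i = j`), `st_lift`.
`w i j u` sends `v` to `(v_i, v_j) ↦ (u v_j, -u⁻¹ v_i)`, so `h i j u = w i j u * w i j (-1)` is `diagm (dg i j u)`.
`lvl A N` is the subgroup generated by the generators with indices `< N`; the union of all is a subgroup containing all
generators (`st_mem_of`). -/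

set_option autoImplicit false

namespace Crest.Agent.R171

open Crest.AlgebraR.Steinberg

theorem rp_apply {R : Type} [CommRing R] (i j : ℕ) (r : R) (v : ℕ → R) (k : ℕ) :
    elem i j r v k = if k = i then v i + r * v j else v k := by
  simp [elem, Function.update_apply]

/-- the elementary map as a permutation -/
def rpElem {R : Type} [CommRing R] (i j : ℕ) (r : R) : Equiv.Perm (ℕ → R) :=
  if h : i ≠ j then
    { toFun := elem i j r
      invFun := elem i j (-r)
      left_inv := fun v => by
        funext k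
        simp only [rp_apply, if_neg h.symm]
        split_ifs with hk
        · subst hk; ring
        · rfl
      right_inv := fun v => by
        funext k
        simp only [rp_apply, if_neg h.symm]
        split_ifs with hk
        · subst hk; ring
        · rfl }
  else 1

theorem rpElem_coe {R : Type} [CommRing R] {i j : ℕ} (h : i ≠ j) (r : R) :
    ⇑(rpElem i j r) = elem i j r := by
  simp [rpElem, h]

theorem rpElem_inv_coe {R : Type} [CommRing R] {i j : ℕ} (h : i ≠ j) (r : R) :
    ⇑(rpElem i j r)⁻¹ = elem i j (-r) := by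
  simp only [rpElem, dif_pos h]
  rfl

/-- the Steinberg system of elementary maps -/
def rpSys {A R : Type} [CommRing A] [CommRing R] (f : A →+* R) : SS ℕ A (Equiv.Perm (ℕ → R)) where
  x := fun i j r => rpElem i j (f r)
  add := by
    intro i j h a b
    ext v k
    simp only [Equiv.Perm.coe_mul, Function.comp, rpElem_coe h, rp_apply, if_neg h.symm, map_add]
    split_ifs with hk
    · ring
    · rfl
  comm := by
    intro i j k l hij hkl hjk hil a b
    ext v m
    simp only [Equiv.Perm.coe_mul, Function.comp, rpElem_coe hij, rpElem_coe hkl, rp_apply,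
      if_neg hjk, if_neg hil.symm]
    split_ifs <;> subst_vars <;> first | contradiction | ring
  mul := by
    intro i j l hij hjl hil a b
    ext v m
    simp only [Equiv.Perm.coe_mul, Function.comp, rpElem_coe hij, rpElem_coe hjl, rpElem_coe hil,
      rpElem_inv_coe hij, rpElem_inv_coe hjl, rp_apply, if_neg hij, if_neg hij.symm, if_neg hjl.symm,
      if_neg hil.symm, map_mul, if_true]
    split_ifs <;> subst_vars <;> first | contradiction | ring

theorem exists_rep {A R : Type} [CommRing A] [CommRing R] (f : A →+* R) :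
    ∃ ρ : St A →* Equiv.Perm (ℕ → R),
      (∀ i j, i ≠ j → ∀ r, ⇑(ρ (stx A i j r)) = elem i j (f r)) ∧
      (∀ i j, i ≠ j → ∀ u : Aˣ,
        ⇑(ρ ((stSS A).h i j u)) = diagm (dg i j (Units.map (f : A →* R) u))) := by
  obtain ⟨ρ, hρ⟩ := st_lift (rpSys f)
  have h1 : ∀ i j, i ≠ j → ∀ r, ⇑(ρ (stx A i j r)) = elem i j (f r) := by
    intro i j hij r
    rw [hρ i j hij r]
    exact rpElem_coe hij _
  refine ⟨ρ, h1, ?_⟩
  intro i j hij u
  have hu : f (u : A) * f ((u⁻¹ : Aˣ) : A) = 1 := by
    rw [← map_mul]; simp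
  funext v k
  simp only [SS.h, SS.w, stSS_x, map_mul, Equiv.Perm.coe_mul, Function.comp, h1 i j hij,
    h1 j i hij.symm, rp_apply, if_neg hij, if_neg hij.symm, if_true, diagm, dg, map_neg,
    Units.val_neg, Units.val_one, map_one, inv_neg, inv_one, neg_neg]
  split_ifs with h2 h3
  · subst h2
    simp only [Units.coe_map, MonoidHom.coe_coe]
    linear_combination (v j - f u * v k) * hu
  · subst h3
    simp only [← map_inv, Units.coe_map, MonoidHom.coe_coe]
    linear_combination (-(v i)) * hu
  · simp

def lvl (A : Type) [CommRing A] (N : ℕ) : Subgroup (St A) :=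
  Subgroup.closure {g | ∃ i j r, i ≠ j ∧ i < N ∧ j < N ∧ g = stx A i j r}

theorem lvl_mono {A : Type} [CommRing A] : Monotone (lvl A) := by
  intro N N' h
  apply Subgroup.closure_mono
  rintro g ⟨i, j, r, hij, hi, hj, rfl⟩
  exact ⟨i, j, r, hij, by omega, by omega, rfl⟩

theorem exists_lvl {A : Type} [CommRing A] (s : Finset (St A)) :
    ∃ N, 4 ≤ N ∧ ∀ g ∈ s, g ∈ lvl A N := by
  have h1 : ∀ g : St A, ∃ N, g ∈ lvl A N := by
    intro g
    have : g ∈ ⨆ N, lvl A N := by
      apply st_mem_of
      intro i j hij r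
      exact Subgroup.mem_iSup_of_mem (i + j + 1)
        (Subgroup.subset_closure ⟨i, j, r, hij, by omega, by omega, rfl⟩)
    exact (Subgroup.mem_iSup_of_directed lvl_mono.directed_le).mp this
  choose n hn using h1
  refine ⟨max 4 (s.sup n), le_max_left _ _, fun g hg => ?_⟩
  exact lvl_mono ((Finset.le_sup hg).trans (le_max_right _ _)) (hn g)

theorem h_mem_lvl {A : Type} [CommRing A] {N i j : ℕ} (hij : i ≠ j) (hi : i < N) (hj : j < N)
    (u : Aˣ) : (stSS A).h i j u ∈ lvl A N := by
  have h1 : ∀ r, stx A i j r ∈ lvl A N := fun r =>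
    Subgroup.subset_closure ⟨i, j, r, hij, hi, hj, rfl⟩
  have h2 : ∀ r, stx A j i r ∈ lvl A N := fun r =>
    Subgroup.subset_closure ⟨j, i, r, hij.symm, hj, hi, rfl⟩
  simp only [SS.h, SS.w, stSS_x]
  exact mul_mem (mul_mem (mul_mem (h1 _) (h2 _)) (h1 _)) (mul_mem (mul_mem (h1 _) (h2 _)) (h1 _))

theorem pres_of_mem_lvl {A V W M : Type} [CommRing A] [AddCommGroup W] [AddCommGroup M]
    {I : W →+ W →+ W →+ M} (D : DetData V I) (ρ : St A →* Equiv.Perm V) (N : ℕ)
    (h : ∀ i j r, i ≠ j → i < N → j < N → D.Pres N (ρ (stx A i j r))) {g : St A}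
    (hg : g ∈ lvl A N) : D.Pres N (ρ g) := by
  induction hg using Subgroup.closure_induction with
  | mem x hx =>
    obtain ⟨i, j, r, hij, hi, hj, rfl⟩ := hx
    exact h i j r hij hi hj
  | one =>
    intro L _
    simp
  | mul x y _ _ hx hy =>
    intro L hL
    have e : L.map (ρ (x * y)) = (L.map (ρ y)).map (ρ x) := by
      rw [Multiset.map_map, map_mul, Equiv.Perm.coe_mul]
    have h1 := hy L hL
    have h2 := hx (L.map (ρ y)) (by simpa using hL)
    rw [e]
    exact ⟨h2.1.trans h1.1, h2.2.trans h1.2⟩
  | inv x _ hx =>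
    intro L hL
    have h2 := hx (L.map (ρ x⁻¹)) (by simpa using hL)
    have e : (L.map (ρ x⁻¹)).map (ρ x) = L := by
      rw [Multiset.map_map, ← Equiv.Perm.coe_mul, ← map_mul]
      simp
    rw [e] at h2
    exact ⟨h2.1.symm, h2.2.symm⟩

end Crest.Agent.R171
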