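import Crest.Agent.R171.Defs

/-! Task RINGA: the regular local ring.  `P := Epoly (C X) X ∈ ℤ[X][X]` is monic of degree 8 and Eisenstein at the prime
`(5, X)` of `ℤ[X]` (the kernel of `ℤ[X] → ZMod 5`; `Polynomial.IsEisensteinAt.irreducible`; the constant term 5 is not in the square,
evaluate at 0: `25 ∤ 5`), so `D₀ = AdjoinRoot P` is a domain (UFD, `Irreducible.prime`), of characteristic zero.
`𝔪 = ker (D₀ → ZMod 5, x, y ↦ 0)`, `A = Localization.AtPrime 𝔪`.  Every `d ∈ D₀` is `n + x a + y b` with `n : ℤ`;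
`5 (1 + 2y² + 2y⁴ + y⁶) = -(y⁸ + x⁴y⁴ + x⁵y³)`, so the maximal ideal of `A` is `(x, y)` and contains 5 in its square.
`dim ≤ 2`: `ringKrullDim_le_spanFinrank_maximalIdeal`; `dim ≥ 2`: chain `⊥ < ker ψ < 𝔪` where `ψ : A → ℂ`... careful: use
`ψ₀ : D₀ → ℤ[y]/(Φ₅(1+y²))` or `ℂ` (`x ↦ 0`, `y ↦` a root); `ker ψ₀ ≤ 𝔪` is needed (e.g. lying over / going up for the finite
extension `ℤ[X] → D₀` over the chain `0 < (X) < (5,X)`, noting that `𝔪` is the only prime over `(5,X)` as `y⁸ ∈ (5,x)`).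
Regular: `IsRegularLocalRing.of_spanFinrank_maximalIdeal_le`.  Universal property: `AdjoinRoot.lift` + `IsLocalization.lift`
(in a local `R` with `x', y' ∈ 𝔪_R` and `Epoly x' y' = 0` we get `5 ∈ 𝔪_R`, and integers prime to 5 are units). -/

set_option autoImplicit false

namespace Crest.Agent.R171

open IsLocalRing

namespace RingAAux

open Polynomial

theorem map_E {R S : Type} [CommRing R] [CommRing S] (f : R →+* S) (x y : R) :
    f (Epoly x y) = Epoly (f x) (f y) := by
  simp [Epoly, map_ofNat]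

theorem eval₂_E {R S : Type} [CommRing R] [CommRing S] (f : R →+* S) (x : R) (y : S) :
    (Epoly (C x) X).eval₂ f y = Epoly (f x) y := by
  simpa using map_E (eval₂RingHom f y) (C x) X

theorem monic_E {R : Type} [CommRing R] [Nontrivial R] (x : R) :
    (Epoly (C x) X).Monic ∧ (Epoly (C x) X).natDegree = 8 := by
  have e : Epoly (C x) X = X ^ 8 + C 5 * X ^ 6 + C (10 + x ^ 4) * X ^ 4 + C (x ^ 5) * X ^ 3 +
      C 10 * X ^ 2 + C 5 := by
    simp [Epoly, map_ofNat]
  rw [e]
  exact ⟨by monicity!, by compute_degree!⟩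

theorem dom_E {R : Type} [CommRing R] [IsDomain R] [UniqueFactorizationMonoid R] (x : R)
    (φ : R →+* ZMod 5) (hx : φ x = 0) (h5 : (5 : R) ∉ RingHom.ker φ ^ 2) :
    IsDomain (AdjoinRoot (Epoly (C x) X)) := by
  have : Fact (Nat.Prime 5) := ⟨by norm_num⟩
  obtain ⟨hm, hd⟩ := monic_E x
  have hp : (RingHom.ker φ).IsPrime := RingHom.ker_isPrime φ
  have e : (Epoly (C x) X).map φ = X ^ 8 := by
    have h1 : (5 : (ZMod 5)[X]) = 0 := by exact_mod_cast CharP.cast_eq_zero (ZMod 5)[X] 5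
    have := map_E (mapRingHom φ) (C x) X
    simp only [coe_mapRingHom, map_C, map_X, hx, map_zero] at this
    rw [this, Epoly]
    linear_combination (X ^ 6 + 2 * X ^ 4 + 2 * X ^ 2 + 1) * h1
  refine AdjoinRoot.isDomain_of_prime (Irreducible.prime (IsEisensteinAt.irreducible
    (hm.isEisensteinAt_of_mem_of_notMem hp.ne_top (fun {n} hn => ?_) ?_) hp hm.isPrimitive (by omega)))
  · rw [RingHom.mem_ker, ← coeff_map, e, coeff_X_pow, if_neg (by omega)]
  · rwa [coeff_zero_eq_eval_zero, ← eval₂_id, eval₂_E, show Epoly (RingHom.id R x) 0 = 5 by simp [Epoly]]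

theorem inj_E {R : Type} [CommRing R] [IsDomain R] (x : R) :
    Function.Injective (AdjoinRoot.of (Epoly (C x) X)) :=
  AdjoinRoot.of.injective_of_degree_ne_zero (by
    rw [degree_eq_natDegree (monic_E x).1.ne_zero, (monic_E x).2]; decide)

theorem five_not {R : Type} [CommRing R] (φ : R →+* ZMod 5) (ψ : R →+* ℤ)
    (h : ∀ a, φ a = ψ a) : (5 : R) ∉ RingHom.ker φ ^ 2 := fun h5 => by
  have h1 : (RingHom.ker φ).map ψ ≤ Ideal.span {5} := Ideal.map_le_iff_le_comap.2 fun a ha => by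
    rw [Ideal.mem_comap, Ideal.mem_span_singleton]
    exact_mod_cast (ZMod.intCast_zmod_eq_zero_iff_dvd _ 5).1 ((h a).symm.trans ha)
  have h2 := Ideal.mem_map_of_mem ψ h5
  rw [Ideal.map_pow, map_ofNat] at h2
  have h3 := Ideal.pow_right_mono h1 2 h2
  rw [Ideal.span_singleton_pow, Ideal.mem_span_singleton] at h3
  norm_num at h3

/-- the global model -/
abbrev D : Type := AdjoinRoot (Epoly (C X) X : ℤ[X][X])

noncomputable def xD : D := AdjoinRoot.of _ X

noncomputable def yD : D := AdjoinRoot.root _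

noncomputable def liftD {R : Type} [CommRing R] (x y : R) (h : Epoly x y = 0) : D →+* R :=
  AdjoinRoot.lift (eval₂RingHom (Int.castRingHom R) x) y (by rw [eval₂_E]; simpa using h)

theorem liftD_x {R : Type} [CommRing R] (x y : R) (h : Epoly x y = 0) : liftD x y h xD = x := by
  simp [liftD, xD]

theorem liftD_y {R : Type} [CommRing R] (x y : R) (h : Epoly x y = 0) : liftD x y h yD = y := by
  simp [liftD, yD]

theorem E_D : Epoly xD yD = 0 := by
  rw [xD, yD, ← eval₂_E]
  exact AdjoinRoot.eval₂_root _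

instance : IsDomain D :=
  dom_E X ((Int.castRingHom _).comp (evalRingHom 0)) (by simp) (five_not _ (evalRingHom 0) fun _ => rfl)

theorem dec (d : D) : ∃ (n : ℤ) (a b : D), d = n + xD * a + yD * b := by
  obtain ⟨p, rfl⟩ := AdjoinRoot.mk_surjective d
  refine ⟨(p.coeff 0).coeff 0, AdjoinRoot.of _ (p.coeff 0).divX, AdjoinRoot.mk _ p.divX, ?_⟩
  conv_lhs => rw [← X_mul_divX_add p, ← X_mul_divX_add (p.coeff 0)]
  simp only [map_add, map_mul, AdjoinRoot.mk_X, AdjoinRoot.mk_C, eq_intCast, map_intCast, xD, yD]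
  ring

noncomputable def aug : D →+* ZMod 5 := liftD 0 0 (by simp [Epoly]; decide)

noncomputable def mD : Ideal D := RingHom.ker aug

instance : mD.IsPrime :=
  have : Fact (Nat.Prime 5) := ⟨by norm_num⟩
  RingHom.ker_isPrime aug

theorem x_mem : xD ∈ mD := liftD_x _ _ _

theorem y_mem : yD ∈ mD := liftD_y _ _ _

theorem aug_dec (n : ℤ) (a b : D) : aug (n + xD * a + yD * b) = n := by
  rw [map_add, map_add, map_mul, map_mul, show aug xD = 0 from x_mem, show aug yD = 0 from y_mem]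
  simp

theorem height_aux {O : Type} [CommRing O] [IsDomain O] [CharZero O] (r : O) (hE : Epoly 0 r = 0)
    (a1 : O →+* ZMod 5) (ha : a1 r = 0) : 2 ≤ mD.height := by
  obtain ⟨f, fx, fy⟩ : ∃ f : D →+* O, f xD = 0 ∧ f yD = r := ⟨liftD _ _ hE, liftD_x _ _ _, liftD_y _ _ _⟩
  have hp : (RingHom.ker f).IsPrime := RingHom.ker_isPrime _
  have h1 : (⊥ : Ideal D) < RingHom.ker f := bot_lt_iff_ne_bot.2 fun h => by
    have : xD ∈ RingHom.ker f := fx
    rw [h, Ideal.mem_bot] at this
    exact X_ne_zero (inj_E (X : ℤ[X]) (this.trans (map_zero _).symm))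
  have h2 : RingHom.ker f < mD := by
    refine lt_of_le_of_ne (fun d hd => ?_) fun h => ?_
    · obtain ⟨n, a, b, rfl⟩ := dec d
      have := congrArg a1 (RingHom.mem_ker.1 hd)
      simp only [map_add, map_mul, fx, fy, ha, map_intCast, map_zero, zero_mul, add_zero] at this
      exact (aug_dec n a b).trans this
    · have : (5 : D) ∈ mD := by rw [mD, RingHom.mem_ker, map_ofNat]; decide
      rw [← h, RingHom.mem_ker, map_ofNat] at this
      norm_num at this
  have h3 := Ideal.height_add_one_le_of_lt_of_isPrime h1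
  have h4 := Ideal.height_add_one_le_of_lt_of_isPrime h2
  calc (2 : ℕ∞) = 0 + 1 + 1 := by norm_num
    _ ≤ (⊥ : Ideal D).height + 1 + 1 := by gcongr; exact zero_le
    _ ≤ _ := (add_le_add h3 le_rfl).trans h4

theorem height_ge : 2 ≤ mD.height := by
  have d1 : IsDomain (AdjoinRoot (Epoly (C 0) X : ℤ[X])) :=
    dom_E 0 (Int.castRingHom _) (by simp) (five_not _ (RingHom.id ℤ) fun _ => rfl)
  have c1 := charZero_of_injective_ringHom (inj_E (0 : ℤ))
  refine height_aux (AdjoinRoot.root (Epoly (C 0) X : ℤ[X])) ?_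
    (AdjoinRoot.lift (Int.castRingHom (ZMod 5)) 0 (by rw [eval₂_E]; simp [Epoly]; decide))
    (AdjoinRoot.lift_root _)
  have := eval₂_E (AdjoinRoot.of (Epoly (C 0) X : ℤ[X])) 0 (AdjoinRoot.root _)
  rw [AdjoinRoot.eval₂_root, map_zero (AdjoinRoot.of _)] at this
  exact this.symm

end RingAAux

open RingAAux in
theorem exists_ringA : ∃ (A : Type) (_ : CommRing A) (_ : IsDomain A) (_ : IsRegularLocalRing A)
    (x y : A), ringKrullDim A = 2 ∧ CharZero A ∧ (5 : A) ∈ maximalIdeal A ^ 2 ∧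
      x ∈ maximalIdeal A ∧ y ∈ maximalIdeal A ∧ Epoly x y = 0 ∧
      ∀ (R : Type) [CommRing R] [IsLocalRing R] (x' y' : R), x' ∈ maximalIdeal R →
        y' ∈ maximalIdeal R → Epoly x' y' = 0 → ∃ f : A →+* R, f x = x' ∧ f y = y' := by
  let A := Localization.AtPrime mD
  have inj : Function.Injective (algebraMap D A) :=
    IsLocalization.injective A mD.primeCompl_le_nonZeroDivisors
  have nA : IsNoetherianRing A := IsLocalization.isNoetherianRing mD.primeCompl A inferInstance
  have mem : ∀ d : D, algebraMap D A d ∈ maximalIdeal A ↔ d ∈ mD := fun d =>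
    IsLocalization.AtPrime.to_map_mem_maximal_iff A mD d
  set x := algebraMap D A xD with hx
  set y := algebraMap D A yD with hy
  have hE : Epoly x y = 0 := by rw [hx, hy, ← map_E, E_D, map_zero]
  have five : ∀ I : Ideal A, x ∈ I → y ∈ I → (5 : A) ∈ I ^ 2 := fun I _ h2 => by
    have hu : IsUnit (1 + 2 * y ^ 2 + 2 * y ^ 4 + y ^ 6) := by
      have : algebraMap D A (1 + 2 * yD ^ 2 + 2 * yD ^ 4 + yD ^ 6) ∉ maximalIdeal A := by
        rw [mem, mD, RingHom.mem_ker]
        simp only [map_add, map_mul, map_pow, map_one, show aug yD = 0 from y_mem]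
        decide
      simpa [map_ofNat] using this
    rw [← Ideal.mul_unit_mem_iff_mem _ hu, show 5 * (1 + 2 * y ^ 2 + 2 * y ^ 4 + y ^ 6) =
      y ^ 2 * -(y ^ 6 + x ^ 4 * y ^ 2 + x ^ 5 * y) by linear_combination (exp := 1) hE - (by simp [Epoly]; ring :
        Epoly x y = 5 * (1 + 2 * y ^ 2 + 2 * y ^ 4 + y ^ 6) + y ^ 2 * (y ^ 6 + x ^ 4 * y ^ 2 + x ^ 5 * y))]
    exact Ideal.mul_mem_right _ _ (Ideal.pow_mem_pow h2 2)
  have hm : maximalIdeal A = Ideal.span {x, y} := by
    refine le_antisymm ?_ (Ideal.span_le.2 (Set.pair_subset ((mem _).2 x_mem) ((mem _).2 y_mem)))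
    rw [← Localization.AtPrime.map_eq_maximalIdeal, Ideal.map_le_iff_le_comap]
    intro d hd
    obtain ⟨n, a, b, rfl⟩ := dec d
    obtain ⟨c, rfl⟩ : (5 : ℤ) ∣ n := by
      exact_mod_cast (ZMod.intCast_zmod_eq_zero_iff_dvd _ 5).1 ((aug_dec n a b).symm.trans hd)
    have h1 : x ∈ Ideal.span {x, y} := Ideal.subset_span (by simp)
    have h2 : y ∈ Ideal.span {x, y} := Ideal.subset_span (by simp)
    simp only [Ideal.mem_comap, map_add, map_mul, map_intCast, Int.cast_mul, Int.cast_ofNat, map_ofNat]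
    exact add_mem (add_mem (Ideal.mul_mem_right _ _ (Ideal.pow_le_self two_ne_zero (five _ h1 h2)))
      (Ideal.mul_mem_right _ _ h1)) (Ideal.mul_mem_right _ _ h2)
  have h1 : ((maximalIdeal A).spanFinrank : WithBot ℕ∞) ≤ 2 := by
    rw [hm]
    exact_mod_cast (Submodule.spanFinrank_span_le_ncard_of_finite (Set.toFinite {x, y})).trans
      ((Set.ncard_insert_le _ _).trans (by simp))
  have h2 : (2 : WithBot ℕ∞) ≤ ringKrullDim A := by
    rw [IsLocalization.AtPrime.ringKrullDim_eq_height mD A]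
    exact WithBot.coe_le_coe.2 height_ge
  refine ⟨A, inferInstance, inferInstance, .of_spanFinrank_maximalIdeal_le A (h1.trans h2), x, y,
    le_antisymm ((ringKrullDim_le_spanFinrank_maximalIdeal A).trans h1) h2,
    charZero_of_injective_ringHom (f := (algebraMap D A).comp (AdjoinRoot.of _)) (inj.comp (inj_E _)),
    five _ ((mem _).2 x_mem) ((mem _).2 y_mem), (mem _).2 x_mem, (mem _).2 y_mem, hE,
    fun R _ _ x' y' hx' hy' h => ?_⟩
  have hu : ∀ s : mD.primeCompl, IsUnit (liftD x' y' h s) := fun ⟨s, hs⟩ => by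
    obtain ⟨n, a, b, rfl⟩ := dec s
    by_contra hn
    have h3 : (n : R) ∈ maximalIdeal R := by
      have := sub_mem (sub_mem ((mem_maximalIdeal _).2 hn) (Ideal.mul_mem_right (liftD x' y' h b) _ hy'))
        (Ideal.mul_mem_right (liftD x' y' h a) _ hx')
      simpa [liftD_x, liftD_y] using this
    have h4 : (5 : R) ∈ maximalIdeal R := by
      rw [show (5 : R) = y' * -(y' ^ 7 + 5 * y' ^ 5 + (10 + x' ^ 4) * y' ^ 3 + x' ^ 5 * y' ^ 2 + 10 * y') by
        rw [Epoly] at h; linear_combination h]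
      exact Ideal.mul_mem_right _ _ hy'
    have h5 : ¬ (5 : ℤ) ∣ n := fun h5 => hs ((aug_dec n a b).trans
      ((ZMod.intCast_zmod_eq_zero_iff_dvd _ 5).2 (by exact_mod_cast h5)))
    obtain ⟨u, v, huv⟩ := (Int.prime_iff_natAbs_prime.2 (by norm_num) : Prime (5 : ℤ)).coprime_iff_not_dvd.2 h5
    have h6 := add_mem (Ideal.mul_mem_left _ (u : R) h4) (Ideal.mul_mem_left _ (v : R) h3)
    rw [show (u : R) * 5 + v * n = 1 by exact_mod_cast congrArg (Int.cast : ℤ → R) huv] at h6
    exact (maximalIdeal.isMaximal R).ne_top ((Ideal.eq_top_iff_one _).2 h6)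
  exact ⟨IsLocalization.lift hu, (IsLocalization.lift_eq hu _).trans (liftD_x _ _ _),
    (IsLocalization.lift_eq hu _).trans (liftD_y _ _ _)⟩

end Crest.Agent.R171
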