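import Crest.Agent.R171.Defs

/-! Task SYMI: properties of the mod-5 syntomic symbol `I0` (all checked numerically).
Notation: `D u = (p, q)`, `D' u = D u + dλ = (x⁴p⁵, y⁴q⁵)`; `ε` kills `dx b`, `dy b`; `(5 : B) = 0`; `b^5 = algebraMap (aug b ^ 5)`;
`ε (x⁴y⁴ b) = aug b`; for a closed 1-form `(p,q)`: `ε (dx f * q - dy f * p) = ε (dx (f q)) - ε (dy (f p)) = 0`.
* `I0 u u w = -ε(λ dλ ∧ Dw)`, `λ dλ = d(3 λ²)`;  `I0 u v v = ε(D'u ∧ λ_v dλ_v)`, `D'u` is closed.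
* Steinberg: `δ b = Q(a) - δ a`, `Q(a) = Q2 a (1-a) = a - 2a² + 2a³ - a⁴`; `D'a ∧ D'b = x⁴y⁴ (Da ∧ Db)^5 = 0`;
  `λ_a D b - λ_b D'a = (a b)^{-5} d(-δ Q + 3 δ² - (a⁶/6 - 2a⁷/7 + 2a⁸/8 - a⁹/9))` where mod 5: `1/6 = 1, 2/7 = 1, 2/8 = -1, 1/9 = -1`,
  i.e. the antiderivative of `Q(a) a⁴` is `a⁶ - a⁷ - a⁸ + a⁹`; fifth powers are constants for `dx, dy`.
* `I0_E`: `δ 5 = 1`, `π 5 = 0`; with `s = x⁴y⁴ π a`: `π (1 + E a) = 1 + s`, `δ (1 + E a) = (π a)^5 - s`, `(1+s)^5 = 1`, `D' = 0`;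
  `I0 = c^5 ε g - c aug g` with `c = aug (π a)`, `g = Dv ∧ Dw`, and `ε g = ε (D'v ∧ D'w) = ε (x⁴y⁴ g^5) = (aug g)^5`; `t = c * aug g`.
* `I0_val`: `m = x³y⁴ + x⁴y³`, `π = 1 + m`, `δ = -m`, `λ = -m`, `D' = 0`, `D(1-x) ∧ D(1+y²) = -2y (1-x)⁻¹ (1+y²)⁻¹`, `m y = x⁴y⁴`. -/

set_option autoImplicit false

namespace Crest.Agent.R171

variable {k B T : Type} [Field k] [CharP k 5] [CommRing B] [Algebra k B] {𝔅 : BData k B}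
  [CommRing T]

namespace SymIAux

theorem five (k B : Type) [Field k] [CharP k 5] [CommRing B] [Algebra k B] : (5 : B) = 0 := by
  have h : ((5 : ℕ) : k) = 0 := CharP.cast_eq_zero k 5
  have := congrArg (algebraMap k B) h
  rw [map_natCast, map_zero] at this
  exact_mod_cast this

theorem add5 (k : Type) [Field k] [CharP k 5] [Algebra k B] (a b : B) :
    (a + b) ^ 5 = a ^ 5 + b ^ 5 := by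
  linear_combination (Q2 a b) * five k B + 5 * (by unfold Q2; ring :
    (a ^ 4 * b + 2 * a ^ 3 * b ^ 2 + 2 * a ^ 2 * b ^ 3 + a * b ^ 4) = Q2 a b)

theorem sub5 (k : Type) [Field k] [CharP k 5] [Algebra k B] (a b : B) :
    (a - b) ^ 5 = a ^ 5 - b ^ 5 := by
  rw [sub_eq_add_neg, add5 k]; ring

theorem pow5 (𝔅 : BData k B) (b : B) : b ^ 5 = algebraMap k B (𝔅.aug b ^ 5) := by
  obtain ⟨b1, b2, h⟩ := 𝔅.dec b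
  rw [map_pow]
  conv_lhs => rw [h]
  rw [add5 k, add5 k, mul_pow, mul_pow, 𝔅.x5, 𝔅.y5]; ring

theorem D5 (D : Derivation k B B) (b c : B) : D (b ^ 5 * c) = b ^ 5 * D c := by
  simp only [Derivation.leibniz, Derivation.leibniz_pow, smul_eq_mul, nsmul_eq_mul]
  push_cast
  linear_combination (c * b ^ 4 * D b) * five k B

omit [CharP k 5] in
theorem aug_x (𝔅 : BData k B) : 𝔅.aug 𝔅.x = 0 :=
  pow_eq_zero_iff (n := 5) (by norm_num) |>.1 (by rw [← map_pow, 𝔅.x5, map_zero])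

omit [CharP k 5] in
theorem aug_y (𝔅 : BData k B) : 𝔅.aug 𝔅.y = 0 :=
  pow_eq_zero_iff (n := 5) (by norm_num) |>.1 (by rw [← map_pow, 𝔅.y5, map_zero])

omit [CharP k 5] in
theorem eps_alg (𝔅 : BData k B) (c : k) (b : B) : 𝔅.ε (algebraMap k B c * b) = c * 𝔅.ε b := by
  rw [← Algebra.smul_def, map_smul, smul_eq_mul]

omit [CharP k 5] in
theorem eps_top (𝔅 : BData k B) (b : B) : 𝔅.ε (𝔅.x ^ 4 * 𝔅.y ^ 4 * b) = 𝔅.aug b := by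
  obtain ⟨b1, b2, h⟩ := 𝔅.dec b
  have : 𝔅.x ^ 4 * 𝔅.y ^ 4 * b = algebraMap k B (𝔅.aug b) * (𝔅.x ^ 4 * 𝔅.y ^ 4) := by
    linear_combination (𝔅.x ^ 4 * 𝔅.y ^ 4) * h + (𝔅.y ^ 4 * b1) * 𝔅.x5 + (𝔅.x ^ 4 * b2) * 𝔅.y5
  rw [this, eps_alg, 𝔅.ε_top, mul_one]

omit [CharP k 5] in
theorem eps_closed (𝔅 : BData k B) {p q : B} (h : 𝔅.dy p = 𝔅.dx q) (f : B) :
    𝔅.ε (𝔅.dx f * q - 𝔅.dy f * p) = 0 := by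
  have : 𝔅.dx f * q - 𝔅.dy f * p = 𝔅.dx (f * q) - 𝔅.dy (f * p) := by
    simp only [Derivation.leibniz, smul_eq_mul, h]; ring
  rw [this, map_sub, 𝔅.ε_dx, 𝔅.ε_dy, sub_self]

omit [CharP k 5] in
theorem closed' {u : B × B × B} (hu : 𝔅.Closed u) :
    𝔅.dy (u.2.1 + 𝔅.dx u.1) = 𝔅.dx (u.2.2 + 𝔅.dy u.1) := by
  rw [map_add, map_add, hu.1, 𝔅.dxy]

theorem D_sq (D : Derivation k B B) (l : B) : D (l * l + l * l + l * l) = l * D l := by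
  simp only [map_add, Derivation.leibniz, smul_eq_mul]
  linear_combination (l * D l) * five k B

omit [CharP k 5] in
theorem D_inv (D : Derivation k B B) {a i : B} (h : a * i = 1) : D i = -(i ^ 2 * D a) := by
  have h1 := congrArg D h
  rw [Derivation.leibniz, Derivation.map_one_eq_zero, smul_eq_mul, smul_eq_mul] at h1
  linear_combination i * h1 - D i * h

theorem inv_eq {a i : B} (h : a * i = 1) : Ring.inverse a = i := by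
  have hu : IsUnit a := IsUnit.of_mul_eq_one i h
  rw [← mul_one (Ring.inverse a), ← h, ← mul_assoc, Ring.inverse_mul_cancel _ hu, one_mul]

theorem stein_aux (D : Derivation k B B) (α δ i j : B) (hi : α * i = 1) (hj : (1 - α) * j = 1) :
    D ((i * j) ^ 5 * (-(δ * (α - α ^ 2 - α ^ 2 + α ^ 3 + α ^ 3 - α ^ 4)) + (δ * δ + δ * δ + δ * δ)
      - (α ^ 6 - α ^ 7 - α ^ 8 + α ^ 9))) =
      δ * i ^ 5 * (D (1 - α) * j) - (Q2 α (1 - α) - δ) * j ^ 5 * (D α * i + D (δ * i ^ 5)) := by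
  have hi4 : i ^ 5 * α ^ 4 = i := by
    linear_combination (i * ((α * i) ^ 3 + (α * i) ^ 2 + α * i + 1)) * hi
  have hj4 : j ^ 5 * (1 - α) ^ 4 = j := by
    linear_combination (j * (((1 - α) * j) ^ 3 + ((1 - α) * j) ^ 2 + (1 - α) * j + 1)) * hj
  rw [D5, mul_comm δ (i ^ 5), D5]
  simp only [map_add, map_sub, map_neg, Derivation.leibniz, Derivation.leibniz_pow, smul_eq_mul,
    nsmul_eq_mul, Derivation.map_one_eq_zero, Q2]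
  push_cast
  linear_combination (i ^ 5 * j ^ 5 * (δ * D δ + D α * (-α ^ 5 + α ^ 6 + 2 * α ^ 7 - 2 * α ^ 8))) *
    five k B - (D α * δ * i ^ 5) * hj4 - (D α * (α - 2 * α ^ 2 + 2 * α ^ 3 - α ^ 4 - δ) * j ^ 5) * hi4

variable (𝔚 : WData 𝔅 T)

omit [CharP k 5] in
theorem δ_zero : 𝔚.δ 0 = 0 := by
  have := 𝔚.δ_add 0 0
  simp only [add_zero, map_zero, Q2] at this
  linear_combination -this

omit [CharP k 5] in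
theorem δ_neg (a : T) : 𝔚.δ (-a) = -𝔚.δ a := by
  have h := 𝔚.δ_add a (-a)
  rw [add_neg_cancel, δ_zero, map_neg, Q2] at h
  linear_combination -h

omit [CharP k 5] in
theorem δ_pow (a : T) (n : ℕ) : 𝔚.δ (a ^ (n + 1)) = (n + 1) * 𝔚.π a ^ (5 * n) * 𝔚.δ a := by
  induction n with
  | zero => simp
  | succ n ih => rw [pow_succ, 𝔚.δ_mul, ih, map_pow]; push_cast; ring

theorem δ_pow5 (a : T) : 𝔚.δ (a ^ 5) = 0 := by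
  rw [δ_pow 𝔚 a 4]
  push_cast
  linear_combination (𝔚.π a ^ 20 * 𝔚.δ a) * five k B

omit [CharP k 5] in
theorem δ_mon (m n : ℕ) : 𝔚.δ (𝔚.xs ^ (m + 1) * 𝔚.ys ^ (n + 1)) = 0 := by
  rw [𝔚.δ_mul, δ_pow, δ_pow, 𝔚.δ_xs, 𝔚.δ_ys]; ring

theorem δ_five : 𝔚.δ 5 = 1 := by
  have h : (5 : T) = 1 + 1 + 1 + 1 + 1 := by norm_num
  rw [h]
  simp only [𝔚.δ_add, 𝔚.δ_one, map_add, map_one, Q2]
  linear_combination (-125 : B) * five k B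

end SymIAux

open SymIAux

theorem I0_add1 (u u' v w : B × B × B) : 𝔅.I0 (u + u') v w = 𝔅.I0 u v w + 𝔅.I0 u' v w := by
  unfold BData.I0
  rw [← map_add 𝔅.ε]
  congr 1
  simp only [Prod.fst_add, Prod.snd_add, map_add]
  ring

theorem I0_add2 (u v v' w : B × B × B) : 𝔅.I0 u (v + v') w = 𝔅.I0 u v w + 𝔅.I0 u v' w := by
  unfold BData.I0
  rw [← map_add 𝔅.ε]
  congr 1
  simp only [Prod.fst_add, Prod.snd_add, map_add]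
  ring

theorem I0_add3 (u v w w' : B × B × B) : 𝔅.I0 u v (w + w') = 𝔅.I0 u v w + 𝔅.I0 u v w' := by
  unfold BData.I0
  rw [← map_add 𝔅.ε]
  congr 1
  simp only [Prod.fst_add, Prod.snd_add, map_add]
  ring

theorem closed_zero : 𝔅.Closed 0 := by
  simp [BData.Closed]

theorem closed_add {u v : B × B × B} (hu : 𝔅.Closed u) (hv : 𝔅.Closed v) : 𝔅.Closed (u + v) := by
  obtain ⟨h1, h2, h3⟩ := hu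
  obtain ⟨g1, g2, g3⟩ := hv
  refine ⟨?_, ?_, ?_⟩ <;> simp only [Prod.fst_add, Prod.snd_add, map_add, add5 k]
  · rw [h1, g1]
  · linear_combination h2 + g2
  · linear_combination h3 + g3

theorem closed_neg {u : B × B × B} (hu : 𝔅.Closed u) : 𝔅.Closed (-u) := by
  obtain ⟨h1, h2, h3⟩ := hu
  refine ⟨?_, ?_, ?_⟩ <;> simp only [Prod.fst_neg, Prod.snd_neg, map_neg]
  · rw [h1]
  · linear_combination -h2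
  · linear_combination -h3

theorem I0_alt12 {u w : B × B × B} (hw : 𝔅.Closed w) : 𝔅.I0 u u w = 0 := by
  have h := eps_closed 𝔅 hw.1 (u.1 * u.1 + u.1 * u.1 + u.1 * u.1)
  rw [D_sq, D_sq, ← neg_eq_zero, ← map_neg] at h
  rw [← h, BData.I0]
  congr 1
  ring

theorem I0_alt23 {u v : B × B × B} (hu : 𝔅.Closed u) : 𝔅.I0 u v v = 0 := by
  have h := eps_closed 𝔅 (closed' hu) (v.1 * v.1 + v.1 * v.1 + v.1 * v.1)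
  rw [D_sq, D_sq, ← neg_eq_zero, ← map_neg] at h
  rw [← h, BData.I0]
  congr 1
  ring

theorem isUnit_B {b : B} : IsUnit b ↔ 𝔅.aug b ≠ 0 := by
  refine ⟨fun h => (h.map 𝔅.aug).ne_zero, fun h => ?_⟩
  rw [← isUnit_pow_iff (n := 5) (by norm_num), pow5 𝔅]
  exact (IsUnit.mk0 _ (pow_ne_zero 5 h)).map _

theorem isUnit_T (𝔚 : WData 𝔅 T) {a : T} : IsUnit a ↔ 𝔅.aug (𝔚.π a) ≠ 0 := by
  -- `a ^ 5 = te (c ^ 5)` (ext), `te c * te c⁻¹ = 1`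
  refine ⟨fun h => isUnit_B.1 (h.map 𝔚.π), fun h => ?_⟩
  have h1 : a ^ 5 = 𝔚.te (𝔅.aug (𝔚.π a) ^ 5) :=
    𝔚.ext _ _ (by rw [map_pow, pow5 𝔅, 𝔚.π_te]) (by rw [δ_pow5, 𝔚.δ_te])
  have h2 : 𝔚.te (𝔅.aug (𝔚.π a) ^ 5) * 𝔚.te (𝔅.aug (𝔚.π a) ^ 5)⁻¹ = 1 :=
    𝔚.ext _ _ (by rw [map_mul, 𝔚.π_te, 𝔚.π_te, ← map_mul, mul_inv_cancel₀ (pow_ne_zero 5 h),
      map_one, map_one]) (by rw [𝔚.δ_mul, 𝔚.δ_te, 𝔚.δ_te, 𝔚.δ_one]; ring)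
  rw [← isUnit_pow_iff (n := 5) (by norm_num), h1]
  exact IsUnit.of_mul_eq_one _ h2

theorem closed_logT (𝔚 : WData 𝔅 T) {a : T} (ha : IsUnit a) : 𝔅.Closed (𝔚.logT a) := by
  have hi := Ring.mul_inverse_cancel _ (ha.map 𝔚.π)
  simp only [BData.Closed, WData.logT]
  generalize Ring.inverse (𝔚.π a) = i at hi ⊢
  have hi4 : i ^ 5 * 𝔚.π a ^ 4 = i := by
    linear_combination (i * ((𝔚.π a * i) ^ 3 + (𝔚.π a * i) ^ 2 + 𝔚.π a * i + 1)) * hi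
  refine ⟨?_, ?_, ?_⟩
  · simp only [Derivation.leibniz, smul_eq_mul, D_inv _ hi, 𝔅.dxy]; ring
  · rw [mul_comm (𝔚.δ a), D5, 𝔚.key_x]; linear_combination (𝔅.dx (𝔚.π a)) * hi4
  · rw [mul_comm (𝔚.δ a), D5, 𝔚.key_y]; linear_combination (𝔅.dy (𝔚.π a)) * hi4

theorem logT_mul (𝔚 : WData 𝔅 T) {a b : T} (ha : IsUnit a) (hb : IsUnit b) :
    𝔚.logT (a * b) = 𝔚.logT a + 𝔚.logT b := by
  have hi := Ring.mul_inverse_cancel _ (ha.map 𝔚.π)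
  have hj := Ring.mul_inverse_cancel _ (hb.map 𝔚.π)
  have hij : Ring.inverse (𝔚.π a * 𝔚.π b) = Ring.inverse (𝔚.π a) * Ring.inverse (𝔚.π b) :=
    inv_eq (by linear_combination (𝔚.π b * Ring.inverse (𝔚.π b)) * hi + hj)
  simp only [WData.logT, map_mul, hij, 𝔚.δ_mul, Derivation.leibniz, smul_eq_mul, Prod.mk_add_mk]
  generalize Ring.inverse (𝔚.π a) = i at hi ⊢
  generalize Ring.inverse (𝔚.π b) = j at hj ⊢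
  have hi5 : (𝔚.π a * i) ^ 5 = 1 := by rw [hi, one_pow]
  have hj5 : (𝔚.π b * j) ^ 5 = 1 := by rw [hj, one_pow]
  refine Prod.ext ?_ (Prod.ext ?_ ?_) <;> simp only
  · linear_combination (𝔚.δ b * j ^ 5) * hi5 + (𝔚.δ a * i ^ 5) * hj5
  · linear_combination (𝔅.dx (𝔚.π b) * j) * hi + (𝔅.dx (𝔚.π a) * i) * hj
  · linear_combination (𝔅.dy (𝔚.π b) * j) * hi + (𝔅.dy (𝔚.π a) * i) * hj

theorem logT_neg (𝔚 : WData 𝔅 T) {a : T} (ha : IsUnit a) : 𝔚.logT (-a) = 𝔚.logT a := by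
  have hi := Ring.mul_inverse_cancel _ (ha.map 𝔚.π)
  have hj : Ring.inverse (-𝔚.π a) = -Ring.inverse (𝔚.π a) := inv_eq (by linear_combination hi)
  simp only [WData.logT, map_neg, hj, δ_neg]
  refine Prod.ext ?_ (Prod.ext ?_ ?_) <;> simp only <;> ring

theorem I0_stein (𝔚 : WData 𝔅 T) {a b : T} (ha : IsUnit a) (hb : IsUnit b) (hab : a + b = 1)
    {w : B × B × B} (hw : 𝔅.Closed w) : 𝔅.I0 (𝔚.logT a) (𝔚.logT b) w = 0 := by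
  have hi := Ring.mul_inverse_cancel _ (ha.map 𝔚.π)
  have hj := Ring.mul_inverse_cancel _ (hb.map 𝔚.π)
  have hπ : 𝔚.π b = 1 - 𝔚.π a := by rw [← map_one 𝔚.π, ← hab, map_add]; ring
  have hδ : 𝔚.δ b = Q2 (𝔚.π a) (1 - 𝔚.π a) - 𝔚.δ a := by
    have := 𝔚.δ_add a b
    rw [hab, 𝔚.δ_one, hπ] at this
    linear_combination -this
  obtain ⟨-, a2, a3⟩ := closed_logT 𝔚 ha
  obtain ⟨-, b2, b3⟩ := closed_logT 𝔚 hb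
  have h0 : ((𝔚.logT a).2.1 + 𝔅.dx (𝔚.logT a).1) * ((𝔚.logT b).2.2 + 𝔅.dy (𝔚.logT b).1) -
      ((𝔚.logT a).2.2 + 𝔅.dy (𝔚.logT a).1) * ((𝔚.logT b).2.1 + 𝔅.dx (𝔚.logT b).1) = 0 := by
    rw [← a2, ← a3, ← b2, ← b3]
    simp only [WData.logT, hπ, map_sub, Derivation.map_one_eq_zero]
    ring
  rw [BData.I0, h0]
  simp only [WData.logT, hδ]
  rw [hπ] at hj ⊢
  have h := eps_closed 𝔅 hw.1 ((Ring.inverse (𝔚.π a) * Ring.inverse (1 - 𝔚.π a)) ^ 5 *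
    (-(𝔚.δ a * (𝔚.π a - 𝔚.π a ^ 2 - 𝔚.π a ^ 2 + 𝔚.π a ^ 3 + 𝔚.π a ^ 3 - 𝔚.π a ^ 4)) +
      (𝔚.δ a * 𝔚.δ a + 𝔚.δ a * 𝔚.δ a + 𝔚.δ a * 𝔚.δ a) -
      (𝔚.π a ^ 6 - 𝔚.π a ^ 7 - 𝔚.π a ^ 8 + 𝔚.π a ^ 9)))
  rw [stein_aux _ _ _ _ _ hi hj, stein_aux _ _ _ _ _ hi hj] at h
  rw [← h]
  congr 1
  ring

theorem I0_E (𝔚 : WData 𝔅 T) (a : T) {v w : B × B × B} (hv : 𝔅.Closed v) (hw : 𝔅.Closed w) :
    ∃ t : k, 𝔅.I0 (𝔚.logT (1 + (5 + 𝔚.xs ^ 4 * 𝔚.ys ^ 4) * a)) v w = t ^ 5 - t := by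
  set α := 𝔚.π a with hα
  have x5 := 𝔅.x5
  have y5 := 𝔅.y5
  have hπE : 𝔚.π (5 + 𝔚.xs ^ 4 * 𝔚.ys ^ 4) = 𝔅.x ^ 4 * 𝔅.y ^ 4 := by
    rw [map_add, map_mul, map_pow, map_pow, 𝔚.π_xs, 𝔚.π_ys, map_ofNat, five k B, zero_add]
  have hδE : 𝔚.δ (5 + 𝔚.xs ^ 4 * 𝔚.ys ^ 4) = 1 := by
    rw [𝔚.δ_add, δ_five, δ_mon 𝔚 3 3, map_ofNat, five k B, Q2]; ring
  have hπ : 𝔚.π (1 + (5 + 𝔚.xs ^ 4 * 𝔚.ys ^ 4) * a) = 1 + 𝔅.x ^ 4 * 𝔅.y ^ 4 * α := by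
    rw [map_add, map_mul, hπE, map_one]
  have hδ : 𝔚.δ (1 + (5 + 𝔚.xs ^ 4 * 𝔚.ys ^ 4) * a) = α ^ 5 - 𝔅.x ^ 4 * 𝔅.y ^ 4 * α := by
    rw [𝔚.δ_add, 𝔚.δ_mul, 𝔚.δ_one, map_mul, hπE, hδE, map_one, Q2, ← hα]
    linear_combination (𝔅.x ^ 15 * 𝔅.y ^ 20 * 𝔚.δ a - 2 * 𝔅.x ^ 3 * 𝔅.y ^ 8 * α ^ 2 -
      2 * 𝔅.x ^ 7 * 𝔅.y ^ 12 * α ^ 3 - 𝔅.x ^ 11 * 𝔅.y ^ 16 * α ^ 4) * x5
  have hu : IsUnit (1 + (5 + 𝔚.xs ^ 4 * 𝔚.ys ^ 4) * a) := by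
    rw [isUnit_T 𝔚, hπ]; simp [aug_x]
  have hinv : Ring.inverse (1 + 𝔅.x ^ 4 * 𝔅.y ^ 4 * α) = 1 - 𝔅.x ^ 4 * 𝔅.y ^ 4 * α :=
    inv_eq (by linear_combination (-𝔅.x ^ 3 * 𝔅.y ^ 8 * α ^ 2) * x5)
  have hi5 : (1 - 𝔅.x ^ 4 * 𝔅.y ^ 4 * α) ^ 5 = 1 := by
    rw [sub5 k]; linear_combination (-𝔅.x ^ 15 * 𝔅.y ^ 20 * α ^ 5) * x5
  obtain ⟨-, a2, a3⟩ := closed_logT 𝔚 hu
  have hx : 𝔅.dx (1 + 𝔅.x ^ 4 * 𝔅.y ^ 4 * α) =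
      𝔅.y * (𝔅.x ^ 4 * 𝔅.y ^ 3 * 𝔅.dx α + 4 * 𝔅.x ^ 3 * 𝔅.y ^ 3 * α) := by
    simp only [map_add, Derivation.leibniz, Derivation.leibniz_pow, smul_eq_mul, nsmul_eq_mul,
      Derivation.map_one_eq_zero, 𝔅.dx_x, 𝔅.dx_y]
    push_cast; ring
  have hy : 𝔅.dy (1 + 𝔅.x ^ 4 * 𝔅.y ^ 4 * α) =
      𝔅.x * (𝔅.x ^ 3 * 𝔅.y ^ 4 * 𝔅.dy α + 4 * 𝔅.x ^ 3 * 𝔅.y ^ 3 * α) := by
    simp only [map_add, Derivation.leibniz, Derivation.leibniz_pow, smul_eq_mul, nsmul_eq_mul,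
      Derivation.map_one_eq_zero, 𝔅.dy_x, 𝔅.dy_y]
    push_cast; ring
  have z2 : (𝔚.logT (1 + (5 + 𝔚.xs ^ 4 * 𝔚.ys ^ 4) * a)).2.1 ^ 5 = 0 := by
    simp only [WData.logT, hπ, hx, mul_pow, y5, zero_mul]
  have z3 : (𝔚.logT (1 + (5 + 𝔚.xs ^ 4 * 𝔚.ys ^ 4) * a)).2.2 ^ 5 = 0 := by
    simp only [WData.logT, hπ, hy, mul_pow, x5, zero_mul]
  have z1 : (𝔚.logT (1 + (5 + 𝔚.xs ^ 4 * 𝔚.ys ^ 4) * a)).1 = α ^ 5 - 𝔅.x ^ 4 * 𝔅.y ^ 4 * α := by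
    simp only [WData.logT, hπ, hδ, hinv, hi5, mul_one]
  set g := v.2.1 * w.2.2 - v.2.2 * w.2.1 with hg
  have hεg : 𝔅.ε g = 𝔅.aug g ^ 5 := by
    have e1 := eps_closed 𝔅 (closed' hw) v.1
    have e2 := eps_closed 𝔅 hv.1 w.1
    have e3 : g = 𝔅.x ^ 4 * 𝔅.y ^ 4 * g ^ 5 -
        (𝔅.dx v.1 * (w.2.2 + 𝔅.dy w.1) - 𝔅.dy v.1 * (w.2.1 + 𝔅.dx w.1)) +
        (𝔅.dx w.1 * v.2.2 - 𝔅.dy w.1 * v.2.1) := by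
      rw [hg, sub5 k]
      linear_combination (-(𝔅.y ^ 4 * w.2.2 ^ 5)) * hv.2.1 - (v.2.1 + 𝔅.dx v.1) * hw.2.2 +
        (𝔅.x ^ 4 * w.2.1 ^ 5) * hv.2.2 + (v.2.2 + 𝔅.dy v.1) * hw.2.1
    conv_lhs => rw [e3]
    rw [map_add, map_sub, e1, e2, eps_top, map_pow]; ring
  refine ⟨𝔅.aug α * 𝔅.aug g, ?_⟩
  rw [BData.I0, ← a2, ← a3, z1, z2, z3, ← hg]
  have e4 : (α ^ 5 - 𝔅.x ^ 4 * 𝔅.y ^ 4 * α) * g -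
      v.1 * (𝔅.x ^ 4 * 0 * w.2.2 - 𝔅.y ^ 4 * 0 * w.2.1) +
      w.1 * (𝔅.x ^ 4 * 0 * (v.2.2 + 𝔅.dy v.1) - 𝔅.y ^ 4 * 0 * (v.2.1 + 𝔅.dx v.1)) =
      α ^ 5 * g - 𝔅.x ^ 4 * 𝔅.y ^ 4 * (α * g) := by ring
  rw [e4, map_sub, eps_top, pow5 𝔅 α, eps_alg, hεg, map_mul]; ring

theorem I0_val (𝔚 : WData 𝔅 T) :
    𝔅.I0 (𝔚.logT (1 + (𝔚.xs ^ 3 * 𝔚.ys ^ 4 + 𝔚.xs ^ 4 * 𝔚.ys ^ 3))) (𝔚.logT (1 - 𝔚.xs))
      (𝔚.logT (1 + 𝔚.ys ^ 2)) = 2 := by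
  have x5 := 𝔅.x5
  have y5 := 𝔅.y5
  set m := 𝔅.x ^ 3 * 𝔅.y ^ 4 + 𝔅.x ^ 4 * 𝔅.y ^ 3 with hm
  have hm2 : m ^ 2 = 0 := by
    rw [hm]; linear_combination (𝔅.x * 𝔅.y ^ 8 + 2 * 𝔅.x ^ 2 * 𝔅.y ^ 7 + 𝔅.x ^ 3 * 𝔅.y ^ 6) * x5
  have hπM : 𝔚.π (𝔚.xs ^ 3 * 𝔚.ys ^ 4 + 𝔚.xs ^ 4 * 𝔚.ys ^ 3) = m := by
    simp only [map_add, map_mul, map_pow, 𝔚.π_xs, 𝔚.π_ys, hm]
  have hδM : 𝔚.δ (𝔚.xs ^ 3 * 𝔚.ys ^ 4 + 𝔚.xs ^ 4 * 𝔚.ys ^ 3) = 0 := by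
    rw [𝔚.δ_add, δ_mon 𝔚 2 3, δ_mon 𝔚 3 2]
    simp only [map_mul, map_pow, 𝔚.π_xs, 𝔚.π_ys, Q2]
    linear_combination (-(𝔅.x ^ 11 * 𝔅.y ^ 19) - 2 * 𝔅.x ^ 12 * 𝔅.y ^ 18 -
      2 * 𝔅.x ^ 13 * 𝔅.y ^ 17 - 𝔅.x ^ 14 * 𝔅.y ^ 16) * x5
  have hπ : 𝔚.π (1 + (𝔚.xs ^ 3 * 𝔚.ys ^ 4 + 𝔚.xs ^ 4 * 𝔚.ys ^ 3)) = 1 + m := by
    rw [map_add, hπM, map_one]
  have hδ : 𝔚.δ (1 + (𝔚.xs ^ 3 * 𝔚.ys ^ 4 + 𝔚.xs ^ 4 * 𝔚.ys ^ 3)) = -m := by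
    rw [𝔚.δ_add, 𝔚.δ_one, hπM, hδM, map_one, Q2]
    linear_combination (-2 - 2 * m - m ^ 2) * hm2
  have hu : IsUnit (1 + (𝔚.xs ^ 3 * 𝔚.ys ^ 4 + 𝔚.xs ^ 4 * 𝔚.ys ^ 3)) := by
    rw [isUnit_T 𝔚, hπ, hm]; simp [aug_x]
  have hinv : Ring.inverse (1 + m) = 1 - m := inv_eq (by linear_combination -hm2)
  have hi5 : (1 - m) ^ 5 = 1 := by rw [sub5 k]; linear_combination (-m ^ 3) * hm2
  obtain ⟨-, a2, a3⟩ := closed_logT 𝔚 hu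
  have hx : 𝔅.dx (1 + m) = 𝔅.y * (3 * 𝔅.x ^ 2 * 𝔅.y ^ 3 + 4 * 𝔅.x ^ 3 * 𝔅.y ^ 2) := by
    simp only [hm, map_add, Derivation.leibniz, Derivation.leibniz_pow, smul_eq_mul, nsmul_eq_mul,
      Derivation.map_one_eq_zero, 𝔅.dx_x, 𝔅.dx_y]
    push_cast; ring
  have hy : 𝔅.dy (1 + m) = 𝔅.x * (4 * 𝔅.x ^ 2 * 𝔅.y ^ 3 + 3 * 𝔅.x ^ 3 * 𝔅.y ^ 2) := by
    simp only [hm, map_add, Derivation.leibniz, Derivation.leibniz_pow, smul_eq_mul, nsmul_eq_mul,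
      Derivation.map_one_eq_zero, 𝔅.dy_x, 𝔅.dy_y]
    push_cast; ring
  have z2 : (𝔚.logT (1 + (𝔚.xs ^ 3 * 𝔚.ys ^ 4 + 𝔚.xs ^ 4 * 𝔚.ys ^ 3))).2.1 ^ 5 = 0 := by
    simp only [WData.logT, hπ, hx, mul_pow, y5, zero_mul]
  have z3 : (𝔚.logT (1 + (𝔚.xs ^ 3 * 𝔚.ys ^ 4 + 𝔚.xs ^ 4 * 𝔚.ys ^ 3))).2.2 ^ 5 = 0 := by
    simp only [WData.logT, hπ, hy, mul_pow, x5, zero_mul]
  have z1 : (𝔚.logT (1 + (𝔚.xs ^ 3 * 𝔚.ys ^ 4 + 𝔚.xs ^ 4 * 𝔚.ys ^ 3))).1 = -m := by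
    simp only [WData.logT, hπ, hδ, hinv, hi5, mul_one]
  have hπv : 𝔚.π (1 - 𝔚.xs) = 1 - 𝔅.x := by rw [map_sub, map_one, 𝔚.π_xs]
  have hπw : 𝔚.π (1 + 𝔚.ys ^ 2) = 1 + 𝔅.y ^ 2 := by rw [map_add, map_one, map_pow, 𝔚.π_ys]
  have hj := congrArg 𝔅.aug (Ring.mul_inverse_cancel (1 - 𝔅.x)
    (by rw [isUnit_B (𝔅 := 𝔅)]; simp [aug_x]))
  have hl := congrArg 𝔅.aug (Ring.mul_inverse_cancel (1 + 𝔅.y ^ 2)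
    (by rw [isUnit_B (𝔅 := 𝔅)]; simp [aug_y]))
  simp only [map_mul, map_sub, map_add, map_one, map_pow, aug_x, aug_y, sub_zero, one_mul,
    ne_eq, OfNat.ofNat_ne_zero, not_false_eq_true, zero_pow, add_zero] at hj hl
  have hg : -m * ((𝔚.logT (1 - 𝔚.xs)).2.1 * (𝔚.logT (1 + 𝔚.ys ^ 2)).2.2 -
      (𝔚.logT (1 - 𝔚.xs)).2.2 * (𝔚.logT (1 + 𝔚.ys ^ 2)).2.1) = 𝔅.x ^ 4 * 𝔅.y ^ 4 *
        (2 * Ring.inverse (1 - 𝔅.x) * Ring.inverse (1 + 𝔅.y ^ 2)) := by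
    simp only [WData.logT, hπv, hπw, map_add, map_sub, Derivation.leibniz_pow, smul_eq_mul,
      nsmul_eq_mul, Derivation.map_one_eq_zero, 𝔅.dy_x, 𝔅.dy_y, 𝔅.dx_x, 𝔅.dx_y, hm]
    push_cast
    linear_combination (2 * 𝔅.x ^ 3 * Ring.inverse (1 - 𝔅.x) * Ring.inverse (1 + 𝔅.y ^ 2)) * y5
  rw [BData.I0, ← a2, ← a3, z1, z2, z3, hg]
  simp only [mul_zero, zero_mul, sub_zero, add_zero]
  rw [eps_top, map_mul, map_mul, hj, hl, map_ofNat]; ring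

theorem xs_pow (𝔚 : WData 𝔅 T) : 𝔚.xs ^ 5 = 0 := by
  exact 𝔚.ext _ _ (by rw [map_pow, 𝔚.π_xs, 𝔅.x5, map_zero]) (by rw [δ_pow5, δ_zero])

theorem ys_pow (𝔚 : WData 𝔅 T) : 𝔚.ys ^ 5 = 0 := by
  exact 𝔚.ext _ _ (by rw [map_pow, 𝔚.π_ys, 𝔅.y5, map_zero]) (by rw [δ_pow5, δ_zero])

end Crest.Agent.R171
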