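import Crest.Agent.R171.BRing
import Crest.Agent.R171.SymI

/-! Task SYMQ: assembling the symbol.  `R = T ⧸ span {E}`, `E = 5 + xs⁴ ys⁴` (`aug (π E) = 0`, so `aug ∘ π` descends to `R`, and
`IsUnit (mk a) ↔ IsUnit a`; `R` is local).  `W₁` = AddSubgroup of closed triples, `I₁ = ε0 ∘ I0` on `W₁` (alternating trilinear),
`rad = {u | ∀ v w, I₁ u v w = 0}`, `W = W₁ ⧸ rad`, `I` by three `QuotientAddGroup.lift`s (antisymmetry moves `rad` to any slot).
`lg r := if h : IsUnit r then mk ⟨logT (lift r), _⟩ else 0`; two unit lifts differ by a factor `1 + E a`, whose log is in `rad`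
(`I0_E`, `ε0 (t^5 - t) = 0`); so `lg (mk a) = mk (logT a)` for units `a`.  For `stein` lift `a` and take `1 - a`.
`θ n = mk (te (c n))` for an injective `c : ℕ → k`.  `Epoly xs ys ∈ span {E}`: `xs^5 = ys^5 = 0`,
`Epoly = E + ys * (..) * 5 + ..` and `5 ys = E ys`.  Value: swap12 of `I0_val`, `32 * (-2) = -64`. -/

set_option autoImplicit false

namespace Crest.Agent.R171

open IsLocalRing

theorem sq_swap {W M : Type} [AddCommGroup W] [AddCommGroup M] {I : W →+ W →+ W →+ M}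
    (h : IsAlt I) (a b c : W) : I b a c = - I a b c ∧ I a c b = - I a b c := by
  constructor
  · have h1 := h.alt12 (a + b) c
    simp only [map_add, AddMonoidHom.add_apply, h.alt12, zero_add, add_zero] at h1
    rw [eq_neg_iff_add_eq_zero]
    exact h1
  · have h1 := h.alt23 a (b + c)
    simp only [map_add, AddMonoidHom.add_apply, h.alt23, zero_add, add_zero] at h1
    rw [eq_neg_iff_add_eq_zero]
    exact h1

theorem sq_quot {W₁ M : Type} [AddCommGroup W₁] [AddCommGroup M] (I₁ : W₁ →+ W₁ →+ W₁ →+ M)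
    (h : IsAlt I₁) : ∃ (W : Type) (_ : AddCommGroup W) (q : W₁ →+ W) (I : W →+ W →+ W →+ M),
      Function.Surjective q ∧ (∀ a b c, I (q a) (q b) (q c) = I₁ a b c) ∧
      ∀ a, (∀ b c, I₁ a b c = 0) → q a = 0 := by
  let q : W₁ →+ W₁ ⧸ I₁.ker := QuotientAddGroup.mk' _
  have hq : Function.Surjective q := QuotientAddGroup.mk'_surjective _
  choose s hs using hq
  have hker : ∀ a, I₁ (s (q a) - a) = 0 := by
    intro a
    have : q (s (q a) - a) = 0 := by rw [map_sub, hs, sub_self]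
    exact (QuotientAddGroup.eq_zero_iff _).mp this
  have k1 : ∀ a b c, I₁ (s (q a)) b c = I₁ a b c := by
    intro a b c
    have := hker a
    rw [map_sub, sub_eq_zero] at this
    rw [this]
  have k2 : ∀ a b c, I₁ a (s (q b)) c = I₁ a b c := by
    intro a b c
    rw [(sq_swap h (s (q b)) a c).1, k1, ← (sq_swap h b a c).1]
  have k3 : ∀ a b c, I₁ a b (s (q c)) = I₁ a b c := by
    intro a b c
    rw [(sq_swap h a (s (q c)) b).2, k2, ← (sq_swap h a c b).2]
  have key : ∀ a b c, I₁ (s (q a)) (s (q b)) (s (q c)) = I₁ a b c := by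
    intro a b c
    rw [k1, k2, k3]
  have sadd : ∀ a b, s (a + b) = s (q (s a + s b)) := by
    intro a b
    rw [map_add, hs, hs]
  refine ⟨W₁ ⧸ I₁.ker, inferInstance, q,
    AddMonoidHom.mk' (fun a => AddMonoidHom.mk' (fun b => AddMonoidHom.mk'
      (fun c => I₁ (s a) (s b) (s c)) ?_) ?_) ?_, fun y => ⟨s y, hs y⟩, key, ?_⟩
  · intro c c'
    show I₁ (s a) (s b) (s (c + c')) = I₁ (s a) (s b) (s c) + I₁ (s a) (s b) (s c')
    rw [sadd c c', k3, map_add]
  · intro b b'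
    refine AddMonoidHom.ext fun c => ?_
    show I₁ (s a) (s (b + b')) (s c) = I₁ (s a) (s b) (s c) + I₁ (s a) (s b') (s c)
    rw [sadd b b', k2, map_add, AddMonoidHom.add_apply]
  · intro a a'
    refine AddMonoidHom.ext fun b => AddMonoidHom.ext fun c => ?_
    show I₁ (s (a + a')) (s b) (s c) = I₁ (s a) (s b) (s c) + I₁ (s a') (s b) (s c)
    rw [sadd a a', k1, map_add, AddMonoidHom.add_apply, AddMonoidHom.add_apply]
  · intro a ha
    refine (QuotientAddGroup.eq_zero_iff _).mpr ?_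
    rw [AddMonoidHom.mem_ker]
    ext b c
    simpa using ha b c

theorem exists_sym : ∃ (R W M : Type) (_ : CommRing R) (_ : IsLocalRing R) (_ : AddCommGroup W)
    (_ : AddCommGroup M) (I : W →+ W →+ W →+ M) (lg : R → W) (θ : ℕ → R) (x y : R),
      IsSym I lg ∧ (∀ i j, i ≠ j → IsUnit (θ i - θ j)) ∧ x ∈ maximalIdeal R ∧
      y ∈ maximalIdeal R ∧ Epoly x y = 0 ∧
      (32 : ℤ) • I (lg (1 - x)) (lg (1 + (x ^ 3 * y ^ 4 + x ^ 4 * y ^ 3))) (lg (1 + y ^ 2)) ≠ 0 := by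
  classical
  obtain ⟨k, _, _, _, M, _, ε0, hε5, hεn⟩ := exists_k
  obtain ⟨B, _, _, ⟨𝔅⟩⟩ := exists_B k
  obtain ⟨T, _, ⟨𝔚⟩⟩ := exists_W2 𝔅
  let W₁ : AddSubgroup (B × B × B) :=
    { carrier := {u | 𝔅.Closed u}
      add_mem' := fun hu hv => closed_add hu hv
      zero_mem' := closed_zero
      neg_mem' := fun hu => closed_neg hu }
  let I₁ : W₁ →+ W₁ →+ W₁ →+ M :=
    AddMonoidHom.mk' (fun a => AddMonoidHom.mk' (fun b => AddMonoidHom.mk'
      (fun c => ε0 (𝔅.I0 a.1 b.1 c.1))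
      (fun c c' => by simp only [AddSubgroup.coe_add, I0_add3, map_add]))
      (fun b b' => by
        ext c
        simp only [AddMonoidHom.mk'_apply, AddMonoidHom.add_apply, AddSubgroup.coe_add, I0_add2,
          map_add]))
      (fun a a' => by
        ext b c
        simp only [AddMonoidHom.mk'_apply, AddMonoidHom.add_apply, AddSubgroup.coe_add, I0_add1,
          map_add])
  have hI₁ : ∀ a b c : W₁, I₁ a b c = ε0 (𝔅.I0 a.1 b.1 c.1) := fun _ _ _ => rfl
  have halt : IsAlt I₁ :=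
    ⟨fun a b => by rw [hI₁, I0_alt12 b.2, map_zero], fun a b => by rw [hI₁, I0_alt23 a.2, map_zero]⟩
  obtain ⟨W, _, q, I, hq, hI, hrad⟩ := sq_quot I₁ halt
  let E : T := 5 + 𝔚.xs ^ 4 * 𝔚.ys ^ 4
  let φ : T →+* k := (𝔅.aug : B →+* k).comp 𝔚.π
  have hφ : ∀ a, φ a = 𝔅.aug (𝔚.π a) := fun _ => rfl
  have hU : ∀ a : T, IsUnit a ↔ φ a ≠ 0 := fun a => isUnit_T 𝔚
  have φx : φ 𝔚.xs = 0 := by
    have : φ 𝔚.xs ^ 5 = 0 := by rw [← map_pow, xs_pow, map_zero]
    exact pow_eq_zero_iff (by norm_num) |>.mp this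
  have φy : φ 𝔚.ys = 0 := by
    have : φ 𝔚.ys ^ 5 = 0 := by rw [← map_pow, ys_pow, map_zero]
    exact pow_eq_zero_iff (by norm_num) |>.mp this
  have h5 : (5 : k) = 0 := by exact_mod_cast CharP.cast_eq_zero k 5
  have φE : φ E = 0 := by
    simp only [E, map_add, map_mul, map_pow, φx, φy, map_ofNat, h5]
    norm_num
  let J : Ideal T := Ideal.span {E}
  let mk : T →+* T ⧸ J := Ideal.Quotient.mk J
  have hmk : Function.Surjective mk := Ideal.Quotient.mk_surjective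
  let ψ : T ⧸ J →+* k := Ideal.Quotient.lift J φ (by
    intro a ha
    obtain ⟨t, rfl⟩ := Ideal.mem_span_singleton'.mp ha
    rw [map_mul, φE, mul_zero])
  have hψ : ∀ a, ψ (mk a) = φ a := fun _ => rfl
  have hUm : ∀ a : T, IsUnit (mk a) ↔ IsUnit a := by
    intro a
    refine ⟨fun h => ?_, fun h => h.map mk⟩
    rw [hU, ← hψ]
    exact (h.map ψ).ne_zero
  have : Nontrivial (T ⧸ J) := ψ.domain_nontrivial
  have hloc : IsLocalRing (T ⧸ J) := by
    apply IsLocalRing.of_isUnit_or_isUnit_one_sub_self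
    intro r
    obtain ⟨a, rfl⟩ := hmk r
    by_cases h : φ a = 0
    · right
      rw [← map_one mk, ← map_sub, hUm, hU, map_sub, map_one, h]
      norm_num
    · left
      rw [hUm, hU]
      exact h
  let L : T → W₁ := fun a => if h : IsUnit a then ⟨𝔚.logT a, closed_logT 𝔚 h⟩ else 0
  have hL : ∀ a, IsUnit a → (L a).1 = 𝔚.logT a := by
    intro a ha
    simp only [L, dif_pos ha]
  have Lmul : ∀ a b, IsUnit a → IsUnit b → L (a * b) = L a + L b := by
    intro a b ha hb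
    apply Subtype.ext
    rw [AddSubgroup.coe_add, hL _ (ha.mul hb), hL _ ha, hL _ hb, logT_mul 𝔚 ha hb]
  have uE : ∀ t, IsUnit (1 + E * t) := by
    intro t
    rw [hU, map_add, map_mul, φE, map_one]
    norm_num
  have LE : ∀ t, q (L (1 + E * t)) = 0 := by
    intro t
    apply hrad
    intro b c
    obtain ⟨z, hz⟩ := I0_E 𝔚 t b.2 c.2
    rw [hI₁, hL _ (uE t), hz, map_sub, hε5, sub_self]
  choose s hs using hmk
  let lg : T ⧸ J → W := fun r => q (L (s r))
  have hlg : ∀ a, IsUnit a → lg (mk a) = q (L a) := by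
    intro a ha
    have h1 : s (mk a) - a ∈ J := Ideal.Quotient.eq.mp (hs (mk a))
    obtain ⟨t, ht⟩ := Ideal.mem_span_singleton'.mp h1
    obtain ⟨a', ha'⟩ := ha.exists_right_inv
    have h2 : s (mk a) = a * (1 + E * (t * a')) := by
      linear_combination (-1 : T) * ht - (E * t) * ha'
    show q (L (s (mk a))) = q (L a)
    rw [h2, Lmul _ _ ha (uE _), map_add, LE, add_zero]
  have hsur : ∀ r, ∃ a, mk a = r := fun r => ⟨s r, hs r⟩
  obtain ⟨c, hc⟩ : ∃ c : ℕ → k, Function.Injective c := ⟨_, (Infinite.natEmbedding k).injective⟩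
  refine ⟨T ⧸ J, W, M, inferInstance, hloc, inferInstance, inferInstance, I, lg,
    fun n => mk (𝔚.te (c n)), mk 𝔚.xs, mk 𝔚.ys, ⟨⟨?_, ?_⟩, ?_, ?_, ?_⟩, ?_, ?_, ?_, ?_, ?_⟩
  · intro a b
    obtain ⟨a, rfl⟩ := hq a
    obtain ⟨b, rfl⟩ := hq b
    rw [hI, halt.alt12]
  · intro a b
    obtain ⟨a, rfl⟩ := hq a
    obtain ⟨b, rfl⟩ := hq b
    rw [hI, halt.alt23]
  · intro a b ha hb
    obtain ⟨a, rfl⟩ := hsur a
    obtain ⟨b, rfl⟩ := hsur b
    rw [hUm] at ha hb
    rw [← map_mul, hlg _ (ha.mul hb), hlg _ ha, hlg _ hb, Lmul _ _ ha hb, map_add]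
  · intro a ha
    obtain ⟨a, rfl⟩ := hsur a
    rw [hUm] at ha
    rw [← map_neg, hlg _ ha.neg, hlg _ ha]
    congr 1
    apply Subtype.ext
    rw [hL _ ha.neg, hL _ ha, logT_neg 𝔚 ha]
  · intro a b w ha hb hab
    obtain ⟨a, rfl⟩ := hsur a
    obtain ⟨w, rfl⟩ := hq w
    have hb' : b = mk (1 - a) := by
      rw [map_sub, map_one, ← hab]; ring
    subst hb'
    rw [hUm] at ha hb
    rw [hlg _ ha, hlg _ hb, hI, hI₁, hL _ ha, hL _ hb, I0_stein 𝔚 ha hb (by ring) w.2, map_zero]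
  · intro i j hij
    rw [← map_sub, hUm, hU, map_sub, hφ, hφ, 𝔚.π_te, 𝔚.π_te, AlgHom.commutes, AlgHom.commutes]
    exact sub_ne_zero.mpr (hc.ne hij)
  · rw [mem_maximalIdeal, mem_nonunits_iff, hUm, hU]
    exact fun h => h φx
  · rw [mem_maximalIdeal, mem_nonunits_iff, hUm, hU]
    exact fun h => h φy
  · have hx5 : mk 𝔚.xs ^ 5 = 0 := by rw [← map_pow, xs_pow, map_zero]
    have hy5 : mk 𝔚.ys ^ 5 = 0 := by rw [← map_pow, ys_pow, map_zero]
    have hE : 5 + mk 𝔚.xs ^ 4 * mk 𝔚.ys ^ 4 = 0 := by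
      have : mk E = 0 := Ideal.Quotient.eq_zero_iff_mem.mpr (Ideal.mem_span_singleton_self E)
      simpa only [E, map_add, map_mul, map_pow, map_ofNat] using this
    unfold Epoly
    generalize mk 𝔚.xs = x at *
    generalize mk 𝔚.ys = y at *
    linear_combination (1 + 2 * y ^ 2 + 2 * y ^ 4) * hE +
      (y ^ 3 + 5 * y - 2 * x ^ 4 * y - 2 * x ^ 4 * y ^ 3) * hy5 + y ^ 3 * hx5
  · have u1 : IsUnit (1 - 𝔚.xs) := by
      rw [hU, map_sub, map_one, φx]; norm_num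
    have u2 : IsUnit (1 + (𝔚.xs ^ 3 * 𝔚.ys ^ 4 + 𝔚.xs ^ 4 * 𝔚.ys ^ 3)) := by
      rw [hU]
      simp only [map_add, map_mul, map_pow, map_one, φx, φy]
      norm_num
    have u3 : IsUnit (1 + 𝔚.ys ^ 2) := by
      rw [hU]
      simp only [map_add, map_pow, map_one, φy]
      norm_num
    have e1 : 1 - mk 𝔚.xs = mk (1 - 𝔚.xs) := by simp only [map_sub, map_one]
    have e2 : 1 + (mk 𝔚.xs ^ 3 * mk 𝔚.ys ^ 4 + mk 𝔚.xs ^ 4 * mk 𝔚.ys ^ 3) =
        mk (1 + (𝔚.xs ^ 3 * 𝔚.ys ^ 4 + 𝔚.xs ^ 4 * 𝔚.ys ^ 3)) := by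
      simp only [map_add, map_mul, map_pow, map_one]
    have e3 : 1 + mk 𝔚.ys ^ 2 = mk (1 + 𝔚.ys ^ 2) := by simp only [map_add, map_pow, map_one]
    rw [e1, e2, e3, hlg _ u1, hlg _ u2, hlg _ u3, hI, (sq_swap halt _ _ _).1, hI₁, hL _ u1,
      hL _ u2, hL _ u3, I0_val, ← map_neg, ← map_zsmul]
    have := hεn (-64) (by norm_num)
    convert this using 2
    push_cast
    simp only [zsmul_eq_mul]
    norm_num

end Crest.Agent.R171
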