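import Crest.Agent.R171.SymB
import Crest.Agent.R171.Milnor
import Crest.Agent.R171.Hom
import Crest.Agent.R171.DetC
import Crest.Agent.R171.Fill
import Crest.Agent.R171.Rep
import Crest.Agent.R171.RingA
import Crest.Agent.R171.SymQ

/-! Row 171: assembly. -/

set_option autoImplicit false

namespace Crest.Agent.R171

open Crest.AlgebraR.Steinberg IsLocalRing

theorem IsSym.lg_one {R W M : Type} [CommRing R] [AddCommGroup W] [AddCommGroup M]
    {I : W →+ W →+ W →+ M} {lg : R → W} (hS : IsSym I lg) : lg 1 = 0 := by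
  have := hS.lg_mul 1 1 isUnit_one isUnit_one
  rw [mul_one] at this
  exact left_eq_add.mp this

theorem IsSym.lg_inv {R W M : Type} [CommRing R] [AddCommGroup W] [AddCommGroup M]
    {I : W →+ W →+ W →+ M} {lg : R → W} (hS : IsSym I lg) (u : Rˣ) :
    lg ((u⁻¹ : Rˣ) : R) = - lg (u : R) := by
  have := hS.lg_mul (u : R) ((u⁻¹ : Rˣ) : R) u.isUnit (u⁻¹).isUnit
  rw [Units.mul_inv, hS.lg_one] at this
  exact eq_neg_of_add_eq_zero_right this.symm

theorem detect {A R W M : Type} [CommRing A] [CommRing R] [IsLocalRing R] [AddCommGroup W]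
    [AddCommGroup M] {I : W →+ W →+ W →+ M} {lg : R → W} (hS : IsSym I lg) (θ : ℕ → R)
    (hθ : ∀ i j, i ≠ j → IsUnit (θ i - θ j)) (f : A →+* R) (u v q : Aˣ) (s : Finset (St A)) :
    ∃ (K : Subgroup (St A)) (φ : St A → St A → St A → M), (∀ g ∈ s, g ∈ K) ∧
      (∀ a ∈ K, ∀ b ∈ K, ∀ c ∈ K, ∀ d ∈ K,
        φ b c d - φ (a * b) c d + φ a (b * c) d - φ a b (c * d) + φ a b c = 0) ∧
      alt3 φ (a1 (stSS A) u) (a2 (stSS A) v) (a3 (stSS A) q) =
        (8 : ℤ) • I (lg (f u)) (lg (f v)) (lg (f q)) := by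
  classical
  obtain ⟨D, hD1, hD2⟩ := exists_detData hS θ hθ
  obtain ⟨ρ, hρ1, hρ2⟩ := exists_rep f
  obtain ⟨N, hN, hs⟩ := exists_lvl s
  have hpres : ∀ g : lvl A N, D.Pres N ((ρ.comp (lvl A N).subtype) g) := fun g =>
    pres_of_mem_lvl D ρ N (fun i j r hij hi hj => by rw [hρ1 i j hij]; exact hD1 N i j _ hij hi hj) g.2
  obtain ⟨φ, hφ, hval⟩ := exists_flag_cocycle hS.alt D N (ρ.comp (lvl A N).subtype) hpres
  let φ' : St A → St A → St A → M := fun a b c =>
    if h : a ∈ lvl A N ∧ b ∈ lvl A N ∧ c ∈ lvl A N then φ ⟨a, h.1⟩ ⟨b, h.2.1⟩ ⟨c, h.2.2⟩ else 0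
  have hφ' : ∀ a b c : lvl A N, φ' a b c = φ a b c := fun a b c => dif_pos ⟨a.2, b.2, c.2⟩
  refine ⟨lvl A N, φ', hs, ?_, ?_⟩
  · intro a ha b hb c hc d hd
    have := hφ ⟨a, ha⟩ ⟨b, hb⟩ ⟨c, hc⟩ ⟨d, hd⟩
    simp only [← hφ'] at this
    exact this
  · have hm : ∀ i j, i ≠ j → i < 4 → j < 4 → ∀ w : Aˣ, (stSS A).h i j w ∈ lvl A N :=
      fun i j hij hi hj w => h_mem_lvl hij (by omega) (by omega) w
    have hT : ∀ (i j k l : ℕ) (w : Aˣ), i ≠ j → k ≠ l →
        D.Tor (ρ ((stSS A).h i j w * (stSS A).h k l w))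
          ((fun n => lg (dg i j (Units.map (f : A →* R) w) n : Rˣ)) +
            fun n => lg (dg k l (Units.map (f : A →* R) w) n : Rˣ)) := by
      intro i j k l w hij hkl
      rw [map_mul, Equiv.Perm.coe_mul, hρ2 i j hij, hρ2 k l hkl]
      exact Tor_comp D (hD2 _) (hD2 _)
    let g1 : lvl A N := ⟨a1 (stSS A) u, mul_mem (hm 0 3 (by decide) (by decide) (by decide) u)
      (hm 1 2 (by decide) (by decide) (by decide) u)⟩
    let g2 : lvl A N := ⟨a2 (stSS A) v, mul_mem (hm 0 3 (by decide) (by decide) (by decide) v)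
      (hm 2 1 (by decide) (by decide) (by decide) v)⟩
    let g3 : lvl A N := ⟨a3 (stSS A) q, mul_mem (hm 0 1 (by decide) (by decide) (by decide) q)
      (hm 3 2 (by decide) (by decide) (by decide) q)⟩
    have key := hval g1 g2 g3 _ _ _ (hT 0 3 1 2 u (by decide) (by decide))
      (hT 0 3 2 1 v (by decide) (by decide)) (hT 0 1 3 2 q (by decide) (by decide))
      (Subtype.ext (a12_comm u v).eq) (Subtype.ext (a13_comm u q).eq)
      (Subtype.ext (a23_comm v q).eq)
    have e1 : alt3 φ' (a1 (stSS A) u) (a2 (stSS A) v) (a3 (stSS A) q) = alt3 φ g1 g2 g3 := by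
      unfold alt3
      simp only [← hφ']
      rfl
    rw [e1, key]
    have hi : ∀ w : Aˣ, lg (((Units.map (f : A →* R) w)⁻¹ : Rˣ) : R) = - lg (f w) :=
      fun w => hS.lg_inv _
    have big : ∀ (i j n : ℕ) (w : Rˣ), i < 4 → j < 4 → 4 ≤ n → lg (dg i j w n : Rˣ) = 0 := by
      intro i j n w hi hj hn
      rw [dg, if_neg (by omega), if_neg (by omega)]
      exact hS.lg_one
    refine e3_val hS.alt _ _ _ _ _ _ ?_ ?_ ?_ ?_ ?_ ?_ ?_ ?_ ?_ ?_ ?_ ?_ ?_ ?_ ?_ N hN
    all_goals first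
      | (intro n hn
         rw [Pi.add_apply, big _ _ n _ (by decide) (by decide) hn,
           big _ _ n _ (by decide) (by decide) hn, add_zero])
      | (simp only [Pi.add_apply, dg]
         simp [hS.lg_one, -map_inv, -Units.coe_map_inv, hi])

theorem final : ∃ (A : Type) (_ : CommRing A) (_ : IsDomain A) (_ : IsRegularLocalRing A),
      ringKrullDim A = 2 ∧ CharZero A ∧ (5 : A) ∈ IsLocalRing.maximalIdeal A ^ 2 ∧
        ¬ Function.Injective (H3map (algebraMap A (FractionRing A))).hom := by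
  obtain ⟨A, _, _, _, x, y, hdim, hchar, h5, hx, hy, hE, huniv⟩ := exists_ringA
  obtain ⟨R, W, M, _, _, _, _, I, lg, θ, x', y', hS, hθ, hx', hy', hE', hval⟩ := exists_sym
  obtain ⟨f, hfx, hfy⟩ := huniv R x' y' hx' hy' hE'
  refine ⟨A, inferInstance, inferInstance, inferInstance, hdim, hchar, h5, ?_⟩
  have hun : ∀ a ∈ maximalIdeal A, IsUnit (1 + a) := fun a ha => by
    have := IsLocalRing.isUnit_one_sub_self_of_mem_nonunits (-a) ((maximalIdeal A).neg_mem ha)
    rwa [sub_neg_eq_add] at this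
  have hu : IsUnit (1 - x) := by
    rw [sub_eq_add_neg]; exact hun _ ((maximalIdeal A).neg_mem hx)
  have hv : IsUnit (1 + (x ^ 3 * y ^ 4 + x ^ 4 * y ^ 3)) := by
    apply hun
    rw [show x ^ 3 * y ^ 4 + x ^ 4 * y ^ 3 = (x ^ 2 * y ^ 4 + x ^ 3 * y ^ 3) * x by ring]
    exact Ideal.mul_mem_left _ _ hx
  have hq : IsUnit (1 + y ^ 2) := by
    apply hun
    rw [sq]
    exact Ideal.mul_mem_left _ _ hy
  have hP : IsUnit (1 + x * (x ^ 3 * y ^ 4 + x ^ 4 * y ^ 3)) := by
    apply hun
    exact Ideal.mul_mem_right _ _ hx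
  have hx0 : x ≠ 0 := by
    rintro rfl
    apply hval
    rw [← hfx]
    simp [hS.lg_one]
  have hy0 : y ≠ 0 := by
    rintro rfl
    apply hval
    rw [← hfy]
    simp [hS.lg_one]
  let ι := algebraMap A (FractionRing A)
  have hι : Function.Injective ι := IsFractionRing.injective A (FractionRing A)
  refine not_injective_H3 (stMap ι) (trivialHom ι) (fun _ => rfl) (a1 (stSS A) hu.unit)
    (a2 (stSS A) hv.unit) (a3 (stSS A) hq.unit) (a12_comm _ _) (a13_comm _ _) (a23_comm _ _) 4 ?_ ?_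
  · intro M' _ ψ hψ
    have := milnor_vanish (sym ψ) (sym_mul hψ) (sym_swap12 hψ) (sym_swap23 hψ) (sym_stein hψ)
      (ι x) (ι (-(x ^ 3 * y ^ 4 + x ^ 4 * y ^ 3))) (Units.map (ι : A →* FractionRing A) hu.unit)
      (Units.map (ι : A →* FractionRing A) hv.unit) (Units.map (ι : A →* FractionRing A) hq.unit)
      (by simp) (by simp; ring) (fun h => hx0 (hι (by rw [h, map_zero])))
      (by
        intro h
        have h' : ι (1 + y ^ 2) = ι 1 := by rw [map_one]; exact h
        have := hι h'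
        apply hy0
        have h2 : y ^ 2 = 0 := by linear_combination this
        exact pow_eq_zero_iff (two_ne_zero) |>.mp h2)
      (by
        have := (hP.map ι).ne_zero
        intro h
        apply this
        rw [← h]
        simp only [map_add, map_mul, map_one, map_neg]
        ring)
      (by
        have h := congrArg ι hE
        unfold Epoly at h
        simp only [map_add, map_mul, map_pow, map_ofNat, map_zero] at h
        have e : ((Units.map (ι : A →* FractionRing A) hq.unit : (FractionRing A)ˣ) :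
            FractionRing A) = 1 + ι y ^ 2 := by simp
        rw [e]
        simp only [map_add, map_mul, map_pow, map_neg]
        linear_combination (-1 : FractionRing A) * h)
    simpa only [sym, a1, a2, a3, map_mul, stMap_h] using this
  · intro s
    obtain ⟨K, φ, hs, hc, hφ⟩ := detect hS θ hθ f hu.unit hv.unit hq.unit s
    refine ⟨K, M, inferInstance, φ, hs, hc, ?_⟩
    rw [hφ, smul_smul]
    simpa [hfx, hfy] using hval

end Crest.Agent.R171
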