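import Crest.Agent.R171.Rel
import Crest.Agent.R171.Tel

/-! Task FLAGA: cocycle identity and level recursion for the flag cochains.  All three use `tel`.
* `c3_coc`: `k = 4, r = 3`, `L J = ∑ seg (F i) (J i)` (5 flags), `w i = F i (J i)`, `t i J = (-1)^i • σ3 (L J) (the w j, j ≠ i)`,
  `u = u' = 0`.  `hd` is `σ3_rel` (units from `Gen`, `stack5`, `seg_succ`); `hd'` is `T3_rel` with `d i = Q (L J + ∑_{j ≠ i} {w j})`
  (rearrange the multisets with `abel`/`ac_rfl`).  It is convenient to define `t` by `![fun J => .., fun J => .., ...]`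
  and to evaluate `Fin.insertNth i 0 K j` by `rfl`/`simp` for each numeral `i j`.
* `c3_succ`: `k = 3, r = 3` at level `m+1`, fifth vector `D.e m`, `t i J = (-1)^i • σ3 (L J) (w j, j ≠ i) (e m)`,
  `u J = σ3 (L J) w0 w1 w2 w3`, `u' J = σ3 (L J) w0 w1 w2 w3` at level `m` (use `e_Q`, `e_U`, `IDX_succ`).
* `c2_succ`: the same with `k = 2, r = 2`, `σ2_rel`, `T2_rel`, `u = -σ2`, `u' = -σ2`. -/

set_option autoImplicit false

namespace Crest.Agent.R171

variable {V W M : Type} [AddCommGroup W] [AddCommGroup M] {I : W →+ W →+ W →+ M}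

theorem σ3_up (hI : IsAlt I) (D : DetData V I) (L : Multiset V) (w0 w1 w2 w3 w4 : V) :
    D.σ3 (L + {w0}) w1 w2 w3 w4 - D.σ3 (L + {w1}) w0 w2 w3 w4 + D.σ3 (L + {w2}) w0 w1 w3 w4 -
      D.σ3 (L + {w3}) w0 w1 w2 w4 + D.σ3 (L + {w4}) w0 w1 w2 w3 = 0 := by
  have h := T3_rel hI (D.Q (L + {w1} + {w2} + {w3} + {w4})) (D.Q (L + {w0} + {w2} + {w3} + {w4}))
    (D.Q (L + {w0} + {w1} + {w3} + {w4})) (D.Q (L + {w0} + {w1} + {w2} + {w4}))
    (D.Q (L + {w0} + {w1} + {w2} + {w3}))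
  unfold DetData.σ3
  rw [← h]
  congr 1
  · congr 1
    · congr 1
      · congr 1
        congr 2 <;> abel
      · congr 2 <;> abel
    · congr 2 <;> abel
  · congr 2 <;> abel

theorem σ2_up (hI : IsAlt I) (D : DetData V I) (s : W) (L : Multiset V) (w0 w1 w2 w3 : V) :
    D.σ2 s (L + {w0}) w1 w2 w3 - D.σ2 s (L + {w1}) w0 w2 w3 + D.σ2 s (L + {w2}) w0 w1 w3 -
      D.σ2 s (L + {w3}) w0 w1 w2 = 0 := by
  have h := T2_rel hI s (D.Q (L + {w1} + {w2} + {w3})) (D.Q (L + {w0} + {w2} + {w3}))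
    (D.Q (L + {w0} + {w1} + {w3})) (D.Q (L + {w0} + {w1} + {w2}))
  unfold DetData.σ2
  rw [← h]
  congr 1
  · congr 1
    · congr 1
      congr 2 <;> abel
    · congr 2 <;> abel
  · congr 2 <;> abel

theorem fa_eU (D : DetData V I) {L : Multiset V} {m : ℕ} (hm : Multiset.card L = m)
    (h : D.U L) : D.U (L + {D.e m}) := by
  subst hm
  exact (D.e_U L).2 h

theorem fa_eQ (D : DetData V I) {L L' : Multiset V} {m : ℕ} (hm : Multiset.card L = m)
    (h : D.U L) (e : L' = L + {D.e m}) : D.Q L' = D.Q L := by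
  subst hm e
  exact D.e_Q L h

theorem fa_U (D : DetData V I) {m : ℕ} {l : List (ℕ → V)} (h : D.Gen m l) {s L : Multiset V}
    (hs : Stack l s) (e : L = s) (hm : Multiset.card s = m) : D.U L := e ▸ h.2 s hs hm

theorem c3_coc (hI : IsAlt I) (D : DetData V I) (m : ℕ) (F0 F1 F2 F3 F4 : ℕ → V)
    (h : D.Gen m [F0, F1, F2, F3, F4]) :
    D.c3 m F1 F2 F3 F4 - D.c3 m F0 F2 F3 F4 + D.c3 m F0 F1 F3 F4 - D.c3 m F0 F1 F2 F4 +
      D.c3 m F0 F1 F2 F3 = 0 := by
  let L : (Fin 5 → ℕ) → Multiset V := fun J =>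
    seg F0 (J 0) + seg F1 (J 1) + seg F2 (J 2) + seg F3 (J 3) + seg F4 (J 4)
  let t : Fin 5 → (Fin 5 → ℕ) → M :=
    ![fun J => D.σ3 (L J) (F1 (J 1)) (F2 (J 2)) (F3 (J 3)) (F4 (J 4)),
      fun J => -D.σ3 (L J) (F0 (J 0)) (F2 (J 2)) (F3 (J 3)) (F4 (J 4)),
      fun J => D.σ3 (L J) (F0 (J 0)) (F1 (J 1)) (F3 (J 3)) (F4 (J 4)),
      fun J => -D.σ3 (L J) (F0 (J 0)) (F1 (J 1)) (F2 (J 2)) (F4 (J 4)),
      fun J => D.σ3 (L J) (F0 (J 0)) (F1 (J 1)) (F2 (J 2)) (F3 (J 3))]
  have key := tel 4 3 m t (fun _ => 0) (fun _ => 0) ?_ ?_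
  · rw [Fin.sum_univ_five, Finset.sum_const_zero, Finset.sum_const_zero] at key
    have k0 : ∑ K ∈ IDX 4 3 m, t 0 (Fin.insertNth (α := fun _ => ℕ) 0 0 K) =
        D.c3 m F1 F2 F3 F4 := by
      rw [DetData.c3]
      refine Finset.sum_congr rfl fun K _ => ?_
      change D.σ3 (seg F0 0 + seg F1 (K 0) + seg F2 (K 1) + seg F3 (K 2) + seg F4 (K 3))
        (F1 (K 0)) (F2 (K 1)) (F3 (K 2)) (F4 (K 3)) = _
      rw [stk4, seg_zero, zero_add]
    have k1 : ∑ K ∈ IDX 4 3 m, t 1 (Fin.insertNth (α := fun _ => ℕ) 1 0 K) =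
        -D.c3 m F0 F2 F3 F4 := by
      rw [DetData.c3, ← Finset.sum_neg_distrib]
      refine Finset.sum_congr rfl fun K _ => ?_
      change -D.σ3 (seg F0 (K 0) + seg F1 0 + seg F2 (K 1) + seg F3 (K 2) + seg F4 (K 3))
        (F0 (K 0)) (F2 (K 1)) (F3 (K 2)) (F4 (K 3)) = _
      rw [stk4, seg_zero, add_zero]
    have k2 : ∑ K ∈ IDX 4 3 m, t 2 (Fin.insertNth (α := fun _ => ℕ) 2 0 K) =
        D.c3 m F0 F1 F3 F4 := by
      rw [DetData.c3]
      refine Finset.sum_congr rfl fun K _ => ?_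
      change D.σ3 (seg F0 (K 0) + seg F1 (K 1) + seg F2 0 + seg F3 (K 2) + seg F4 (K 3))
        (F0 (K 0)) (F1 (K 1)) (F3 (K 2)) (F4 (K 3)) = _
      rw [stk4, seg_zero, add_zero]
    have k3 : ∑ K ∈ IDX 4 3 m, t 3 (Fin.insertNth (α := fun _ => ℕ) 3 0 K) =
        -D.c3 m F0 F1 F2 F4 := by
      rw [DetData.c3, ← Finset.sum_neg_distrib]
      refine Finset.sum_congr rfl fun K _ => ?_
      change -D.σ3 (seg F0 (K 0) + seg F1 (K 1) + seg F2 (K 2) + seg F3 0 + seg F4 (K 3))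
        (F0 (K 0)) (F1 (K 1)) (F2 (K 2)) (F4 (K 3)) = _
      rw [stk4, seg_zero, add_zero]
    have k4 : ∑ K ∈ IDX 4 3 m, t 4 (Fin.insertNth (α := fun _ => ℕ) 4 0 K) =
        D.c3 m F0 F1 F2 F3 := by
      rw [DetData.c3]
      refine Finset.sum_congr rfl fun K _ => ?_
      change D.σ3 (seg F0 (K 0) + seg F1 (K 1) + seg F2 (K 2) + seg F3 (K 3) + seg F4 0)
        (F0 (K 0)) (F1 (K 1)) (F2 (K 2)) (F3 (K 3)) = _
      rw [stk4, seg_zero, add_zero]
    rw [k0, k1, k2, k3, k4] at key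
    linear_combination (norm := abel) key
  · intro J hJ
    rw [mem_IDX, Fin.sum_univ_five] at hJ
    have := σ3_rel hI D (L J) (F0 (J 0)) (F1 (J 1)) (F2 (J 2)) (F3 (J 3)) (F4 (J 4))
      (fa_U D h (stack5 F0 F1 F2 F3 F4 (J 0 + 1) (J 1 + 1) (J 2 + 1) (J 3) (J 4)) (by simp only [L, seg_succ]; abel)
            (by simp only [Multiset.card_add, card_seg]; omega))
      (fa_U D h (stack5 F0 F1 F2 F3 F4 (J 0 + 1) (J 1 + 1) (J 2) (J 3 + 1) (J 4)) (by simp only [L, seg_succ]; abel)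
            (by simp only [Multiset.card_add, card_seg]; omega))
      (fa_U D h (stack5 F0 F1 F2 F3 F4 (J 0 + 1) (J 1 + 1) (J 2) (J 3) (J 4 + 1)) (by simp only [L, seg_succ]; abel)
            (by simp only [Multiset.card_add, card_seg]; omega))
      (fa_U D h (stack5 F0 F1 F2 F3 F4 (J 0 + 1) (J 1) (J 2 + 1) (J 3 + 1) (J 4)) (by simp only [L, seg_succ]; abel)
            (by simp only [Multiset.card_add, card_seg]; omega))
      (fa_U D h (stack5 F0 F1 F2 F3 F4 (J 0 + 1) (J 1) (J 2 + 1) (J 3) (J 4 + 1)) (by simp only [L, seg_succ]; abel)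
            (by simp only [Multiset.card_add, card_seg]; omega))
      (fa_U D h (stack5 F0 F1 F2 F3 F4 (J 0 + 1) (J 1) (J 2) (J 3 + 1) (J 4 + 1)) (by simp only [L, seg_succ]; abel)
            (by simp only [Multiset.card_add, card_seg]; omega))
      (fa_U D h (stack5 F0 F1 F2 F3 F4 (J 0) (J 1 + 1) (J 2 + 1) (J 3 + 1) (J 4)) (by simp only [L, seg_succ]; abel)
            (by simp only [Multiset.card_add, card_seg]; omega))
      (fa_U D h (stack5 F0 F1 F2 F3 F4 (J 0) (J 1 + 1) (J 2 + 1) (J 3) (J 4 + 1)) (by simp only [L, seg_succ]; abel)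
            (by simp only [Multiset.card_add, card_seg]; omega))
      (fa_U D h (stack5 F0 F1 F2 F3 F4 (J 0) (J 1 + 1) (J 2) (J 3 + 1) (J 4 + 1)) (by simp only [L, seg_succ]; abel)
            (by simp only [Multiset.card_add, card_seg]; omega))
      (fa_U D h (stack5 F0 F1 F2 F3 F4 (J 0) (J 1) (J 2 + 1) (J 3 + 1) (J 4 + 1)) (by simp only [L, seg_succ]; abel)
            (by simp only [Multiset.card_add, card_seg]; omega))
    rw [Fin.sum_univ_five, add_zero, ← this]
    simp only [sub_eq_add_neg]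
    rfl
  · intro J _
    have := σ3_up hI D (L J) (F0 (J 0)) (F1 (J 1)) (F2 (J 2)) (F3 (J 3)) (F4 (J 4))
    have e0 : L (J + Pi.single 0 1) = L J + {F0 (J 0)} := by
      change seg F0 (J 0 + 1) + seg F1 (J 1 + 0) + seg F2 (J 2 + 0) + seg F3 (J 3 + 0) + seg F4 (J 4 + 0) = _
      simp only [L, seg_succ, add_zero]
      abel
    have e1 : L (J + Pi.single 1 1) = L J + {F1 (J 1)} := by
      change seg F0 (J 0 + 0) + seg F1 (J 1 + 1) + seg F2 (J 2 + 0) + seg F3 (J 3 + 0) + seg F4 (J 4 + 0) = _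
      simp only [L, seg_succ, add_zero]
      abel
    have e2 : L (J + Pi.single 2 1) = L J + {F2 (J 2)} := by
      change seg F0 (J 0 + 0) + seg F1 (J 1 + 0) + seg F2 (J 2 + 1) + seg F3 (J 3 + 0) + seg F4 (J 4 + 0) = _
      simp only [L, seg_succ, add_zero]
      abel
    have e3 : L (J + Pi.single 3 1) = L J + {F3 (J 3)} := by
      change seg F0 (J 0 + 0) + seg F1 (J 1 + 0) + seg F2 (J 2 + 0) + seg F3 (J 3 + 1) + seg F4 (J 4 + 0) = _
      simp only [L, seg_succ, add_zero]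
      abel
    have e4 : L (J + Pi.single 4 1) = L J + {F4 (J 4)} := by
      change seg F0 (J 0 + 0) + seg F1 (J 1 + 0) + seg F2 (J 2 + 0) + seg F3 (J 3 + 0) + seg F4 (J 4 + 1) = _
      simp only [L, seg_succ, add_zero]
      abel
    rw [Fin.sum_univ_five, add_zero, ← this, ← e0, ← e1, ← e2, ← e3, ← e4]
    simp only [sub_eq_add_neg]
    rfl

theorem c3_succ (hI : IsAlt I) (D : DetData V I) (m : ℕ) (F0 F1 F2 F3 : ℕ → V)
    (h : D.Gen m [F0, F1, F2, F3]) (h' : D.Gen (m + 1) [F0, F1, F2, F3]) :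
    D.c3 (m + 1) F0 F1 F2 F3 = D.c3 m F0 F1 F2 F3 -
      (D.b3 m F1 F2 F3 - D.b3 m F0 F2 F3 + D.b3 m F0 F1 F3 - D.b3 m F0 F1 F2) := by
  let L : (Fin 4 → ℕ) → Multiset V := fun J =>
    seg F0 (J 0) + seg F1 (J 1) + seg F2 (J 2) + seg F3 (J 3)
  let t : Fin 4 → (Fin 4 → ℕ) → M :=
    ![fun J => D.σ3 (L J) (F1 (J 1)) (F2 (J 2)) (F3 (J 3)) (D.e m),
      fun J => -D.σ3 (L J) (F0 (J 0)) (F2 (J 2)) (F3 (J 3)) (D.e m),
      fun J => D.σ3 (L J) (F0 (J 0)) (F1 (J 1)) (F3 (J 3)) (D.e m),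
      fun J => -D.σ3 (L J) (F0 (J 0)) (F1 (J 1)) (F2 (J 2)) (D.e m)]
  have key := tel 3 3 (m + 1) t
    (fun J => D.σ3 (L J) (F0 (J 0)) (F1 (J 1)) (F2 (J 2)) (F3 (J 3)))
    (fun J => D.σ3 (L J) (F0 (J 0)) (F1 (J 1)) (F2 (J 2)) (F3 (J 3))) ?_ ?_
  · rw [IDX_succ 3 2, IDX_succ 4 3, Fin.sum_univ_four] at key
    have k0 : ∑ K ∈ IDX 3 2 m, t 0 (Fin.insertNth (α := fun _ => ℕ) 0 0 K) =
        D.b3 m F1 F2 F3 := by
      rw [DetData.b3]
      refine Finset.sum_congr rfl fun K _ => ?_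
      change D.σ3 (seg F0 0 + seg F1 (K 0) + seg F2 (K 1) + seg F3 (K 2))
        (F1 (K 0)) (F2 (K 1)) (F3 (K 2)) (D.e m) = _
      rw [stk3, seg_zero, zero_add]
    have k1 : ∑ K ∈ IDX 3 2 m, t 1 (Fin.insertNth (α := fun _ => ℕ) 1 0 K) =
        -D.b3 m F0 F2 F3 := by
      rw [DetData.b3, ← Finset.sum_neg_distrib]
      refine Finset.sum_congr rfl fun K _ => ?_
      change -D.σ3 (seg F0 (K 0) + seg F1 0 + seg F2 (K 1) + seg F3 (K 2))
        (F0 (K 0)) (F2 (K 1)) (F3 (K 2)) (D.e m) = _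
      rw [stk3, seg_zero, add_zero]
    have k2 : ∑ K ∈ IDX 3 2 m, t 2 (Fin.insertNth (α := fun _ => ℕ) 2 0 K) =
        D.b3 m F0 F1 F3 := by
      rw [DetData.b3]
      refine Finset.sum_congr rfl fun K _ => ?_
      change D.σ3 (seg F0 (K 0) + seg F1 (K 1) + seg F2 0 + seg F3 (K 2))
        (F0 (K 0)) (F1 (K 1)) (F3 (K 2)) (D.e m) = _
      rw [stk3, seg_zero, add_zero]
    have k3 : ∑ K ∈ IDX 3 2 m, t 3 (Fin.insertNth (α := fun _ => ℕ) 3 0 K) =
        -D.b3 m F0 F1 F2 := by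
      rw [DetData.b3, ← Finset.sum_neg_distrib]
      refine Finset.sum_congr rfl fun K _ => ?_
      change -D.σ3 (seg F0 (K 0) + seg F1 (K 1) + seg F2 (K 2) + seg F3 0)
        (F0 (K 0)) (F1 (K 1)) (F2 (K 2)) (D.e m) = _
      rw [stk3, seg_zero, add_zero]
    have k : ∀ n, ∑ J ∈ IDX 4 3 n, D.σ3 (L J) (F0 (J 0)) (F1 (J 1)) (F2 (J 2)) (F3 (J 3)) =
        D.c3 n F0 F1 F2 F3 := fun n => Finset.sum_congr rfl fun J _ => by rw [stk4]
    rw [k0, k1, k2, k3, k, k] at key
    linear_combination (norm := abel) key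
  · intro J hJ
    rw [mem_IDX, Fin.sum_univ_four] at hJ
    have := σ3_rel hI D (L J) (F0 (J 0)) (F1 (J 1)) (F2 (J 2)) (F3 (J 3)) (D.e m)
      (fa_U D h' (stack4 F0 F1 F2 F3 (J 0 + 1) (J 1 + 1) (J 2 + 1) (J 3)) (by simp only [L, seg_succ]; abel)
            (by simp only [Multiset.card_add, card_seg]; omega))
      (fa_U D h' (stack4 F0 F1 F2 F3 (J 0 + 1) (J 1 + 1) (J 2) (J 3 + 1)) (by simp only [L, seg_succ]; abel)
            (by simp only [Multiset.card_add, card_seg]; omega))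
      (fa_eU D (by simp only [L, Multiset.card_add, card_seg, Multiset.card_singleton]; omega)
        (fa_U D h (stack4 F0 F1 F2 F3 (J 0 + 1) (J 1 + 1) (J 2) (J 3)) (by simp only [L, seg_succ]; abel)
            (by simp only [Multiset.card_add, card_seg]; omega)))
      (fa_U D h' (stack4 F0 F1 F2 F3 (J 0 + 1) (J 1) (J 2 + 1) (J 3 + 1)) (by simp only [L, seg_succ]; abel)
            (by simp only [Multiset.card_add, card_seg]; omega))
      (fa_eU D (by simp only [L, Multiset.card_add, card_seg, Multiset.card_singleton]; omega)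
        (fa_U D h (stack4 F0 F1 F2 F3 (J 0 + 1) (J 1) (J 2 + 1) (J 3)) (by simp only [L, seg_succ]; abel)
            (by simp only [Multiset.card_add, card_seg]; omega)))
      (fa_eU D (by simp only [L, Multiset.card_add, card_seg, Multiset.card_singleton]; omega)
        (fa_U D h (stack4 F0 F1 F2 F3 (J 0 + 1) (J 1) (J 2) (J 3 + 1)) (by simp only [L, seg_succ]; abel)
            (by simp only [Multiset.card_add, card_seg]; omega)))
      (fa_U D h' (stack4 F0 F1 F2 F3 (J 0) (J 1 + 1) (J 2 + 1) (J 3 + 1)) (by simp only [L, seg_succ]; abel)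
            (by simp only [Multiset.card_add, card_seg]; omega))
      (fa_eU D (by simp only [L, Multiset.card_add, card_seg, Multiset.card_singleton]; omega)
        (fa_U D h (stack4 F0 F1 F2 F3 (J 0) (J 1 + 1) (J 2 + 1) (J 3)) (by simp only [L, seg_succ]; abel)
            (by simp only [Multiset.card_add, card_seg]; omega)))
      (fa_eU D (by simp only [L, Multiset.card_add, card_seg, Multiset.card_singleton]; omega)
        (fa_U D h (stack4 F0 F1 F2 F3 (J 0) (J 1 + 1) (J 2) (J 3 + 1)) (by simp only [L, seg_succ]; abel)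
            (by simp only [Multiset.card_add, card_seg]; omega)))
      (fa_eU D (by simp only [L, Multiset.card_add, card_seg, Multiset.card_singleton]; omega)
        (fa_U D h (stack4 F0 F1 F2 F3 (J 0) (J 1) (J 2 + 1) (J 3 + 1)) (by simp only [L, seg_succ]; abel)
            (by simp only [Multiset.card_add, card_seg]; omega)))
    rw [Fin.sum_univ_four, ← this]
    simp only [sub_eq_add_neg]
    rfl
  · intro J hJ
    rw [mem_IDX, Fin.sum_univ_four] at hJ
    have := σ3_up hI D (L J) (F0 (J 0)) (F1 (J 1)) (F2 (J 2)) (F3 (J 3)) (D.e m)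
    have e0 : L (J + Pi.single 0 1) = L J + {F0 (J 0)} := by
      change seg F0 (J 0 + 1) + seg F1 (J 1 + 0) + seg F2 (J 2 + 0) + seg F3 (J 3 + 0) = _
      simp only [L, seg_succ, add_zero]
      abel
    have e1 : L (J + Pi.single 1 1) = L J + {F1 (J 1)} := by
      change seg F0 (J 0 + 0) + seg F1 (J 1 + 1) + seg F2 (J 2 + 0) + seg F3 (J 3 + 0) = _
      simp only [L, seg_succ, add_zero]
      abel
    have e2 : L (J + Pi.single 2 1) = L J + {F2 (J 2)} := by
      change seg F0 (J 0 + 0) + seg F1 (J 1 + 0) + seg F2 (J 2 + 1) + seg F3 (J 3 + 0) = _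
      simp only [L, seg_succ, add_zero]
      abel
    have e3 : L (J + Pi.single 3 1) = L J + {F3 (J 3)} := by
      change seg F0 (J 0 + 0) + seg F1 (J 1 + 0) + seg F2 (J 2 + 0) + seg F3 (J 3 + 1) = _
      simp only [L, seg_succ, add_zero]
      abel
    have e4 : D.σ3 (L J + {D.e m}) (F0 (J 0)) (F1 (J 1)) (F2 (J 2)) (F3 (J 3)) =
        D.σ3 (L J) (F0 (J 0)) (F1 (J 1)) (F2 (J 2)) (F3 (J 3)) := by
      unfold DetData.σ3
      congr 1
      · exact fa_eQ D (m := m)
          (by simp only [L, Multiset.card_add, card_seg, Multiset.card_singleton]; omega)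
          (fa_U D h (stack4 F0 F1 F2 F3 (J 0) (J 1 + 1) (J 2 + 1) (J 3 + 1)) (by simp only [L, seg_succ]; abel)
            (by simp only [Multiset.card_add, card_seg]; omega)) (by abel)
      · exact fa_eQ D (m := m)
          (by simp only [L, Multiset.card_add, card_seg, Multiset.card_singleton]; omega)
          (fa_U D h (stack4 F0 F1 F2 F3 (J 0 + 1) (J 1) (J 2 + 1) (J 3 + 1)) (by simp only [L, seg_succ]; abel)
            (by simp only [Multiset.card_add, card_seg]; omega)) (by abel)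
      · exact fa_eQ D (m := m)
          (by simp only [L, Multiset.card_add, card_seg, Multiset.card_singleton]; omega)
          (fa_U D h (stack4 F0 F1 F2 F3 (J 0 + 1) (J 1 + 1) (J 2) (J 3 + 1)) (by simp only [L, seg_succ]; abel)
            (by simp only [Multiset.card_add, card_seg]; omega)) (by abel)
      · exact fa_eQ D (m := m)
          (by simp only [L, Multiset.card_add, card_seg, Multiset.card_singleton]; omega)
          (fa_U D h (stack4 F0 F1 F2 F3 (J 0 + 1) (J 1 + 1) (J 2 + 1) (J 3)) (by simp only [L, seg_succ]; abel)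
            (by simp only [Multiset.card_add, card_seg]; omega)) (by abel)
    rw [Fin.sum_univ_four, ← this, ← e0, ← e1, ← e2, ← e3, e4]
    simp only [sub_eq_add_neg]
    rfl

theorem c2_succ (hI : IsAlt I) (D : DetData V I) (s : W) (m : ℕ) (F0 F1 F2 : ℕ → V)
    (h : D.Gen m [F0, F1, F2]) (h' : D.Gen (m + 1) [F0, F1, F2]) :
    D.c2 s (m + 1) F0 F1 F2 = D.c2 s m F0 F1 F2 +
      (D.b2 s m F1 F2 - D.b2 s m F0 F2 + D.b2 s m F0 F1) := by
  let L : (Fin 3 → ℕ) → Multiset V := fun J =>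
    seg F0 (J 0) + seg F1 (J 1) + seg F2 (J 2)
  let t : Fin 3 → (Fin 3 → ℕ) → M :=
    ![fun J => D.σ2 s (L J) (F1 (J 1)) (F2 (J 2)) (D.e m),
      fun J => -D.σ2 s (L J) (F0 (J 0)) (F2 (J 2)) (D.e m),
      fun J => D.σ2 s (L J) (F0 (J 0)) (F1 (J 1)) (D.e m)]
  have key := tel 2 2 (m + 1) t
    (fun J => -D.σ2 s (L J) (F0 (J 0)) (F1 (J 1)) (F2 (J 2)))
    (fun J => -D.σ2 s (L J) (F0 (J 0)) (F1 (J 1)) (F2 (J 2))) ?_ ?_
  · rw [IDX_succ 2 1, IDX_succ 3 2, Fin.sum_univ_three, Finset.sum_neg_distrib,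
      Finset.sum_neg_distrib] at key
    have k0 : ∑ K ∈ IDX 2 1 m, t 0 (Fin.insertNth (α := fun _ => ℕ) 0 0 K) =
        D.b2 s m F1 F2 := by
      rw [DetData.b2]
      refine Finset.sum_congr rfl fun K _ => ?_
      change D.σ2 s (seg F0 0 + seg F1 (K 0) + seg F2 (K 1))
        (F1 (K 0)) (F2 (K 1)) (D.e m) = _
      rw [stk2, seg_zero, zero_add]
    have k1 : ∑ K ∈ IDX 2 1 m, t 1 (Fin.insertNth (α := fun _ => ℕ) 1 0 K) =
        -D.b2 s m F0 F2 := by
      rw [DetData.b2, ← Finset.sum_neg_distrib]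
      refine Finset.sum_congr rfl fun K _ => ?_
      change -D.σ2 s (seg F0 (K 0) + seg F1 0 + seg F2 (K 1))
        (F0 (K 0)) (F2 (K 1)) (D.e m) = _
      rw [stk2, seg_zero, add_zero]
    have k2 : ∑ K ∈ IDX 2 1 m, t 2 (Fin.insertNth (α := fun _ => ℕ) 2 0 K) =
        D.b2 s m F0 F1 := by
      rw [DetData.b2]
      refine Finset.sum_congr rfl fun K _ => ?_
      change D.σ2 s (seg F0 (K 0) + seg F1 (K 1) + seg F2 0)
        (F0 (K 0)) (F1 (K 1)) (D.e m) = _
      rw [stk2, seg_zero, add_zero]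
    have k : ∀ n, ∑ J ∈ IDX 3 2 n, D.σ2 s (L J) (F0 (J 0)) (F1 (J 1)) (F2 (J 2)) =
        D.c2 s n F0 F1 F2 := fun n => Finset.sum_congr rfl fun J _ => by rw [stk3]
    rw [k0, k1, k2, k, k] at key
    linear_combination (norm := abel) -key
  · intro J hJ
    rw [mem_IDX, Fin.sum_univ_three] at hJ
    have := σ2_rel hI D s (L J) (F0 (J 0)) (F1 (J 1)) (F2 (J 2)) (D.e m)
      (fa_U D h' (stack3 F0 F1 F2 (J 0 + 1) (J 1 + 1) (J 2)) (by simp only [L, seg_succ]; abel)
            (by simp only [Multiset.card_add, card_seg]; omega))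
      (fa_U D h' (stack3 F0 F1 F2 (J 0 + 1) (J 1) (J 2 + 1)) (by simp only [L, seg_succ]; abel)
            (by simp only [Multiset.card_add, card_seg]; omega))
      (fa_eU D (by simp only [L, Multiset.card_add, card_seg, Multiset.card_singleton]; omega)
        (fa_U D h (stack3 F0 F1 F2 (J 0 + 1) (J 1) (J 2)) (by simp only [L, seg_succ]; abel)
            (by simp only [Multiset.card_add, card_seg]; omega)))
      (fa_U D h' (stack3 F0 F1 F2 (J 0) (J 1 + 1) (J 2 + 1)) (by simp only [L, seg_succ]; abel)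
            (by simp only [Multiset.card_add, card_seg]; omega))
      (fa_eU D (by simp only [L, Multiset.card_add, card_seg, Multiset.card_singleton]; omega)
        (fa_U D h (stack3 F0 F1 F2 (J 0) (J 1 + 1) (J 2)) (by simp only [L, seg_succ]; abel)
            (by simp only [Multiset.card_add, card_seg]; omega)))
      (fa_eU D (by simp only [L, Multiset.card_add, card_seg, Multiset.card_singleton]; omega)
        (fa_U D h (stack3 F0 F1 F2 (J 0) (J 1) (J 2 + 1)) (by simp only [L, seg_succ]; abel)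
            (by simp only [Multiset.card_add, card_seg]; omega)))
    rw [Fin.sum_univ_three, ← this]
    simp only [sub_eq_add_neg]
    rfl
  · intro J hJ
    rw [mem_IDX, Fin.sum_univ_three] at hJ
    have := σ2_up hI D s (L J) (F0 (J 0)) (F1 (J 1)) (F2 (J 2)) (D.e m)
    have e0 : L (J + Pi.single 0 1) = L J + {F0 (J 0)} := by
      change seg F0 (J 0 + 1) + seg F1 (J 1 + 0) + seg F2 (J 2 + 0) = _
      simp only [L, seg_succ, add_zero]
      abel
    have e1 : L (J + Pi.single 1 1) = L J + {F1 (J 1)} := by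
      change seg F0 (J 0 + 0) + seg F1 (J 1 + 1) + seg F2 (J 2 + 0) = _
      simp only [L, seg_succ, add_zero]
      abel
    have e2 : L (J + Pi.single 2 1) = L J + {F2 (J 2)} := by
      change seg F0 (J 0 + 0) + seg F1 (J 1 + 0) + seg F2 (J 2 + 1) = _
      simp only [L, seg_succ, add_zero]
      abel
    have e3 : D.σ2 s (L J + {D.e m}) (F0 (J 0)) (F1 (J 1)) (F2 (J 2)) =
        D.σ2 s (L J) (F0 (J 0)) (F1 (J 1)) (F2 (J 2)) := by
      unfold DetData.σ2
      congr 1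
      · exact fa_eQ D (m := m)
          (by simp only [L, Multiset.card_add, card_seg, Multiset.card_singleton]; omega)
          (fa_U D h (stack3 F0 F1 F2 (J 0) (J 1 + 1) (J 2 + 1)) (by simp only [L, seg_succ]; abel)
            (by simp only [Multiset.card_add, card_seg]; omega)) (by abel)
      · exact fa_eQ D (m := m)
          (by simp only [L, Multiset.card_add, card_seg, Multiset.card_singleton]; omega)
          (fa_U D h (stack3 F0 F1 F2 (J 0 + 1) (J 1) (J 2 + 1)) (by simp only [L, seg_succ]; abel)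
            (by simp only [Multiset.card_add, card_seg]; omega)) (by abel)
      · exact fa_eQ D (m := m)
          (by simp only [L, Multiset.card_add, card_seg, Multiset.card_singleton]; omega)
          (fa_U D h (stack3 F0 F1 F2 (J 0 + 1) (J 1 + 1) (J 2)) (by simp only [L, seg_succ]; abel)
            (by simp only [Multiset.card_add, card_seg]; omega)) (by abel)
    rw [Fin.sum_univ_three, ← this, ← e0, ← e1, ← e2, e3]
    simp only [sub_eq_add_neg]
    rfl

end Crest.Agent.R171
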