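import Crest.Agent.R171.Conj

/-! Task LIFT: Steinberg systems lift to central extensions (Milnor, Thm 5.10).
For `g h : G` let `⟦g,h⟧ := ⁅g~, h~⁆ ∈ E` for chosen lifts (independent of the lifts as `ker p` is central).
Step 1: `j ≠ k, i ≠ l ⇒ ⟦x i j a, x k l b⟧ = 1`: take `n ∉ {i,j,k,l}`, lifts `y,u,v` of `x i j a, x k n b, x n l 1`;
`[y,u],[y,v]` are central, hence `y` commutes with `[u,v]`, which lifts `x k l b`.
Step 2: distinct `h i j k`; `u,v,w` lifts of `x h i 1, x i j a, x j k b`; `[u,w] = 1`, `[u,v]` commutes with `u,v`,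
`[v,w]` with `v,w`, `[u,v]` with `[v,w]` (step 1), whence `[[u,v],w] = [u,[v,w]]`, i.e.
`⟦x h j a, x j k b⟧ = ⟦x h i 1, x i k (a b)⟧`.  With `a = 1`: `s h k b := ⟦x h i 1, x i k b⟧` does not depend on `i`,
and `[s h j a, s j k b] = s h k (a b)`.
Step 3: additivity from `[u, v w] = [u,v] * v [u,w] v⁻¹` with `u,v,w` lifts of `x h j 1, x j k a, x j k b` and step 1. -/

set_option autoImplicit false

namespace Crest.Agent.R171

open scoped commutatorElement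

section LiftAux
variable {G E : Type} [Group G] [Group E]

theorem lift_comm_congr_left (p : E →* G) (hc : ∀ e, p e = 1 → ∀ e', Commute e e')
    {u u' : E} (v : E) (h : p u = p u') : ⁅u, v⁆ = ⁅u', v⁆ := by
  have hz : p (u'⁻¹ * u) = 1 := by rw [map_mul, map_inv, h, inv_mul_cancel]
  have hu : u = u' * (u'⁻¹ * u) := by group
  have h1 := (hc _ hz v).eq
  generalize u'⁻¹ * u = z at hu h1
  subst hu
  simp only [commutatorElement_def, mul_inv_rev]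
  calc u' * z * v * (z⁻¹ * u'⁻¹) * v⁻¹ = u' * (z * v) * z⁻¹ * u'⁻¹ * v⁻¹ := by group
    _ = u' * (v * z) * z⁻¹ * u'⁻¹ * v⁻¹ := by rw [h1]
    _ = u' * v * u'⁻¹ * v⁻¹ := by group

theorem lift_comm_congr (p : E →* G) (hc : ∀ e, p e = 1 → ∀ e', Commute e e')
    {u u' v v' : E} (h : p u = p u') (h' : p v = p v') : ⁅u, v⁆ = ⁅u', v'⁆ := by
  rw [lift_comm_congr_left p hc v h, ← commutatorElement_inv v u', ← commutatorElement_inv v' u',
    lift_comm_congr_left p hc u' h']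

theorem lift_jacobi {u v w : E} (huw : Commute u w) (hAB : Commute ⁅u, v⁆ ⁅v, w⁆)
    (hXB : Commute ⁅u, ⁅v, w⁆⁆ ⁅v, w⁆) : ⁅⁅u, v⁆, w⁆ = ⁅u, ⁅v, w⁆⁆ := by
  set A := ⁅u, v⁆ with hA
  set B := ⁅v, w⁆ with hB
  set X := ⁅u, B⁆ with hX
  set Y := ⁅A, w⁆ with hY
  have e1 : u * v * u⁻¹ = A * v := by rw [hA, commutatorElement_def]; group
  have e2 : w * v * w⁻¹ = B⁻¹ * v := by rw [hB, commutatorElement_def]; group
  have e3 : u * B⁻¹ * u⁻¹ = B⁻¹ * X⁻¹ := by rw [hX, commutatorElement_def]; group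
  have e4 : w * A * w⁻¹ = Y⁻¹ * A := by rw [hY, commutatorElement_def]; group
  have e5 : u * (w * v * w⁻¹) * u⁻¹ = w * (u * v * u⁻¹) * w⁻¹ := by
    have h1 := huw.eq
    have h2 : w⁻¹ * u⁻¹ = u⁻¹ * w⁻¹ := by rw [← mul_inv_rev, ← mul_inv_rev, h1]
    calc u * (w * v * w⁻¹) * u⁻¹ = (u * w) * v * (w⁻¹ * u⁻¹) := by group
      _ = (w * u) * v * (u⁻¹ * w⁻¹) := by rw [h1, h2]
      _ = _ := by group
  have e6 : B⁻¹ * X⁻¹ * (A * v) = Y⁻¹ * A * (B⁻¹ * v) := by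
    calc B⁻¹ * X⁻¹ * (A * v) = (u * B⁻¹ * u⁻¹) * (u * v * u⁻¹) := by rw [e3, e1]
      _ = u * (B⁻¹ * v) * u⁻¹ := by group
      _ = w * (A * v) * w⁻¹ := by rw [← e2, e5, e1]
      _ = (w * A * w⁻¹) * (w * v * w⁻¹) := by group
      _ = _ := by rw [e4, e2]
  have e7 : B⁻¹ * X⁻¹ = X⁻¹ * B⁻¹ := (hXB.inv_inv.eq).symm
  have e8 : A * B⁻¹ = B⁻¹ * A := hAB.inv_right.eq
  have e9 : X⁻¹ * (B⁻¹ * A * v) = Y⁻¹ * (B⁻¹ * A * v) := by
    calc X⁻¹ * (B⁻¹ * A * v) = (X⁻¹ * B⁻¹) * (A * v) := by group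
      _ = Y⁻¹ * A * (B⁻¹ * v) := by rw [← e7, e6]
      _ = Y⁻¹ * ((A * B⁻¹) * v) := by group
      _ = _ := by rw [e8]
  exact (inv_injective (mul_right_cancel e9)).symm

variable {ι R : Type} [CommRing R]

theorem SS.lift_comm_p (S : SS ι R G) (p : E →* G) {i j l : ι} (hij : i ≠ j) (hjl : j ≠ l)
    (hil : i ≠ l) {a b : R} {u v : E} (hu : p u = S.x i j a) (hv : p v = S.x j l b) :
    p ⁅u, v⁆ = S.x i l (a * b) := by
  rw [map_commutatorElement, hu, hv, commutatorElement_def, S.mul hij hjl hil]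

theorem SS.lift_commute (S : SS ι R G) (H5 : ∀ a b c d : ι, ∃ e, e ≠ a ∧ e ≠ b ∧ e ≠ c ∧ e ≠ d)
    (p : E →* G) (hs : Function.Surjective p) (hc : ∀ e, p e = 1 → ∀ e', Commute e e')
    {i j k l : ι} (hij : i ≠ j) (hkl : k ≠ l) (hjk : j ≠ k) (hil : i ≠ l) {a b : R} {y t : E}
    (hy : p y = S.x i j a) (ht : p t = S.x k l b) : Commute y t := by
  obtain ⟨n, hni, hnj, hnk, hnl⟩ := H5 i j k l
  obtain ⟨u, hu⟩ := hs (S.x k n b)
  obtain ⟨v, hv⟩ := hs (S.x n l 1)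
  have h1 : p (y * u * y⁻¹) = p u := by
    rw [map_mul, map_mul, map_inv, hy, hu, (S.comm hij hnk.symm hjk hni.symm a b).eq]
    group
  have h2 : p (y * v * y⁻¹) = p v := by
    rw [map_mul, map_mul, map_inv, hy, hv, (S.comm hij hnl hnj.symm hil a 1).eq]
    group
  have h3 : y * ⁅u, v⁆ * y⁻¹ = ⁅u, v⁆ := by
    rw [conjugate_commutatorElement]
    exact lift_comm_congr p hc h1 h2
  have h4 : p ⁅u, v⁆ = p t := by
    rw [S.lift_comm_p p hnk.symm hnl hkl hu hv, ht, mul_one]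
  have h5 : ⁅y, ⁅u, v⁆⁆ = 1 := by
    rw [commutatorElement_def, h3, mul_inv_cancel]
  rw [lift_comm_congr p hc rfl h4] at h5
  exact commutatorElement_eq_one_iff_commute.mp h5

theorem SS.lift_assoc (S : SS ι R G) (H5 : ∀ a b c d : ι, ∃ e, e ≠ a ∧ e ≠ b ∧ e ≠ c ∧ e ≠ d)
    (p : E →* G) (hs : Function.Surjective p) (hc : ∀ e, p e = 1 → ∀ e', Commute e e')
    {h i j k : ι} (hhi : h ≠ i) (hhj : h ≠ j) (hhk : h ≠ k) (hij : i ≠ j) (hik : i ≠ k)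
    (hjk : j ≠ k) {a b : R} {u1 v1 u2 v2 : E}
    (hu1 : p u1 = S.x h j a) (hv1 : p v1 = S.x j k b)
    (hu2 : p u2 = S.x h i 1) (hv2 : p v2 = S.x i k (a * b)) : ⁅u1, v1⁆ = ⁅u2, v2⁆ := by
  obtain ⟨v, hv⟩ := hs (S.x i j a)
  have hA : p ⁅u2, v⁆ = S.x h j a := by rw [S.lift_comm_p p hhi hij hhj hu2 hv, one_mul]
  have hB : p ⁅v, v1⁆ = S.x i k (a * b) := S.lift_comm_p p hij hjk hik hv hv1
  have hX : p ⁅u2, ⁅v, v1⁆⁆ = S.x h k (1 * (a * b)) := S.lift_comm_p p hhi hik hhk hu2 hB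
  have := lift_jacobi (u := u2) (v := v) (w := v1)
    (S.lift_commute H5 p hs hc hhi hjk hij hhk hu2 hv1)
    (S.lift_commute H5 p hs hc hhj hik hij.symm hhk hA hB)
    (S.lift_commute H5 p hs hc hhk hik hik.symm hhk hX hB)
  rw [lift_comm_congr p hc (hu1.trans hA.symm) rfl, this]
  exact lift_comm_congr p hc rfl (hB.trans hv2.symm)

end LiftAux

theorem SS.exists_lift {ι R G E : Type} [DecidableEq ι] [CommRing R] [Group G] [Group E]
    (S : SS ι R G) (H5 : ∀ a b c d : ι, ∃ e, e ≠ a ∧ e ≠ b ∧ e ≠ c ∧ e ≠ d)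
    (p : E →* G) (hs : Function.Surjective p) (hc : ∀ e, p e = 1 → ∀ e', Commute e e') :
    ∃ S' : SS ι R E, ∀ i j, i ≠ j → ∀ r, p (S'.x i j r) = S.x i j r := by
  choose L hL using hs
  choose n hn using H5
  have hs : Function.Surjective p := fun g => ⟨L g, hL g⟩
  have H5 : ∀ a b c d : ι, ∃ e, e ≠ a ∧ e ≠ b ∧ e ≠ c ∧ e ≠ d := fun a b c d => ⟨_, hn a b c d⟩
  let s : ι → ι → R → E := fun h k b =>
    ⁅L (S.x h (n h k h k) 1), L (S.x (n h k h k) k b)⁆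
  have hps : ∀ h k, h ≠ k → ∀ b, p (s h k b) = S.x h k b := by
    intro h k hhk b
    have := S.lift_comm_p p (hn h k h k).1.symm (hn h k h k).2.1 hhk (hL (S.x h (n h k h k) 1))
      (hL (S.x (n h k h k) k b))
    rwa [one_mul] at this
  have key : ∀ h j k, h ≠ j → j ≠ k → h ≠ k → ∀ (a b : R) (u v : E), p u = S.x h j a →
      p v = S.x j k b → ⁅u, v⁆ = s h k (a * b) := by
    intro h j k hhj hjk hhk a b u v hu hv
    obtain ⟨i, hih, hij, hik, him⟩ := H5 h j k (n h k h k)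
    rw [S.lift_assoc H5 p hs hc hih.symm hhj hhk hij hik hjk hu hv (hL _) (hL _)]
    refine (S.lift_assoc H5 p hs hc hih.symm (hn h k h k).1.symm hhk him hik (hn h k h k).2.1
      (hL _) (hL _) (hL _) ?_).symm
    rw [one_mul, hL]
  refine ⟨⟨s, ?_, ?_, ?_⟩, hps⟩
  · intro h k hhk a b
    obtain ⟨j, hjh, hjk, -, -⟩ := H5 h k h k
    obtain ⟨u, hu⟩ := hs (S.x h j 1)
    obtain ⟨v, hv⟩ := hs (S.x j k a)
    obtain ⟨w, hw⟩ := hs (S.x j k b)
    have hvw : p (v * w) = S.x j k (a + b) := by rw [map_mul, hv, hw, S.add hjk]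
    have e1 := key h j k hjh.symm hjk hhk 1 a u v hu hv
    have e2 := key h j k hjh.symm hjk hhk 1 b u w hu hw
    have e3 := key h j k hjh.symm hjk hhk 1 (a + b) u (v * w) hu hvw
    rw [one_mul] at e1 e2 e3
    have hcm : Commute ⁅u, w⁆ v := by
      rw [e2]
      exact S.lift_commute H5 p hs hc hhk hjk hjk.symm hhk (hps h k hhk b) hv
    rw [← e1, ← e2, ← e3]
    calc ⁅u, v⁆ * ⁅u, w⁆ = ⁅u, v⁆ * (⁅u, w⁆ * v) * v⁻¹ := by group
      _ = ⁅u, v⁆ * (v * ⁅u, w⁆) * v⁻¹ := by rw [hcm.eq]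
      _ = ⁅u, v * w⁆ := by simp only [commutatorElement_def]; group
  · intro i j k l hij hkl hjk hil a b
    exact S.lift_commute H5 p hs hc hij hkl hjk hil (hps i j hij a) (hps k l hkl b)
  · intro i j l hij hjl hil a b
    exact key i j l hij hjl hil a b _ _ (hps i j hij a) (hps j l hjl b)

end Crest.Agent.R171
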