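import Crest.Agent.R171.Defs

/-! Formal identities for alternating trilinear forms. -/

set_option autoImplicit false
set_option linter.unusedSimpArgs false

namespace Crest.Agent.R171

open Finset

variable {V W M : Type} [AddCommGroup W] [AddCommGroup M] {I : W →+ W →+ W →+ M}

theorem IsAlt.s12 (hI : IsAlt I) (a b c : W) : I b a c = - I a b c := by
  have h := hI.alt12 (a + b) c
  simp only [map_add, AddMonoidHom.add_apply, hI.alt12, zero_add, add_zero] at h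
  exact eq_neg_of_add_eq_zero_left h

theorem IsAlt.s23 (hI : IsAlt I) (b c a : W) : I a c b = - I a b c := by
  have h := hI.alt23 a (b + c)
  simp only [map_add, AddMonoidHom.add_apply, hI.alt23, zero_add, add_zero] at h
  exact eq_neg_of_add_eq_zero_left h

theorem T3_rel (hI : IsAlt I) (d0 d1 d2 d3 d4 : W) :
    T3 I d1 d2 d3 d4 - T3 I d0 d2 d3 d4 + T3 I d0 d1 d3 d4 - T3 I d0 d1 d2 d4 +
      T3 I d0 d1 d2 d3 = 0 := by
  unfold T3
  simp only [map_add, map_sub, map_neg, AddMonoidHom.add_apply, AddMonoidHom.sub_apply, AddMonoidHom.neg_apply, hI.alt12, hI.alt23, neg_zero, neg_neg,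
    hI.s12 d0 d1, hI.s23 d0 d1, hI.s12 d0 d2, hI.s23 d0 d2, hI.s12 d0 d3, hI.s23 d0 d3, hI.s12 d0 d4, hI.s23 d0 d4, hI.s12 d1 d2, hI.s23 d1 d2, hI.s12 d1 d3, hI.s23 d1 d3, hI.s12 d1 d4, hI.s23 d1 d4, hI.s12 d2 d3, hI.s23 d2 d3, hI.s12 d2 d4, hI.s23 d2 d4, hI.s12 d3 d4, hI.s23 d3 d4]
  abel

theorem T2_rel (hI : IsAlt I) (s d0 d1 d2 d3 : W) :
    T2 I s d1 d2 d3 - T2 I s d0 d2 d3 + T2 I s d0 d1 d3 - T2 I s d0 d1 d2 = 0 := by
  unfold T2
  simp only [map_add, map_sub, map_neg, AddMonoidHom.add_apply, AddMonoidHom.sub_apply, AddMonoidHom.neg_apply, hI.alt12, hI.alt23, neg_zero, neg_neg,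
    hI.s12 s d0, hI.s23 s d0, hI.s12 s d1, hI.s23 s d1, hI.s12 s d2, hI.s23 s d2, hI.s12 s d3, hI.s23 s d3, hI.s12 d0 d1, hI.s23 d0 d1, hI.s12 d0 d2, hI.s23 d0 d2, hI.s12 d0 d3, hI.s23 d0 d3, hI.s12 d1 d2, hI.s23 d1 d2, hI.s12 d1 d3, hI.s23 d1 d3, hI.s12 d2 d3, hI.s23 d2 d3]
  abel

theorem T3_shift (hI : IsAlt I) (d0 d1 d2 d3 τ χ : W) :
    T3 I (d0 + τ) (d1 + τ) (d2 + τ) (d3 + (τ + χ)) = T3 I d0 d1 d2 d3 - T2 I χ d0 d1 d2 := by
  unfold T3 T2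
  rw [show d0 + τ - (d3 + (τ + χ)) = d0 - d3 - χ by abel, show d1 + τ - (d3 + (τ + χ)) = d1 - d3 - χ by abel,
    show d2 + τ - (d3 + (τ + χ)) = d2 - d3 - χ by abel]
  simp only [map_add, map_sub, map_neg, AddMonoidHom.add_apply, AddMonoidHom.sub_apply, AddMonoidHom.neg_apply, hI.alt12, hI.alt23, neg_zero, neg_neg,
    hI.s12 χ d0, hI.s23 χ d0, hI.s12 χ d1, hI.s23 χ d1, hI.s12 χ d2, hI.s23 χ d2, hI.s12 χ d3, hI.s23 χ d3, hI.s12 d0 d1, hI.s23 d0 d1, hI.s12 d0 d2, hI.s23 d0 d2, hI.s12 d0 d3, hI.s23 d0 d3, hI.s12 d1 d2, hI.s23 d1 d2, hI.s12 d1 d3, hI.s23 d1 d3, hI.s12 d2 d3, hI.s23 d2 d3]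
  abel

theorem T2_shift (hI : IsAlt I) (s d0 d1 d2 τ χ : W) :
    T2 I s (d0 + τ) (d1 + τ) (d2 + (τ + χ)) = T2 I s d0 d1 d2 + I s χ (d0 - d1) := by
  unfold T2
  rw [show d0 + τ - (d2 + (τ + χ)) = d0 - d2 - χ by abel, show d1 + τ - (d2 + (τ + χ)) = d1 - d2 - χ by abel]
  simp only [map_add, map_sub, map_neg, AddMonoidHom.add_apply, AddMonoidHom.sub_apply, AddMonoidHom.neg_apply, hI.alt12, hI.alt23, neg_zero, neg_neg,
    hI.s12 s χ, hI.s23 s χ, hI.s12 s d0, hI.s23 s d0, hI.s12 s d1, hI.s23 s d1, hI.s12 s d2, hI.s23 s d2, hI.s12 χ d0, hI.s23 χ d0, hI.s12 χ d1, hI.s23 χ d1, hI.s12 χ d2, hI.s23 χ d2, hI.s12 d0 d1, hI.s23 d0 d1, hI.s12 d0 d2, hI.s23 d0 d2, hI.s12 d1 d2, hI.s23 d1 d2]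
  abel

set_option maxHeartbeats 1600000 in
theorem σ3_rel (hI : IsAlt I) (D : DetData V I) (L : Multiset V) (w0 w1 w2 w3 w4 : V)
    (h012 : D.U (L + {w0} + {w1} + {w2})) (h013 : D.U (L + {w0} + {w1} + {w3}))
    (h014 : D.U (L + {w0} + {w1} + {w4})) (h023 : D.U (L + {w0} + {w2} + {w3}))
    (h024 : D.U (L + {w0} + {w2} + {w4})) (h034 : D.U (L + {w0} + {w3} + {w4}))
    (h123 : D.U (L + {w1} + {w2} + {w3})) (h124 : D.U (L + {w1} + {w2} + {w4}))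
    (h134 : D.U (L + {w1} + {w3} + {w4})) (h234 : D.U (L + {w2} + {w3} + {w4})) :
    D.σ3 L w1 w2 w3 w4 - D.σ3 L w0 w2 w3 w4 + D.σ3 L w0 w1 w3 w4 - D.σ3 L w0 w1 w2 w4 +
      D.σ3 L w0 w1 w2 w3 = 0 := by
  have S0 := fun w => D.pl (L + {w0}) w1 w2 w3 w4 w h012 h013 h014 h023 h024 h034
  have e102 : L + {w1} + {w0} + {w2} = L + {w0} + {w1} + {w2} := by abel
  have e103 : L + {w1} + {w0} + {w3} = L + {w0} + {w1} + {w3} := by abel
  have e104 : L + {w1} + {w0} + {w4} = L + {w0} + {w1} + {w4} := by abel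
  have S1 := fun w => D.pl (L + {w1}) w0 w2 w3 w4 w (e102 ▸ h012) (e103 ▸ h013) (e104 ▸ h014) h123 h124 h134
  rw [e102, e103, e104] at S1
  have e201 : L + {w2} + {w0} + {w1} = L + {w0} + {w1} + {w2} := by abel
  have e203 : L + {w2} + {w0} + {w3} = L + {w0} + {w2} + {w3} := by abel
  have e204 : L + {w2} + {w0} + {w4} = L + {w0} + {w2} + {w4} := by abel
  have e213 : L + {w2} + {w1} + {w3} = L + {w1} + {w2} + {w3} := by abel
  have e214 : L + {w2} + {w1} + {w4} = L + {w1} + {w2} + {w4} := by abel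
  have S2 := fun w => D.pl (L + {w2}) w0 w1 w3 w4 w (e201 ▸ h012) (e203 ▸ h023) (e204 ▸ h024) (e213 ▸ h123) (e214 ▸ h124) h234
  rw [e201, e203, e204, e213, e214] at S2
  have e301 : L + {w3} + {w0} + {w1} = L + {w0} + {w1} + {w3} := by abel
  have e302 : L + {w3} + {w0} + {w2} = L + {w0} + {w2} + {w3} := by abel
  have e304 : L + {w3} + {w0} + {w4} = L + {w0} + {w3} + {w4} := by abel
  have e312 : L + {w3} + {w1} + {w2} = L + {w1} + {w2} + {w3} := by abel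
  have e314 : L + {w3} + {w1} + {w4} = L + {w1} + {w3} + {w4} := by abel
  have e324 : L + {w3} + {w2} + {w4} = L + {w2} + {w3} + {w4} := by abel
  have S3 := fun w => D.pl (L + {w3}) w0 w1 w2 w4 w (e301 ▸ h013) (e302 ▸ h023) (e304 ▸ h034) (e312 ▸ h123) (e314 ▸ h134) (e324 ▸ h234)
  rw [e301, e302, e304, e312, e314, e324] at S3
  unfold DetData.σ3 T3
  generalize D.Q (L + {w0} + {w1} + {w2}) = p012 at *
  generalize D.Q (L + {w0} + {w1} + {w3}) = p013 at *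
  generalize D.Q (L + {w0} + {w1} + {w4}) = p014 at *
  generalize D.Q (L + {w0} + {w2} + {w3}) = p023 at *
  generalize D.Q (L + {w0} + {w2} + {w4}) = p024 at *
  generalize D.Q (L + {w0} + {w3} + {w4}) = p034 at *
  generalize D.Q (L + {w1} + {w2} + {w3}) = p123 at *
  generalize D.Q (L + {w1} + {w2} + {w4}) = p124 at *
  generalize D.Q (L + {w1} + {w3} + {w4}) = p134 at *
  generalize D.Q (L + {w2} + {w3} + {w4}) = p234 at *
  have key := congrArg₂ (· + ·) (congrArg₂ (· + ·) (S0 (p234 - p023)) (S1 (p123 - p234))) (congrArg₂ (· + ·) (S2 (p014 - p012)) (S3 (p013 - p014)))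
  simp only [add_zero] at key
  rw [← key]
  simp only [map_add, map_sub, map_neg, AddMonoidHom.add_apply, AddMonoidHom.sub_apply, AddMonoidHom.neg_apply, hI.alt12, hI.alt23, neg_zero, neg_neg,
    hI.s12 p012 p013, hI.s23 p012 p013, hI.s12 p012 p014, hI.s23 p012 p014, hI.s12 p012 p023, hI.s23 p012 p023, hI.s12 p012 p024, hI.s23 p012 p024, hI.s12 p012 p034, hI.s23 p012 p034, hI.s12 p012 p123, hI.s23 p012 p123, hI.s12 p012 p124, hI.s23 p012 p124, hI.s12 p012 p134, hI.s23 p012 p134, hI.s12 p012 p234, hI.s23 p012 p234, hI.s12 p013 p014, hI.s23 p013 p014, hI.s12 p013 p023, hI.s23 p013 p023, hI.s12 p013 p024, hI.s23 p013 p024, hI.s12 p013 p034, hI.s23 p013 p034, hI.s12 p013 p123, hI.s23 p013 p123, hI.s12 p013 p124, hI.s23 p013 p124, hI.s12 p013 p134, hI.s23 p013 p134, hI.s12 p013 p234, hI.s23 p013 p234, hI.s12 p014 p023, hI.s23 p014 p023, hI.s12 p014 p024, hI.s23 p014 p024, hI.s12 p014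 p034, hI.s23 p014 p034, hI.s12 p014 p123, hI.s23 p014 p123, hI.s12 p014 p124, hI.s23 p014 p124, hI.s12 p014 p134, hI.s23 p014 p134, hI.s12 p014 p234, hI.s23 p014 p234, hI.s12 p023 p024, hI.s23 p023 p024, hI.s12 p023 p034, hI.s23 p023 p034, hI.s12 p023 p123, hI.s23 p023 p123, hI.s12 p023 p124, hI.s23 p023 p124, hI.s12 p023 p134, hI.s23 p023 p134, hI.s12 p023 p234, hI.s23 p023 p234, hI.s12 p024 p034, hI.s23 p024 p034, hI.s12 p024 p123, hI.s23 p024 p123, hI.s12 p024 p124, hI.s23 p024 p124, hI.s12 p024 p134, hI.s23 p024 p134, hI.s12 p024 p234, hI.s23 p024 p234, hI.s12 p034 p123, hI.s23 p034 p123, hI.s12 p034 p124, hI.s23 p034 p124, hI.s12 p034 p134, hI.s23 p034 p134, hI.s12 p034 p234, hI.s23 p034 p234, hI.s12 p123 p124, hI.s23 p123 p124, hI.s12 p123 p134, hI.s23 p123 p134, hI.s12 p123 p234, hI.s23 p123 p234, hI.s12 p124 p134, hI.s23 p124 p134, hI.s12 p124 p234, hI.s23 p124 p234, hI.s12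 p134 p234, hI.s23 p134 p234]
  abel

theorem σ2_rel (hI : IsAlt I) (D : DetData V I) (s : W) (L : Multiset V) (w0 w1 w2 w3 : V)
    (h01 : D.U (L + {w0} + {w1})) (h02 : D.U (L + {w0} + {w2})) (h03 : D.U (L + {w0} + {w3}))
    (h12 : D.U (L + {w1} + {w2})) (h13 : D.U (L + {w1} + {w3})) (h23 : D.U (L + {w2} + {w3})) :
    D.σ2 s L w1 w2 w3 - D.σ2 s L w0 w2 w3 + D.σ2 s L w0 w1 w3 - D.σ2 s L w0 w1 w2 = 0 := by
  have S := D.pl L w0 w1 w2 w3 s h01 h02 h03 h12 h13 h23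
  unfold DetData.σ2 T2
  generalize D.Q (L + {w0} + {w1}) = p01 at *
  generalize D.Q (L + {w0} + {w2}) = p02 at *
  generalize D.Q (L + {w0} + {w3}) = p03 at *
  generalize D.Q (L + {w1} + {w2}) = p12 at *
  generalize D.Q (L + {w1} + {w3}) = p13 at *
  generalize D.Q (L + {w2} + {w3}) = p23 at *
  rw [← neg_eq_zero, ← S]
  simp only [map_add, map_sub, map_neg, AddMonoidHom.add_apply, AddMonoidHom.sub_apply, AddMonoidHom.neg_apply, hI.alt12, hI.alt23, neg_zero, neg_neg,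
    hI.s12 s p01, hI.s23 s p01, hI.s12 s p02, hI.s23 s p02, hI.s12 s p03, hI.s23 s p03, hI.s12 s p12, hI.s23 s p12, hI.s12 s p13, hI.s23 s p13, hI.s12 s p23, hI.s23 s p23, hI.s12 p01 p02, hI.s23 p01 p02, hI.s12 p01 p03, hI.s23 p01 p03, hI.s12 p01 p12, hI.s23 p01 p12, hI.s12 p01 p13, hI.s23 p01 p13, hI.s12 p01 p23, hI.s23 p01 p23, hI.s12 p02 p03, hI.s23 p02 p03, hI.s12 p02 p12, hI.s23 p02 p12, hI.s12 p02 p13, hI.s23 p02 p13, hI.s12 p02 p23, hI.s23 p02 p23, hI.s12 p03 p12, hI.s23 p03 p12, hI.s12 p03 p13, hI.s23 p03 p13, hI.s12 p03 p23, hI.s23 p03 p23, hI.s12 p12 p13, hI.s23 p12 p13, hI.s12 p12 p23, hI.s23 p12 p23, hI.s12 p13 p23, hI.s23 p13 p23]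
  abel

theorem e3_val (hI : IsAlt I) (α β γ : W) (a b c : ℕ → W)
    (a0 : a 0 = α) (a1 : a 1 = α) (a2 : a 2 = -α) (a3 : a 3 = -α) (a4 : ∀ i, 4 ≤ i → a i = 0)
    (b0 : b 0 = β) (b1 : b 1 = -β) (b2 : b 2 = β) (b3 : b 3 = -β) (b4 : ∀ i, 4 ≤ i → b i = 0)
    (c0 : c 0 = γ) (c1 : c 1 = -γ) (c2 : c 2 = -γ) (c3 : c 3 = γ) (c4 : ∀ i, 4 ≤ i → c i = 0)
    (N : ℕ) (hN : 4 ≤ N) : e3 I a b c N = (8 : ℤ) • I α β γ := by
  have h4 : e3 I a b c 4 = (8 : ℤ) • I α β γ := by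
    simp only [e3, e2, Finset.sum_range_succ, Finset.sum_range_zero, a0, a1, a2, a3, b0, b1, b2, b3,
      c0, c1, c2, c3, zero_add, map_zero, AddMonoidHom.zero_apply]
    simp only [map_add, map_sub, map_neg, AddMonoidHom.add_apply, AddMonoidHom.sub_apply, AddMonoidHom.neg_apply, hI.alt12, hI.alt23, neg_zero, neg_neg,
      hI.s12 α β, hI.s23 α β, hI.s12 α γ, hI.s23 α γ, hI.s12 β γ, hI.s23 β γ]
    abel
  have z2 : ∀ (b c : ℕ → W) (m : ℕ), e2 I 0 b c m = 0 := by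
    intro b c m
    induction m with
    | zero => rfl
    | succ m ih => simp [e2, ih]
  induction N, hN using Nat.le_induction with
  | base => exact h4
  | succ n hn ih => rw [e3, ih, a4 n hn, b4 n hn, c4 n hn, z2, z2, z2]; simp

end Crest.Agent.R171
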