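import Crest.Agent.R171.Defs

/-! The stable Steinberg group as the universal Steinberg system. -/

set_option autoImplicit false

namespace Crest.Agent.R171

open Crest.AlgebraR.Steinberg

variable {R : Type} [CommRing R]

theorem stx_eq {i j : ℕ} (h : i ≠ j) (a : R) :
    stx R i j a = PresentedGroup.mk (rels R) (x i j h a) := by
  simp [stx, h, x, PresentedGroup.of]

theorem st_rel {w : FreeGroup (Gen R)} (hw : w ∈ rels R) : PresentedGroup.mk (rels R) w = 1 :=
  PresentedGroup.one_of_mem hw

def stSS (R : Type) [CommRing R] : SS ℕ R (St R) where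
  x := stx R
  add := by
    intro i j h a b
    have := st_rel (R := R) (Or.inl (Or.inl ⟨i, j, h, a, b, rfl⟩))
    rw [map_mul, map_mul, map_inv, mul_inv_eq_one] at this
    rw [stx_eq h, stx_eq h, stx_eq h, this]
  comm := by
    intro i j k l hij hkl hjk hil a b
    have := st_rel (R := R) (Or.inl (Or.inr ⟨i, j, k, l, hij, hkl, a, b, hjk, hil, rfl⟩))
    simp only [map_mul, map_inv] at this
    rw [stx_eq hij, stx_eq hkl]
    exact commutatorElement_eq_one_iff_commute.mp this
  mul := by
    intro i j l hij hjl hil a b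
    have := st_rel (R := R) (Or.inr ⟨i, j, l, hij, hjl, hil, a, b, rfl⟩)
    simp only [map_mul, map_inv, mul_inv_eq_one] at this
    rw [stx_eq hij, stx_eq hjl, stx_eq hil, this]

@[simp] theorem stSS_x (i j : ℕ) (a : R) : (stSS R).x i j a = stx R i j a := rfl

theorem st_mem_of {K : Subgroup (St R)} (h : ∀ i j, i ≠ j → ∀ r, stx R i j r ∈ K) (g : St R) :
    g ∈ K := by
  apply PresentedGroup.generated_by (rels R) K
  rintro ⟨⟨⟨i, j⟩, hij⟩, r⟩
  have := h i j hij r
  simpa [stx, (show i ≠ j from hij)] using this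

theorem st_central {g : St R} (h : ∀ i j, i ≠ j → ∀ r, Commute g (stx R i j r)) (g' : St R) :
    Commute g g' := by
  have : g' ∈ Subgroup.centralizer {g} := by
    apply st_mem_of
    intro i j hij r
    rw [Subgroup.mem_centralizer_singleton_iff]
    exact (h i j hij r).eq.symm
  rw [Subgroup.mem_centralizer_singleton_iff] at this
  exact this.symm

theorem st_lift {G : Type} [Group G] (S : SS ℕ R G) :
    ∃ f : St R →* G, ∀ i j, i ≠ j → ∀ r, f (stx R i j r) = S.x i j r := by
  refine ⟨PresentedGroup.toGroup (f := fun g : Gen R => S.x g.1.1.1 g.1.1.2 g.2) ?_, ?_⟩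
  · rintro w ((⟨i, j, h, a, b, rfl⟩ | ⟨i, j, k, l, hij, hkl, a, b, hjk, hil, rfl⟩) |
      ⟨i, j, l, hij, hjl, hil, a, b, rfl⟩)
    · simp [x, S.add h]
    · simp only [x, map_mul, map_inv, FreeGroup.lift_apply_of]
      exact commutatorElement_eq_one_iff_commute.mpr (S.comm hij hkl hjk hil a b)
    · simp only [x, map_mul, map_inv, FreeGroup.lift_apply_of, S.mul hij hjl hil, mul_inv_cancel]
  · intro i j h r
    simp [stx, h]

theorem st_hom_ext {G : Type} [Group G] {f g : St R →* G}
    (h : ∀ i j, i ≠ j → ∀ r, f (stx R i j r) = g (stx R i j r)) : f = g := by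
  refine MonoidHom.ext fun y => ?_
  exact st_mem_of (K := f.eqLocus g) h y

theorem hom_h {ι G G' : Type} [Group G] [Group G'] (f : G →* G') (S : SS ι R G) (S' : SS ι R G')
    (hf : ∀ i j, i ≠ j → ∀ r, f (S.x i j r) = S'.x i j r) {i j : ι} (hij : i ≠ j) (u : Rˣ) :
    f (S.h i j u) = S'.h i j u := by
  simp only [SS.h, SS.w, map_mul, hf i j hij, hf j i hij.symm]

theorem stMap_stx {R' : Type} [CommRing R'] (φ : R →+* R') (i j : ℕ) (r : R) :
    stMap φ (stx R i j r) = stx R' i j (φ r) := by
  by_cases h : i ≠ j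
  · rw [stx_eq h, stx_eq h]
    have : FreeGroup.map (genMap φ) (x i j h r) = x i j h (φ r) := by
      simp [x, genMap, FreeGroup.map.of]
    rw [← this]
    rfl
  · simp [stx, h]

theorem stMap_h {R' : Type} [CommRing R'] (φ : R →+* R') (i j : ℕ) (u : Rˣ) :
    stMap φ ((stSS R).h i j u) = (stSS R').h i j (Units.map (φ : R →* R') u) := by
  simp [SS.h, SS.w, stMap_stx]

end Crest.Agent.R171
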