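import Crest.Agent.R171.Coc
import Crest.Agent.R171.Lift
import Crest.Agent.R171.StSys

/-! Task SYMA: the symbol `sym φ a b c` attached to a 3-cocycle on `St R`.
* `alt3_central`: `ψ := slant of φ by κ` (`slant_coc` with `f = id`), `exists_ext`, `SS.exists_lift (stSS R)`,
  `st_lift` give a section `σ : St R →* E` of `p` (`st_hom_ext`), so `σ b, σ c` commute; `alt3 φ κ b c = ψ b c - ψ c b`.
* `acts_central`: `g'⁻¹ * g` Acts as `1, 1` (Acts.inv, Acts.mul) so commutes with all `stx`; `st_central`.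
* `alt3_ind`: `g' = g * κ`, `κ` central; `alt3_mul_left`, `alt3_central`.
* commutation: `a1 u` has equal entries at (0,1) and (2,3), so it commutes with `h 0 1 v * h 2 3 v`, which Acts like
  `a2 v`, and with `h 0 1 v * h 3 2 v = a3 v`; `a2 u` has equal entries at (0,2), (1,3) so it commutes with
  `h 0 2 v * h 3 1 v`, which Acts like `a3 v` (`commute_of_acts`).
* `sym_swap23`: conjugate by `w 2 3 1` (`alt3_conj`, `Acts.conj`, `alt3_ind` in each slot using the swaps):
  `d1` is fixed, `d2 ↔ d3`.  `sym_swap12`: conjugate by `w 1 2 1`: `d1 ↔ d2`, `d3` fixed. -/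

set_option autoImplicit false

namespace Crest.Agent.R171

open Crest.AlgebraR.Steinberg

variable {R M : Type} [CommRing R] [AddCommGroup M]

theorem H3nat (i j : ℕ) : ∃ k, k ≠ i ∧ k ≠ j := ⟨i + j + 1, by omega, by omega⟩

/-- diagonal entries of the three tori -/
def d1 (u : Rˣ) : ℕ → Rˣ := fun k => if k = 0 ∨ k = 1 then u else if k = 2 ∨ k = 3 then u⁻¹ else 1
def d2 (u : Rˣ) : ℕ → Rˣ := fun k => if k = 0 ∨ k = 2 then u else if k = 1 ∨ k = 3 then u⁻¹ else 1
def d3 (u : Rˣ) : ℕ → Rˣ := fun k => if k = 0 ∨ k = 3 then u else if k = 1 ∨ k = 2 then u⁻¹ else 1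

theorem sa_acts_mul {g g' : St R} {t t' t'' : ℕ → Rˣ} (h : (stSS R).Acts g 1 t)
    (h' : (stSS R).Acts g' 1 t') (e : ∀ k, t'' k = t k * t' k) : (stSS R).Acts (g * g') 1 t'' := by
  have := h.mul h'
  rw [mul_one] at this
  rwa [show t'' = fun k => t ((1 : Equiv.Perm ℕ) k) * t' k from funext e]

theorem sa_acts_hh {i j k l : ℕ} (hij : i ≠ j) (hkl : k ≠ l) (u v : Rˣ) {t : ℕ → Rˣ}
    (e : ∀ m, t m = dg i j u m * dg k l v m) :
    (stSS R).Acts ((stSS R).h i j u * (stSS R).h k l v) 1 t :=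
  sa_acts_mul (SS.acts_h H3nat hij u) (SS.acts_h H3nat hkl v) e

theorem acts_a1 (u : Rˣ) : (stSS R).Acts (a1 (stSS R) u) 1 (d1 u) := by
  refine sa_acts_hh (by decide) (by decide) u u fun k => ?_
  rcases k with _ | _ | _ | _ | k <;> simp [d1, dg]

theorem acts_a2 (u : Rˣ) : (stSS R).Acts (a2 (stSS R) u) 1 (d2 u) := by
  refine sa_acts_hh (by decide) (by decide) u u fun k => ?_
  rcases k with _ | _ | _ | _ | k <;> simp [d2, dg]

theorem acts_a3 (u : Rˣ) : (stSS R).Acts (a3 (stSS R) u) 1 (d3 u) := by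
  refine sa_acts_hh (by decide) (by decide) u u fun k => ?_
  rcases k with _ | _ | _ | _ | k <;> simp [d3, dg]

theorem alt3_central {φ : St R → St R → St R → M} (hφ : IsCoc3 φ) {κ b c : St R}
    (hκ : ∀ g, Commute κ g) (hbc : Commute b c) : alt3 φ κ b c = 0 := by
  obtain ⟨E, _, p, hs, hc, hψ⟩ := exists_ext (slant_coc hφ κ (MonoidHom.id (St R)) hκ)
  obtain ⟨S', hS'⟩ := (stSS R).exists_lift
    (fun a b c d => ⟨a + b + c + d + 1, by omega, by omega, by omega, by omega⟩) p hs hc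
  obtain ⟨σ, hσ⟩ := st_lift S'
  have hp : p.comp σ = MonoidHom.id (St R) := st_hom_ext fun i j hij r => by
    rw [MonoidHom.comp_apply, hσ i j hij, hS' i j hij]
    rfl
  have hp' : ∀ z, p (σ z) = z := fun z => DFunLike.congr_fun hp z
  have := hψ (σ b) (σ c) (hbc.map σ)
  simp only [hp', MonoidHom.id_apply] at this
  unfold alt3
  linear_combination (norm := abel) this

theorem acts_central {g g' : St R} {t : ℕ → Rˣ} (hg : (stSS R).Acts g 1 t)
    (hg' : (stSS R).Acts g' 1 t) (z : St R) : Commute (g⁻¹ * g') z := by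
  refine st_central (fun i j hij r => ?_) z
  have h := (hg.inv.mul hg') i j hij r
  simp only [inv_one, mul_one, Equiv.Perm.coe_one, id, inv_mul_cancel, Units.val_one, one_mul,
    stSS_x] at h
  exact mul_inv_eq_iff_eq_mul.1 h

theorem commute_of_acts {g g' b : St R} {t : ℕ → Rˣ} (hg : (stSS R).Acts g 1 t)
    (hg' : (stSS R).Acts g' 1 t) (hb : Commute g b) : Commute g' b := by
  have := hb.mul_left (acts_central hg hg' b)
  rwa [mul_inv_cancel_left] at this

theorem alt3_ind {φ : St R → St R → St R → M} (hφ : IsCoc3 φ) {g g' b c : St R} {t : ℕ → Rˣ}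
    (hg : (stSS R).Acts g 1 t) (hg' : (stSS R).Acts g' 1 t) (hb : Commute g b) (hc : Commute g c)
    (hbc : Commute b c) : alt3 φ g' b c = alt3 φ g b c := by
  have h := alt3_mul_left hφ hb hc (acts_central hg hg' b) (acts_central hg hg' c) hbc
  rwa [mul_inv_cancel_left, alt3_central hφ (acts_central hg hg') hbc, add_zero] at h

/-- `alt3` of a commuting triple of diagonal elements only depends on the diagonal entries -/
theorem alt3_ind3 {φ : St R → St R → St R → M} (hφ : IsCoc3 φ) {a a' b b' c c' : St R}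
    {s t u : ℕ → Rˣ} (ha : (stSS R).Acts a 1 s) (ha' : (stSS R).Acts a' 1 s)
    (hb : (stSS R).Acts b 1 t) (hb' : (stSS R).Acts b' 1 t)
    (hc : (stSS R).Acts c 1 u) (hc' : (stSS R).Acts c' 1 u)
    (hab : Commute a b) (hac : Commute a c) (hbc : Commute b c) :
    alt3 φ a' b' c' = alt3 φ a b c := by
  have h1 : Commute a' b := commute_of_acts ha ha' hab
  have h2 : Commute a' c := commute_of_acts ha ha' hac
  have h3 : Commute b' a' := commute_of_acts hb hb' h1.symm
  have h4 : Commute b' c := commute_of_acts hb hb' hbc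
  rw [← alt3_ind hφ ha ha' hab hac hbc, ← alt3_cyc φ a' b c,
    ← alt3_ind hφ hb hb' hbc h1.symm h2.symm, ← alt3_cyc φ b' c a',
    ← alt3_ind hφ hc hc' h2.symm h4.symm h3.symm, alt3_cyc φ c' a' b']

theorem a12_comm (u v : Rˣ) : Commute (a1 (stSS R) u) (a2 (stSS R) v) := by
  have h : (stSS R).Acts ((stSS R).h 0 1 v * (stSS R).h 2 3 v) 1 (d2 v) := by
    refine sa_acts_hh (by decide) (by decide) v v fun k => ?_
    rcases k with _ | _ | _ | _ | k <;> simp [d2, dg]
  refine (commute_of_acts h (acts_a2 v) (Commute.symm ?_)).symm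
  exact ((acts_a1 u).commute_h (by decide) (by simp [d1]) v).mul_right
    ((acts_a1 u).commute_h (by decide) (by simp [d1]) v)

theorem a13_comm (u v : Rˣ) : Commute (a1 (stSS R) u) (a3 (stSS R) v) := by
  exact ((acts_a1 u).commute_h (by decide) (by simp [d1]) v).mul_right
    ((acts_a1 u).commute_h (by decide) (by simp [d1]) v)

theorem a23_comm (u v : Rˣ) : Commute (a2 (stSS R) u) (a3 (stSS R) v) := by
  have h : (stSS R).Acts ((stSS R).h 0 2 v * (stSS R).h 3 1 v) 1 (d3 v) := by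
    refine sa_acts_hh (by decide) (by decide) v v fun k => ?_
    rcases k with _ | _ | _ | _ | k <;> simp [d3, dg]
  refine (commute_of_acts h (acts_a3 v) (Commute.symm ?_)).symm
  exact ((acts_a2 u).commute_h (by decide) (by simp [d2]) v).mul_right
    ((acts_a2 u).commute_h (by decide) (by simp [d2]) v)

def sym (φ : St R → St R → St R → M) (a b c : Rˣ) : M :=
  alt3 φ (a1 (stSS R) a) (a2 (stSS R) b) (a3 (stSS R) c)

theorem sym_mul {φ : St R → St R → St R → M} (hφ : IsCoc3 φ) (a a' b c : Rˣ) :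
    sym φ (a * a') b c = sym φ a b c + sym φ a' b c := by
  have h : (stSS R).Acts (a1 (stSS R) a * a1 (stSS R) a') 1 (d1 (a * a')) := by
    refine sa_acts_mul (acts_a1 a) (acts_a1 a') fun k => ?_
    unfold d1
    split_ifs
    · rfl
    · rw [mul_inv]
    · rw [mul_one]
  unfold sym
  rw [← alt3_mul_left hφ (a12_comm a b) (a13_comm a c) (a12_comm a' b) (a13_comm a' c)
    (a23_comm b c)]
  exact (alt3_ind hφ (acts_a1 (a * a')) h (a12_comm _ b) (a13_comm _ c) (a23_comm b c)).symm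

theorem sym_swap12 {φ : St R → St R → St R → M} (hφ : IsCoc3 φ) (a b c : Rˣ) :
    sym φ b a c = - sym φ a b c := by
  have hw := SS.acts_w (S := stSS R) H3nat (show (1 : ℕ) ≠ 2 by decide) 1
  have e1 : (fun k => d1 a ((Equiv.swap 1 2)⁻¹ k)) = d2 a := by
    funext k
    rcases k with _ | _ | _ | _ | k <;> simp [d1, d2, Equiv.swap_apply_def]
  have e2 : (fun k => d2 b ((Equiv.swap 1 2)⁻¹ k)) = d1 b := by
    funext k
    rcases k with _ | _ | _ | _ | k <;> simp [d1, d2, Equiv.swap_apply_def]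
  have e3 : (fun k => d3 c ((Equiv.swap 1 2)⁻¹ k)) = d3 c := by
    funext k
    rcases k with _ | _ | _ | _ | k <;> simp [d3, Equiv.swap_apply_def]
  have h1 := hw.conj (acts_a1 a)
  have h2 := hw.conj (acts_a2 b)
  have h3 := hw.conj (acts_a3 c)
  rw [e1] at h1
  rw [e2] at h2
  rw [e3] at h3
  unfold sym
  rw [← alt3_conj hφ ((stSS R).w 1 2 1) (a12_comm a b) (a13_comm a c) (a23_comm b c),
    alt3_ind3 hφ (acts_a2 a) h1 (acts_a1 b) h2 (acts_a3 c) h3 (a12_comm b a).symm (a23_comm a c)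
      (a13_comm b c), alt3_swap12]

theorem sym_swap23 {φ : St R → St R → St R → M} (hφ : IsCoc3 φ) (a b c : Rˣ) :
    sym φ a c b = - sym φ a b c := by
  have hw := SS.acts_w (S := stSS R) H3nat (show (2 : ℕ) ≠ 3 by decide) 1
  have e1 : (fun k => d1 a ((Equiv.swap 2 3)⁻¹ k)) = d1 a := by
    funext k
    rcases k with _ | _ | _ | _ | k <;> simp [d1, Equiv.swap_apply_def]
  have e2 : (fun k => d2 b ((Equiv.swap 2 3)⁻¹ k)) = d3 b := by
    funext k
    rcases k with _ | _ | _ | _ | k <;> simp [d2, d3, Equiv.swap_apply_def]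
  have e3 : (fun k => d3 c ((Equiv.swap 2 3)⁻¹ k)) = d2 c := by
    funext k
    rcases k with _ | _ | _ | _ | k <;> simp [d2, d3, Equiv.swap_apply_def]
  have h1 := hw.conj (acts_a1 a)
  have h2 := hw.conj (acts_a2 b)
  have h3 := hw.conj (acts_a3 c)
  rw [e1] at h1
  rw [e2] at h2
  rw [e3] at h3
  unfold sym
  rw [← alt3_conj hφ ((stSS R).w 2 3 1) (a12_comm a b) (a13_comm a c) (a23_comm b c),
    alt3_ind3 hφ (acts_a1 a) h1 (acts_a3 b) h2 (acts_a2 c) h3 (a13_comm a b) (a12_comm a c)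
      (a23_comm c b).symm, alt3_swap23]

end Crest.Agent.R171
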