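import Crest.Agent.R171.SymA

/-! Task SYMB: the Steinberg relation for `sym`.
* `alt3_perf`: `g ↦ alt3 φ g b c` is additive on the centraliser of `b, c` (`alt3_mul_left`), so it kills
  commutators; `stx i j r = [stx i n r, stx n j 1]`, `stx j i r = [stx j n r, stx n i 1]`; `h i j u` is a product of those.
* `alt3_block`: the system `(k, l, r) ↦ stx (β k) (β l) r` on `Fin 5` with values in `Z = centralizer {g}`;
  `slant_coc` for `Z.subtype`, `exists_ext`, `SS.exists_lift` (H5 for `Fin 5` by `decide`), `h_commute_one_sub` in the lifted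
  system, `hom_h`; `alt3 φ g a b = ψ a b - ψ b a`, `alt3_cyc`.
* `sym_stein`: `C := a3 c * (h 4 7 c * h 5 8 c * h 6 9 c)` has entries `c` on {0,3,4,5,6}, `c⁻¹` on {1,2,7,8,9}.
  `alt3 φ (a1 u) (a2 v) (h 4 7 c) = 0` etc. by `alt3_perf` (third index 10; `a1, a2` have entries 1 at indices ≥ 4), so
  `sym φ u v c = alt3 φ (a1 u) (a2 v) C`.  Replace `a2 v` by `h 0 3 v * (h 1 2 v)⁻¹` (`alt3_ind`) and expand
  bilinearly (`h 0 3 u, h 1 2 u, h 0 3 v, h 1 2 v, C` pairwise commute: `h_commute_one_sub`, `Acts.commute_h`).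
  Pure terms: `alt3_block` with `β = ![0,3,4,5,6]`, `![1,2,7,8,9]`; mixed terms: `alt3_perf` with {0,3,4}, {1,2,7}. -/

set_option autoImplicit false

namespace Crest.Agent.R171

open Crest.AlgebraR.Steinberg

variable {R M : Type} [CommRing R] [AddCommGroup M]

/-- `g ↦ alt3 φ g b c` as a homomorphism on the centraliser of `b, c` -/
def sbHom {G : Type} [Group G] {φ : G → G → G → M} (hφ : IsCoc3 φ) {b c : G} (hbc : Commute b c) :
    (Subgroup.centralizer {b} ⊓ Subgroup.centralizer {c} : Subgroup G) →* Multiplicative M :=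
  MonoidHom.mk' (fun g => Multiplicative.ofAdd (alt3 φ (g : G) b c)) (by
    rintro ⟨g, hg1, hg2⟩ ⟨g', hg1', hg2'⟩
    rw [← ofAdd_add]
    congr 1
    exact alt3_mul_left hφ (Subgroup.mem_centralizer_singleton_iff.mp hg1)
      (Subgroup.mem_centralizer_singleton_iff.mp hg2)
      (Subgroup.mem_centralizer_singleton_iff.mp hg1')
      (Subgroup.mem_centralizer_singleton_iff.mp hg2') hbc)

theorem sb_inv {G : Type} [Group G] {φ : G → G → G → M} (hφ : IsCoc3 φ) {g b c : G}
    (hb : Commute g b) (hc : Commute g c) (hbc : Commute b c) :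
    alt3 φ g⁻¹ b c = - alt3 φ g b c := by
  have hg : g ∈ (Subgroup.centralizer {b} ⊓ Subgroup.centralizer {c} : Subgroup G) :=
    ⟨Subgroup.mem_centralizer_singleton_iff.mpr hb, Subgroup.mem_centralizer_singleton_iff.mpr hc⟩
  have := map_inv (sbHom hφ hbc) ⟨g, hg⟩
  exact congrArg Multiplicative.toAdd this

theorem alt3_perf {φ : St R → St R → St R → M} (hφ : IsCoc3 φ) {b c : St R} {i j n : ℕ}
    (hij : i ≠ j) (hin : i ≠ n) (hjn : j ≠ n) (hbc : Commute b c)
    (hb : ∀ k l, (k = i ∨ k = j ∨ k = n) → (l = i ∨ l = j ∨ l = n) → k ≠ l → ∀ r,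
      Commute b (stx R k l r))
    (hc : ∀ k l, (k = i ∨ k = j ∨ k = n) → (l = i ∨ l = j ∨ l = n) → k ≠ l → ∀ r,
      Commute c (stx R k l r)) (u : Rˣ) :
    alt3 φ ((stSS R).h i j u) b c = 0 := by
  set Z : Subgroup (St R) := Subgroup.centralizer {b} ⊓ Subgroup.centralizer {c} with hZ
  have mem : ∀ k l, (k = i ∨ k = j ∨ k = n) → (l = i ∨ l = j ∨ l = n) → k ≠ l → ∀ r,
      stx R k l r ∈ Z := fun k l hk hl hkl r =>
    ⟨Subgroup.mem_centralizer_singleton_iff.mpr (hb k l hk hl hkl r).symm,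
      Subgroup.mem_centralizer_singleton_iff.mpr (hc k l hk hl hkl r).symm⟩
  let K : Subgroup (St R) := (sbHom hφ hbc).ker.map Z.subtype
  have hcomm : ∀ g ∈ Z, ∀ g' ∈ Z, g * g' * g⁻¹ * g'⁻¹ ∈ K := by
    intro g hg g' hg'
    refine ⟨⟨g, hg⟩ * ⟨g', hg'⟩ * ⟨g, hg⟩⁻¹ * ⟨g', hg'⟩⁻¹, ?_, rfl⟩
    simp only [SetLike.mem_coe, MonoidHom.mem_ker, map_mul, map_inv]
    rw [mul_comm (sbHom hφ hbc ⟨g, hg⟩)]
    group
  have h1 : ∀ r, stx R i j r ∈ K := by
    intro r
    have := (stSS R).mul hin hjn.symm hij r 1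
    simp only [stSS_x, mul_one] at this
    rw [← this]
    exact hcomm _ (mem _ _ (by simp) (by simp) hin _) _ (mem _ _ (by simp) (by simp) hjn.symm _)
  have h2 : ∀ r, stx R j i r ∈ K := by
    intro r
    have := (stSS R).mul hjn hin.symm hij.symm r 1
    simp only [stSS_x, mul_one] at this
    rw [← this]
    exact hcomm _ (mem _ _ (by simp) (by simp) hjn _) _ (mem _ _ (by simp) (by simp) hin.symm _)
  have h3 : (stSS R).h i j u ∈ K := by
    simp only [SS.h, SS.w, stSS_x]
    exact K.mul_mem (K.mul_mem (K.mul_mem (h1 _) (h2 _)) (h1 _))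
      (K.mul_mem (K.mul_mem (h1 _) (h2 _)) (h1 _))
  obtain ⟨z, hz, hz'⟩ := h3
  rw [← hz']
  exact congrArg Multiplicative.toAdd (MonoidHom.mem_ker.mp hz)

/-- the restricted Steinberg system inside the centraliser of `g` -/
def sbSys {g : St R} (β : Fin 5 → ℕ) (hβ : Function.Injective β)
    (hg : ∀ k l, k ≠ l → ∀ r, Commute g (stx R (β k) (β l) r)) :
    SS (Fin 5) R (Subgroup.centralizer {g} : Subgroup (St R)) where
  x := fun k l r => if h : k ≠ l then
    ⟨stx R (β k) (β l) r, Subgroup.mem_centralizer_singleton_iff.mpr (hg k l h r).symm⟩ else 1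
  add := by
    intro i j h a b
    apply Subtype.ext
    simp only [dif_pos h, Subgroup.coe_mul]
    exact (stSS R).add (hβ.ne h) a b
  comm := by
    intro i j k l hij hkl hjk hil a b
    apply Subtype.ext
    simp only [dif_pos hij, dif_pos hkl, Subgroup.coe_mul]
    exact (stSS R).comm (hβ.ne hij) (hβ.ne hkl) (hβ.ne hjk) (hβ.ne hil) a b
  mul := by
    intro i j l hij hjl hil a b
    apply Subtype.ext
    simp only [dif_pos hij, dif_pos hjl, dif_pos hil, Subgroup.coe_mul, Subgroup.coe_inv]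
    exact (stSS R).mul (hβ.ne hij) (hβ.ne hjl) (hβ.ne hil) a b

theorem alt3_block {φ : St R → St R → St R → M} (hφ : IsCoc3 φ) {g : St R} (β : Fin 5 → ℕ)
    (hβ : Function.Injective β) (hg : ∀ k l, k ≠ l → ∀ r, Commute g (stx R (β k) (β l) r))
    (u v : Rˣ) (huv : (u : R) + v = 1) :
    alt3 φ ((stSS R).h (β 0) (β 1) u) ((stSS R).h (β 0) (β 1) v) g = 0 := by
  have hψ := slant_coc hφ g (Subgroup.centralizer {g} : Subgroup (St R)).subtype
    (fun z => (Subgroup.mem_centralizer_singleton_iff.mp z.2).symm)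
  obtain ⟨E, _, p, hp, hcen, hE⟩ := exists_ext hψ
  obtain ⟨S', hS'⟩ := SS.exists_lift (sbSys β hβ hg) (by decide) p hp hcen
  have h01 : (0 : Fin 5) ≠ 1 := by decide
  have hc := S'.h_commute_one_sub (by decide) h01 u v huv
  have key := hE _ _ hc
  have e : ∀ t : Rˣ, (Subgroup.centralizer {g} : Subgroup (St R)).subtype (p (S'.h 0 1 t))
      = (stSS R).h (β 0) (β 1) t := by
    intro t
    rw [hom_h p S' (sbSys β hβ hg) hS' h01]
    simp [SS.h, SS.w, sbSys]
  simp only [e] at key
  rw [alt3_cyc]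
  unfold alt3
  linear_combination (norm := abel) key

theorem sb_mul {g g' : St R} {t t' : ℕ → Rˣ} (h : (stSS R).Acts g 1 t) (h' : (stSS R).Acts g' 1 t') :
    (stSS R).Acts (g * g') 1 (fun k => t k * t' k) := by
  simpa using h.mul h'

theorem sb_ainv {g : St R} {t : ℕ → Rˣ} (h : (stSS R).Acts g 1 t) :
    (stSS R).Acts g⁻¹ 1 (fun k => (t k)⁻¹) := by
  simpa using h.inv

theorem sb_h {i j : ℕ} (hij : i ≠ j) (u : Rˣ) : (stSS R).Acts ((stSS R).h i j u) 1 (dg i j u) :=
  SS.acts_h H3nat hij u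

theorem sb_mid {G : Type} [Group G] {φ : G → G → G → M} (hφ : IsCoc3 φ) {a b b' c : G}
    (hab : Commute a b) (hab' : Commute a b') (hac : Commute a c) (hbc : Commute b c)
    (hbc' : Commute b' c) : alt3 φ a (b * b'⁻¹) c = alt3 φ a b c - alt3 φ a b' c := by
  rw [← alt3_cyc φ a (b * b'⁻¹) c, ← alt3_cyc φ a b c, ← alt3_cyc φ a b' c,
    alt3_mul_left hφ hbc hab.symm hbc'.inv_left hab'.symm.inv_left hac.symm,
    sb_inv hφ hbc' hab'.symm hac.symm, sub_eq_add_neg]

theorem sym_stein {φ : St R → St R → St R → M} (hφ : IsCoc3 φ) (u v c : Rˣ)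
    (huv : (u : R) + v = 1) : sym φ u v c = 0 := by
  have A1 := acts_a1 (R := R) u
  have A2 := acts_a2 (R := R) v
  have A3 := acts_a3 (R := R) c
  have c12 := a12_comm (R := R) u v
  have c13 := a13_comm (R := R) u c
  have c23 := a23_comm (R := R) v c
  -- far blocks
  have far1 : ∀ i j : ℕ, 4 ≤ i → 4 ≤ j → i ≠ j → Commute (a1 (stSS R) u) ((stSS R).h i j c) :=
    fun i j hi hj hij => A1.commute_h hij (by
      simp only [d1]; rw [if_neg (by omega), if_neg (by omega), if_neg (by omega), if_neg (by omega)]) c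
  have far2 : ∀ i j : ℕ, 4 ≤ i → 4 ≤ j → i ≠ j → Commute (a2 (stSS R) v) ((stSS R).h i j c) :=
    fun i j hi hj hij => A2.commute_h hij (by
      simp only [d2]; rw [if_neg (by omega), if_neg (by omega), if_neg (by omega), if_neg (by omega)]) c
  have far0 : ∀ i j : ℕ, 4 ≤ i → 4 ≤ j → i ≠ j → i ≠ 10 → j ≠ 10 →
      alt3 φ ((stSS R).h i j c) (a1 (stSS R) u) (a2 (stSS R) v) = 0 := by
    intro i j hi hj hij hi' hj'
    refine alt3_perf hφ hij hi' hj' c12 ?_ ?_ c
    · intro k l hk hl hkl r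
      refine A1.commute_x hkl ?_ r
      simp only [d1]; rw [if_neg (by omega), if_neg (by omega), if_neg (by omega), if_neg (by omega)]
    · intro k l hk hl hkl r
      refine A2.commute_x hkl ?_ r
      simp only [d2]; rw [if_neg (by omega), if_neg (by omega), if_neg (by omega), if_neg (by omega)]
  set C : St R := a3 (stSS R) c * (stSS R).h 4 7 c * (stSS R).h 5 8 c * (stSS R).h 6 9 c with hC
  have AC : (stSS R).Acts C 1 (fun k => d3 c k * dg 4 7 c k * dg 5 8 c k * dg 6 9 c k) :=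
    sb_mul (sb_mul (sb_mul A3 (sb_h (by decide) c)) (sb_h (by decide) c)) (sb_h (by decide) c)
  have f147 := far1 4 7 (by omega) (by omega) (by omega)
  have f158 := far1 5 8 (by omega) (by omega) (by omega)
  have f169 := far1 6 9 (by omega) (by omega) (by omega)
  have f247 := far2 4 7 (by omega) (by omega) (by omega)
  have f258 := far2 5 8 (by omega) (by omega) (by omega)
  have f269 := far2 6 9 (by omega) (by omega) (by omega)
  have c1C : Commute (a1 (stSS R) u) C := ((c13.mul_right f147).mul_right f158).mul_right f169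
  have c2C : Commute (a2 (stSS R) v) C := ((c23.mul_right f247).mul_right f258).mul_right f269
  have step1 : sym φ u v c = alt3 φ (a1 (stSS R) u) (a2 (stSS R) v) C := by
    unfold sym
    rw [alt3_cyc φ C, alt3_cyc φ (a3 (stSS R) c), hC,
      alt3_mul_left hφ ((c13.mul_right f147).mul_right f158).symm
        ((c23.mul_right f247).mul_right f258).symm f169.symm f269.symm c12,
      alt3_mul_left hφ (c13.mul_right f147).symm (c23.mul_right f247).symm f158.symm f258.symm c12,
      alt3_mul_left hφ c13.symm c23.symm f147.symm f247.symm c12,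
      far0 4 7 (by omega) (by omega) (by omega) (by omega) (by omega),
      far0 5 8 (by omega) (by omega) (by omega) (by omega) (by omega),
      far0 6 9 (by omega) (by omega) (by omega) (by omega) (by omega)]
    simp
  have A2' : (stSS R).Acts ((stSS R).h 0 3 v * ((stSS R).h 1 2 v)⁻¹) 1 (d2 v) := by
    have := sb_mul (sb_h (R := R) (i := 0) (j := 3) (by decide) v)
      (sb_ainv (sb_h (R := R) (i := 1) (j := 2) (by decide) v))
    convert this using 1
    funext k
    simp only [d2, dg]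
    split_ifs <;> first | omega | simp
  have step2 : alt3 φ (a1 (stSS R) u) (a2 (stSS R) v) C
      = alt3 φ (a1 (stSS R) u) ((stSS R).h 0 3 v * ((stSS R).h 1 2 v)⁻¹) C := by
    rw [← alt3_cyc φ (a1 (stSS R) u) (a2 (stSS R) v) C,
      ← alt3_cyc φ (a1 (stSS R) u) ((stSS R).h 0 3 v * ((stSS R).h 1 2 v)⁻¹) C]
    exact (alt3_ind hφ A2 A2' c2C c12.symm c1C.symm).symm
  have hP : ∀ k, (k = 0 ∨ k = 3 ∨ k = 4 ∨ k = 5 ∨ k = 6) →
      d3 c k * dg 4 7 c k * dg 5 8 c k * dg 6 9 c k = c := by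
    rintro k (rfl | rfl | rfl | rfl | rfl) <;> simp [d3, dg]
  have hN : ∀ k, (k = 1 ∨ k = 2 ∨ k = 7 ∨ k = 8 ∨ k = 9) →
      d3 c k * dg 4 7 c k * dg 5 8 c k * dg 6 9 c k = c⁻¹ := by
    rintro k (rfl | rfl | rfl | rfl | rfl) <;> simp [d3, dg]
  have C03 : ∀ t, Commute ((stSS R).h 0 3 t) C := fun t =>
    (AC.commute_h (by decide) ((hP 0 (by simp)).trans (hP 3 (by simp)).symm) t).symm
  have C12 : ∀ t, Commute ((stSS R).h 1 2 t) C := fun t =>
    (AC.commute_h (by decide) ((hN 1 (by simp)).trans (hN 2 (by simp)).symm) t).symm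
  have X : ∀ s t : Rˣ, Commute ((stSS R).h 0 3 s) ((stSS R).h 1 2 t) := fun s t =>
    (sb_h (R := R) (i := 0) (j := 3) (by decide) s).commute_h (by decide) (by simp [dg]) t
  have P03 : Commute ((stSS R).h 0 3 u) ((stSS R).h 0 3 v) :=
    SS.h_commute_one_sub H3nat (by decide) u v huv
  have P12 : Commute ((stSS R).h 1 2 u) ((stSS R).h 1 2 v) :=
    SS.h_commute_one_sub H3nat (by decide) u v huv
  have t1 : alt3 φ ((stSS R).h 0 3 u) ((stSS R).h 0 3 v) C = 0 := by
    refine alt3_block hφ ![0, 3, 4, 5, 6] (by decide) ?_ u v huv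
    intro k l hkl r
    refine AC.commute_x (fun h => hkl ((by decide : Function.Injective ![0, 3, 4, 5, 6]) h)) ?_ r
    exact (hP _ (by fin_cases k <;> simp)).trans (hP _ (by fin_cases l <;> simp)).symm
  have t2 : alt3 φ ((stSS R).h 1 2 u) ((stSS R).h 1 2 v) C = 0 := by
    refine alt3_block hφ ![1, 2, 7, 8, 9] (by decide) ?_ u v huv
    intro k l hkl r
    refine AC.commute_x (fun h => hkl ((by decide : Function.Injective ![1, 2, 7, 8, 9]) h)) ?_ r
    exact (hN _ (by fin_cases k <;> simp)).trans (hN _ (by fin_cases l <;> simp)).symm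
  have t3 : alt3 φ ((stSS R).h 0 3 u) ((stSS R).h 1 2 v) C = 0 := by
    refine alt3_perf (n := 4) hφ (by decide) (by decide) (by decide) (C12 v) ?_ ?_ u
    · intro k l hk hl hkl r
      refine (sb_h (R := R) (i := 1) (j := 2) (by decide) v).commute_x hkl ?_ r
      simp only [dg]; rw [if_neg (by omega), if_neg (by omega), if_neg (by omega), if_neg (by omega)]
    · intro k l hk hl hkl r
      exact AC.commute_x hkl ((hP _ (by omega)).trans (hP _ (by omega)).symm) r
  have t4 : alt3 φ ((stSS R).h 1 2 u) ((stSS R).h 0 3 v) C = 0 := by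
    refine alt3_perf (n := 7) hφ (by decide) (by decide) (by decide) (C03 v) ?_ ?_ u
    · intro k l hk hl hkl r
      refine (sb_h (R := R) (i := 0) (j := 3) (by decide) v).commute_x hkl ?_ r
      simp only [dg]; rw [if_neg (by omega), if_neg (by omega), if_neg (by omega), if_neg (by omega)]
    · intro k l hk hl hkl r
      exact AC.commute_x hkl ((hN _ (by omega)).trans (hN _ (by omega)).symm) r
  rw [step1, step2, a1,
    alt3_mul_left hφ (P03.mul_right (X u v).inv_right) (C03 u)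
      ((X v u).symm.mul_right P12.inv_right) (C12 u) ((C03 v).mul_left (C12 v).inv_left),
    sb_mid hφ P03 (X u v) (C03 u) (C03 v) (C12 v),
    sb_mid hφ (X v u).symm P12 (C12 u) (C03 v) (C12 v), t1, t2, t3, t4]
  simp

end Crest.Agent.R171
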